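import Vale.Agent.P297Z.Loc.SigD
import Vale.Agent.P297Z.K.AG

/-!
# P297: the graded pieces along a disjoint union of closed subspaces
-/

open scoped TensorProduct

noncomputable section

namespace Vale.Agent.P297Z.Lc.F2

variable {X Y : Spc}

theorem pow_stab {M : GMod Y} {p : Ideal Y.R} (hp : (GMod.one Y).Stab p) (k : ℕ) :
    M.Stab (p ^ k • ⊤) := by
  induction k with
  | zero => rw [pow_zero, Ideal.one_eq_top, Submodule.top_smul]; exact GMod.stab_top _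
  | succ k ih => rw [pow_succ', mul_smul]; exact GMod.Stab.smul hp ih

section tm
variable (e : Mor X Y) (N : GMod Y)

/-- a pure tensor -/
def tm (a : X.R) (n : N.M) : (e.pull N).M := (show e.Src from a) ⊗ₜ[Y.R] n

theorem tm_add (a : X.R) (n m : N.M) : tm e N a (n + m) = tm e N a n + tm e N a m :=
  TensorProduct.tmul_add (show e.Src from a) n m

theorem tm_smul (r : Y.R) (n : N.M) : tm e N 1 (r • n) = e.φ r • tm e N 1 n :=
  (TensorProduct.smul_tmul r (show e.Src from (1 : X.R)) n).symm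

theorem smul_tm (a : X.R) (n : N.M) : a • tm e N 1 n = tm e N a n :=
  congrArg (fun b => tm e N b n) (mul_one a)

theorem act_tm (g : X.J → ℂˣ) (n : N.M) :
    (e.pull N).act g (tm e N 1 n) = tm e N 1 (N.act (tor e.ρ g) n) :=
  congrArg (fun b => tm e N b (N.act (tor e.ρ g) n)) (map_one (X.act g))

variable {e}

theorem exists_tm (he : Function.Surjective e.φ) (x : (e.pull N).M) : ∃ n, x = tm e N 1 n := by
  refine TensorProduct.induction_on (motive := fun x : e.Src ⊗[Y.R] N.M => ∃ n, x = tm e N 1 n) x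
    ⟨0, (TensorProduct.tmul_zero N.M _).symm⟩ (fun a n => ?_) ?_
  · obtain ⟨r, rfl⟩ := he a
    exact ⟨r • n, ((tm_smul e N r n).trans (smul_tm e N _ n)).symm⟩
  · rintro _ _ ⟨n, rfl⟩ ⟨m, rfl⟩
    exact ⟨n + m, (tm_add e N 1 n m).symm⟩

theorem tm_eq_zero (he : Function.Surjective e.φ) {n : N.M} (h : tm e N 1 n = 0) :
    n ∈ RingHom.ker e.φ • (⊤ : Submodule Y.R N.M) := by
  have h1 : Function.Exact (RingHom.ker e.φ).subtype (Algebra.linearMap Y.R e.Src) :=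
    fun r => ⟨fun hr => ⟨⟨r, hr⟩, rfl⟩, by rintro ⟨a, rfl⟩; exact a.2⟩
  have h2 := rTensor_exact N.M h1 he
  have h3 : (Algebra.linearMap Y.R e.Src).rTensor N.M (1 ⊗ₜ n) = 0 := by
    rw [LinearMap.rTensor_tmul, Algebra.linearMap_apply, map_one]
    exact h
  obtain ⟨t, ht⟩ := (h2 _).1 h3
  have h4 : ∀ t : RingHom.ker e.φ ⊗[Y.R] N.M, TensorProduct.lid Y.R N.M
      ((RingHom.ker e.φ).subtype.rTensor N.M t) ∈ RingHom.ker e.φ • (⊤ : Submodule Y.R N.M) := by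
    intro t
    induction t using TensorProduct.induction_on with
    | zero => simp
    | tmul a m => exact Submodule.smul_mem_smul a.2 Submodule.mem_top
    | add a b ha hb => rw [map_add, map_add]; exact Submodule.add_mem _ ha hb
  have h5 := h4 t
  rwa [ht, TensorProduct.lid_tmul, one_smul] at h5

end tm

variable {Z : Set Y.Pt} {hZ : Y.Stab Z}

theorem mem_part {W : Spc} {j : Mor X W} (P : Prj j) [IsEmpty P.E] (N : GMod X) (m : N.M) :
    j.toRes N m ∈ P.partS 0 N := by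
  induction m using N.induction with
  | h0 => exact Submodule.zero_mem _
  | hw γ m hm => exact (Subsingleton.elim (P.π γ) 0) ▸ P.mem_partS_of_wt hm
  | ha x y hx hy => exact Submodule.add_mem (P.partS 0 N) hx hy

/-- the comparison map -/
theorem exists_phi {j : Mor X (Y.sub Z hZ)} (P : Prj j) [IsEmpty P.E] {M : GMod Y}
    {U V W : Submodule Y.R M.M} (h : M.IsSq Z U V) (hW : M.Stab W) (hUW : U ≤ W)
    (hV : ∀ u : U, u.1 ∈ V → tm ((Mor.incl Y Z hZ).comp j) (M.sub W hW) 1 ⟨u.1, hUW u.2⟩ = 0) :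
    ∃ Φ : (M.sq Z hZ U V h).M →ₗ[(Y.sub Z hZ).R]
      (P.part 0 (((Mor.incl Y Z hZ).comp j).pull (M.sub W hW))).M, GMod.IsHom _ _ Φ ∧
      ∀ u : U, (Φ (Submodule.Quotient.mk u)).1 =
        tm ((Mor.incl Y Z hZ).comp j) (M.sub W hW) 1 ⟨u.1, hUW u.2⟩ := by
  let e := (Mor.incl Y Z hZ).comp j
  let t : U →ₗ[Y.R] e.Res (e.pull (M.sub W hW)) :=
    { toFun := fun u => tm e (M.sub W hW) 1 ⟨u.1, hUW u.2⟩
      map_add' := fun a b => tm_add e (M.sub W hW) 1 ⟨a.1, hUW a.2⟩ ⟨b.1, hUW b.2⟩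
      map_smul' := fun r a => tm_smul e (M.sub W hW) r ⟨a.1, hUW a.2⟩ }
  let t' := (V.submoduleOf U).liftQ t fun u hu => hV u hu
  refine ⟨{ toFun := fun x => ⟨t' x, mem_part P _ _⟩
            map_add' := fun a b => Subtype.ext (map_add t' a b)
            map_smul' := fun r a => Subtype.ext ?_ }, fun g x => Subtype.ext ?_, fun u => rfl⟩
  · obtain ⟨r, rfl⟩ := Ideal.Quotient.mk_surjective r
    exact t'.map_smul r a
  · obtain ⟨u, rfl⟩ := Submodule.Quotient.mk_surjective _ x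
    refine Eq.trans ?_ (act_tm e (M.sub W hW) (tor P.ret g) ⟨u.1, hUW u.2⟩).symm
    have e1 : tor e.ρ (tor P.ret g) = g := P.tor_ret g
    rw [e1]
    rfl

section alg
variable {R S : Type} [CommRing R] [CommRing S] {M A : Type} [AddCommGroup M] [Module R M]
  [AddCommGroup A] [Module S A]

theorem pow_mul_mem {p q : Ideal R} {r : R} (h : ∀ a ∈ p, r * a ∈ q) (k : ℕ) {m : M}
    (hm : m ∈ p ^ k • (⊤ : Submodule R M)) : r ^ k • m ∈ q ^ k • (⊤ : Submodule R M) := by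
  induction k generalizing m with
  | zero => simp
  | succ k ih =>
    rw [pow_succ', mul_smul] at hm
    refine Submodule.smul_induction_on hm (fun a ha n hn => ?_) fun x y hx hy => ?_
    · have e : r ^ (k + 1) • a • n = (r * a) • r ^ k • n := by
        rw [smul_smul, smul_smul]
        congr 1
        ring
      rw [e, pow_succ' q, mul_smul]
      exact Submodule.smul_mem_smul (h a ha) (ih hn)
    · rw [smul_add]
      exact Submodule.add_mem _ hx hy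

theorem sub_mem {p : Ideal R} {W : Submodule R M}
    {u : W} (h : u ∈ p • (⊤ : Submodule R W)) : u.1 ∈ p • W := by
  refine Submodule.smul_induction_on h (fun a ha n _ => Submodule.smul_mem_smul ha n.2)
    fun x y hx hy => Submodule.add_mem _ hx hy

theorem exists_sep [Algebra ℂ S] (z : S →ₐ[ℂ] ℂ) (π : R →+* S) {κ : Type} [Fintype κ]
    (p : κ → Ideal R) : ∃ r, z (π r) ≠ 0 ∧ ∀ i, r ∉ p i → ∀ a ∈ p i, z (π a) = 0 := by
  have : ∀ i, ∃ a, z (π a) ≠ 0 ∧ ((∃ a ∈ p i, z (π a) ≠ 0) → a ∈ p i) := fun i => by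
    by_cases h : ∃ a ∈ p i, z (π a) ≠ 0
    · obtain ⟨a, h1, h2⟩ := h
      exact ⟨a, h2, fun _ => h1⟩
    · exact ⟨1, by rw [map_one]; exact ev_one, fun h' => absurd h' h⟩
  choose a h1 h2 using this
  refine ⟨∏ i, a i, ?_, fun i hi b hb => ?_⟩
  · rw [map_prod, map_prod]
    exact Finset.prod_ne_zero_iff.2 fun i _ => h1 i
  · by_contra h
    exact hi (Ideal.prod_mem _ (Finset.mem_univ i) (h2 i ⟨b, hb, h⟩))

theorem bij_alg [Algebra ℂ S] (z : S →ₐ[ℂ] ℂ) (π : R →+* S) {κ : Type} [Fintype κ]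
    {B : κ → Type} [∀ i, AddCommGroup (B i)] [∀ i, Module S (B i)] {p : κ → Ideal R} {q : Ideal R}
    (hmem : ∀ r, (∀ i, r ∈ p i) → r ∈ q) (k : ℕ)
    (hUW : ∀ i, q ^ k • (⊤ : Submodule R M) ≤ p i ^ k • ⊤)
    (hd : ∀ i i', (∀ a ∈ p i, z (π a) = 0) → (∀ a ∈ p i', z (π a) = 0) → i = i')
    (μ : (q ^ k • (⊤ : Submodule R M) : Submodule R M) → A) (μ1 : Function.Surjective μ)
    (μ2 : ∀ r u, μ (r • u) = π r • μ u) (μ3 : ∀ u, u.1 ∈ q ^ (k + 1) • (⊤ : Submodule R M) → μ u = 0)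
    (τ : ∀ i, (p i ^ k • (⊤ : Submodule R M) : Submodule R M) → B i)
    (τ1 : ∀ i, Function.Surjective (τ i)) (τ2 : ∀ i r u, τ i (r • u) = π r • τ i u)
    (τ3 : ∀ i u, τ i u = 0 → u.1 ∈ p i • p i ^ k • (⊤ : Submodule R M))
    (τ4 : ∀ i, ∀ r ∈ p i, ∀ b : B i, π r • b = 0) (Φ : ∀ i, A →ₗ[S] B i)
    (hΦ : ∀ i u, Φ i (μ u) = τ i ⟨u.1, hUW i u.2⟩) :
    InjAt z (LinearMap.pi Φ) ∧ SurjAt z (LinearMap.pi Φ) := by
  classical
  obtain ⟨r, hr1, hz⟩ := exists_sep z π p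
  have hrk : z (π (r ^ (k + 1))) ≠ 0 := by
    rw [map_pow]; exact ev_pow hr1 _
  have hzero : ∀ i, r ∈ p i → ∀ x : B i, π (r ^ (k + 1)) • x = 0 := fun i hi =>
    τ4 i _ (Ideal.pow_mem_of_mem _ hi _ k.succ_pos)
  by_cases hT : ∀ i, r ∈ p i
  · refine ⟨fun x _ => ⟨π r, hr1, ?_⟩, fun b => ⟨_, 0, hrk, ?_⟩⟩
    · obtain ⟨u, rfl⟩ := μ1 x
      rw [← μ2]
      refine μ3 _ ?_
      rw [pow_succ', mul_smul]
      exact Submodule.smul_mem_smul (hmem r hT) u.2
    · rw [map_zero]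
      exact funext fun i => (hzero i (hT i) (b i)).symm
  push Not at hT
  obtain ⟨i, hi⟩ := hT
  have hne : ∀ i', i' ≠ i → r ∈ p i' := fun i' h => by
    by_contra h'
    exact h (hd i' i (hz i' h') (hz i hi))
  have hrq : ∀ a ∈ p i, r * a ∈ q := fun a ha => hmem _ fun i' => by
    by_cases h : i' = i
    · exact h ▸ Ideal.mul_mem_left _ r ha
    · exact Ideal.mul_mem_right a _ (hne i' h)
  refine ⟨fun x hx => ⟨π (r ^ (k + 1)), hrk, ?_⟩, fun b => ?_⟩
  · obtain ⟨u, rfl⟩ := μ1 x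
    rw [← μ2]
    refine μ3 _ (pow_mul_mem hrq _ ?_)
    rw [pow_succ', mul_smul]
    exact τ3 i _ ((hΦ i u).symm.trans (congrFun hx i))
  · obtain ⟨n, hn⟩ := τ1 i (b i)
    have h1 : r ^ k • n.1 ∈ q ^ k • (⊤ : Submodule R M) := pow_mul_mem hrq k n.2
    refine ⟨_, μ (r • ⟨r ^ k • n.1, h1⟩), hrk, funext fun i' => ?_⟩
    rw [LinearMap.pi_apply, μ2, map_smul, hΦ, Pi.smul_apply]
    by_cases h : i' = i
    · subst h
      rw [← hn, ← τ2, ← τ2, pow_succ', mul_smul]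
      rfl
    · rw [hzero i' (hne i' h), τ4 i' r (hne i' h)]

end alg

theorem phi_zero {e : Mor X Y} {M : GMod Y} {U W : Submodule Y.R M.M} (hW : M.Stab W)
    (hUW : U ≤ W) {q : Ideal Y.R} (hq : q ≤ RingHom.ker e.φ) (u : M.M) (hu : u ∈ q • U) :
    tm e (M.sub W hW) 1 ⟨u, hUW (Submodule.smul_le_right hu)⟩ = 0 := by
  refine Submodule.smul_induction_on' (p := fun u hu =>
    tm e (M.sub W hW) 1 ⟨u, hUW (Submodule.smul_le_right hu)⟩ = 0)
    hu (fun a ha n hn => ?_) fun x hx y hy h1 h2 => ?_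
  · refine (tm_smul e (M.sub W hW) a ⟨n, hUW hn⟩).trans ?_
    rw [show e.φ a = 0 from hq ha, zero_smul]
  · exact (tm_add e (M.sub W hW) 1 ⟨x, hUW (Submodule.smul_le_right hx)⟩
      ⟨y, hUW (Submodule.smul_le_right hy)⟩).trans (by rw [h1, h2, add_zero])

/-- the graded pieces of the intersection of the ideals of disjoint closed subspaces -/
theorem sqc_sum {κ : Type} [Fintype κ] {X : κ → Spc} (j : ∀ i, Mor (X i) (Y.sub Z hZ))
    (P : ∀ i, Prj (j i)) (hP : ∀ i, IsEmpty (P i).E) (hj : ∀ i, Function.Surjective (j i).φ)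
    (p : κ → Ideal Y.R) (hp : ∀ i, p i = RingHom.ker ((Mor.incl Y Z hZ).comp (j i)).φ)
    (hs : ∀ i, (GMod.one Y).Stab (p i))
    (hd : ∀ z : (Y.sub Z hZ).Pt, ∀ i i', (∀ a ∈ p i, z.1 (Ideal.Quotient.mk _ a) = 0) →
      (∀ a ∈ p i', z.1 (Ideal.Quotient.mk _ a) = 0) → i = i') {q : Ideal Y.R}
    (hq : (GMod.one Y).Stab q) (hle : ∀ i, q ≤ p i) (hmem : ∀ r, (∀ i, r ∈ p i) → r ∈ q)
    (M : GMod Y) (k : ℕ) :
    M.sqc Z hZ (q ^ k • ⊤) (q ^ (k + 1) • ⊤) =
      ∑ i, cls ((P i).part 0 (((Mor.incl Y Z hZ).comp (j i)).pull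
        (M.sub (p i ^ k • ⊤) (pow_stab (hs i) k)))) := by
  have hvan : Y.van Z ≤ q := fun r hr => hmem r fun i => by
    rw [hp]
    exact (congrArg (j i).φ (Ideal.Quotient.eq_zero_iff_mem.2 hr)).trans (map_zero _)
  have hsq : M.IsSq Z (q ^ k • ⊤) (q ^ (k + 1) • ⊤) := ⟨pow_stab hq k, pow_stab hq _, by
    rw [pow_succ', mul_smul]; exact Submodule.smul_mono_left hvan⟩
  have hUW : ∀ i, q ^ k • (⊤ : Submodule Y.R M.M) ≤ p i ^ k • ⊤ := fun i =>
    Submodule.smul_mono_left (Ideal.pow_right_mono (hle i) k)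
  have hsurj : ∀ i, Function.Surjective ((Mor.incl Y Z hZ).comp (j i)).φ := fun i =>
    (hj i).comp Ideal.Quotient.mk_surjective
  choose Φ hΦ hΦ' using fun i => exists_phi (hZ := hZ) (P i) hsq (pow_stab (hs i) k) (hUW i)
    fun u hu => phi_zero _ (hUW i) (hp i ▸ hle i) u.1 (by rwa [← mul_smul, ← pow_succ'])
  rw [GMod.sqc_eq hZ hsq, ← cls_pi]
  refine cls_of_bij (f := LinearMap.pi Φ) (fun g x => funext fun i => hΦ i g x) fun z => ?_
  refine bij_alg (M := M.M) (S := (Y.sub Z hZ).R) (A := (M.sq Z hZ _ _ hsq).M)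
    (B := fun i => ((P i).part 0 (((Mor.incl Y Z hZ).comp (j i)).pull
      (M.sub (p i ^ k • ⊤) (pow_stab (hs i) k)))).M) z.1 (Ideal.Quotient.mk (Y.van Z)) hmem k hUW
    (hd z) Submodule.Quotient.mk (Submodule.Quotient.mk_surjective _) (fun _ _ => rfl)
    (fun u hu => (Submodule.Quotient.mk_eq_zero _).2 hu)
    (fun i n => ⟨tm ((Mor.incl Y Z hZ).comp (j i)) (M.sub _ (pow_stab (hs i) k)) 1 n,
      mem_part (P i) _ _⟩) (fun i b => ?_) (fun i r u => Subtype.ext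
      (tm_smul ((Mor.incl Y Z hZ).comp (j i)) (M.sub _ (pow_stab (hs i) k)) r u))
    (fun i u hu => ?_) (fun i r hr b => Subtype.ext ?_) Φ fun i u => Subtype.ext (hΦ' i u)
  · obtain ⟨n, hn⟩ := exists_tm _ (hsurj i) b.1
    exact ⟨n, Subtype.ext hn.symm⟩
  · have h1 := tm_eq_zero _ (hsurj i) (congrArg Subtype.val hu)
    rw [← hp] at h1
    exact sub_mem h1
  · show ((Mor.incl Y Z hZ).comp (j i)).φ r • ((j i).toRes _).symm b.1 = 0
    rw [show ((Mor.incl Y Z hZ).comp (j i)).φ r = 0 from (hp i ▸ hr :), zero_smul]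

end Vale.Agent.P297Z.Lc.F2
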