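import Vale.Agent.P297Z.Loc.Sig4

/-!
# P297: the map sigma
-/

set_option linter.all false

noncomputable section

namespace Vale.Agent.P297Z

open GMod Submodule

variable {Y : Spc}

namespace Sg

theorem mem_radical {A : Type} [CommRing A] [Algebra ℂ A] [Algebra.FiniteType ℂ A] {I : Ideal A}
    {r : A} (h : ∀ z : A →ₐ[ℂ] ℂ, (∀ x ∈ I, z x = 0) → z r = 0) : r ∈ I.radical := by
  have : IsJacobsonRing A := isJacobsonRing_of_finiteType (A := ℂ)
  rw [Ideal.radical_eq_jacobson]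
  refine Ideal.mem_sInf.2 fun {m} ⟨h1, h2⟩ => ?_
  let _ := Ideal.Quotient.field m
  have := finite_of_finite_type_of_isJacobsonRing ℂ (A ⧸ m)
  let e : ℂ ≃ₐ[ℂ] A ⧸ m := AlgEquiv.ofBijective (Algebra.ofId ℂ (A ⧸ m))
    IsAlgClosed.algebraMap_bijective_of_isIntegral
  have k : ∀ x, (e.symm : A ⧸ m →ₐ[ℂ] ℂ).comp (Ideal.Quotient.mkₐ ℂ m) x = 0 ↔ x ∈ m := fun x => by
    simp [Ideal.Quotient.eq_zero_iff_mem]
  exact (k r).1 (h _ fun x hx => (k x).2 (h1 hx))

variable {I : Ideal Y.R} {Z : Set Y.Pt}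

theorem exists_pow (mem : ∀ z, z ∈ Z ↔ ∀ a ∈ I, z.1 a = 0) :
    ∃ w : ℕ, 0 < w ∧ Y.van Z ^ w ≤ sat Y I := by
  have h : Y.van Z * Y.b ≤ I.radical := Ideal.mul_le.2 fun r hr s hs => mem_radical fun z hz => by
    by_cases e : z s = 0
    · rw [map_mul, e, mul_zero]
    · rw [map_mul, hr ⟨z, s, hs, e⟩ ((mem _).2 hz), zero_mul]
  obtain ⟨n, hn⟩ := Ideal.exists_pow_le_of_le_radical_of_fg h (IsNoetherian.noetherian _)
  refine ⟨n + 1, n.succ_pos, (Ideal.pow_le_pow_right n.le_succ).trans fun a ha z => ?_⟩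
  obtain ⟨f, hf, k⟩ := z.2
  refine ⟨f ^ n, ev_pow k n, hn ?_⟩
  rw [mul_pow, smul_eq_mul, mul_comm (f ^ n)]
  exact Ideal.mul_mem_mul ha (Ideal.pow_mem_pow hf n)

theorem pow_stab {M : GMod Y} {J : Ideal Y.R} (h : (one Y).Stab J) {U : Submodule Y.R M.M}
    (hU : M.Stab U) (k : ℕ) : M.Stab (J ^ k • U) := by
  induction k with
  | zero => rwa [pow_zero, Ideal.one_eq_top, top_smul]
  | succ k ih => rw [pow_succ', mul_smul]; exact Stab.smul h ih

/-- the standard filtration -/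
def std (Z : Set Y.Pt) (I : Ideal Y.R) (w : ℕ) (A : Type) [AddCommGroup A] [Module Y.R A] (l : ℤ) :
    Submodule Y.R A := ⨆ b : ℕ, Y.van Z ^ (l - w * b).toNat • I ^ b • ⊤

theorem az_std (stab : (one Y).Stab I) (hZ : Y.Stab Z) {w : ℕ} (hw : Y.van Z ^ w ≤ sat Y I)
    (M : GMod Y) : Az M Z I w (std Z I w M.M) where
  stab := fun l g m hm => by
    refine iSup_induction _ (motive := fun m => M.act g m ∈ std Z I w M.M l) hm
      (fun b m hm => mem_iSup_of_mem b (pow_stab (Spc.van_act hZ) (pow_stab stab M.stab_top b)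
        _ g m hm)) (by rw [map_zero]; exact zero_mem _) fun x y hx hy => ?_
    rw [map_add]
    exact add_mem hx hy
  anti := fun l => iSup_mono fun b => smul_mono_left (Ideal.pow_le_pow_right (by omega))
  nil := fun l => by
    rw [std, smul_iSup]
    refine iSup_mono fun b => ?_
    rw [← mul_smul, ← pow_succ']
    exact smul_mono_left (Ideal.pow_le_pow_right (by omega))
  mul := fun l => by
    rw [std, smul_iSup]
    refine iSup_le fun b => le_iSup_of_le (b + 1) (le_of_eq ?_)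
    rw [smul_comm, ← mul_smul I, ← pow_succ']
    congr 3
    push_cast
    ring
  st := ⟨0, fun l hl => iSup_le fun b => by
    cases b with
    | zero =>
      rw [show (l + w - w * (0 : ℕ)).toNat = w + (l - w * (0 : ℕ)).toNat by omega, pow_add, mul_smul]
      exact (smul_mono hw (le_iSup (fun b : ℕ => Y.van Z ^ (l - w * b).toNat • I ^ b •
        (⊤ : Submodule Y.R M.M)) 0)).trans (sat_smul I)
    | succ b =>
      rw [pow_succ', mul_smul, smul_comm, show l + w - w * (b + 1 : ℕ) = l - w * b by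
        push_cast; ring]
      exact (smul_mono le_rfl (le_iSup (fun b : ℕ => Y.van Z ^ (l - w * b).toNat • I ^ b •
        (⊤ : Submodule Y.R M.M)) b)).trans (le_sat _)⟩
  top := ⟨0, fun l hl => .trans (le_iSup_of_le 0 (by
    rw [show (l - w * (0 : ℕ)).toNat = 0 by omega]; simp)) (le_sat _)⟩

/-- the index of the stretched filtration -/
def idx (w : ℕ) (l : ℤ) : ℕ := (l + w - 1).toNat / w

section idx
variable {w : ℕ} (hw : 0 < w)
include hw

theorem idx_le {l : ℤ} {k : ℕ} : idx w l ≤ k ↔ l ≤ k * w := by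
  rw [idx, ← Nat.lt_succ_iff, Nat.div_lt_iff_lt_mul hw, Nat.succ_mul, ← Nat.cast_mul]
  omega

theorem le_idx (l : ℤ) : l ≤ idx w l * w := (idx_le hw).1 le_rfl

theorem idx_add (l : ℤ) {j : ℤ} (hj : j ≤ w) : idx w (l + j) ≤ idx w l + 1 :=
  (idx_le hw).2 (by have := le_idx hw l; push_cast; linarith)

theorem lt_idx {l : ℤ} {k : ℕ} (h : k * w < l) : k < idx w l :=
  not_le.1 fun e => h.not_ge ((idx_le hw).1 e)

theorem az_idx {M : GMod Y} {F : ℕ → Submodule Y.R M.M} (h : M.Adm Z I F) :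
    Az M Z I w fun l => F (idx w l) :=
  have a : Antitone F := antitone_nat_of_succ_le h.anti
  { stab := fun _ => h.stab _
    anti := fun l => a ((idx_le hw).2 ((by omega : l ≤ l + 1).trans (le_idx hw _)))
    nil := fun l => (h.nil _).trans (a (idx_add hw l (by omega)))
    mul := fun l => (h.mul _).trans (a (idx_add hw l le_rfl))
    st := h.stable.elim fun l₀ k => ⟨l₀ * w + 1, fun l hl => by
      have e := lt_idx hw (k := l₀) (l := l) hl
      refine (a ?_).trans (k _ e.le)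
      obtain ⟨m, hm⟩ : ∃ m, idx w l = m + 1 := ⟨idx w l - 1, by omega⟩
      have := mt (idx_le hw (l := l) (k := m)).2 (by omega)
      exact lt_idx hw (by rw [hm]; push_cast; linarith)⟩
    top := ⟨0, fun l hl => by
      rw [Nat.le_zero.1 ((idx_le hw (k := 0)).2 (by simpa using hl))]; exact h.top⟩ }

theorem fv_idx {hZ : Y.Stab Z} {C : Bun (Y.sub Z hZ)} (hK : Fin hZ I C w) {M : GMod Y}
    {F : ℕ → Submodule Y.R M.M} (h : M.Adm Z I F) : ∃ L, ∀ L' ≥ L,
      Del C.lx (fun k => M.sqc Z hZ (F k) (F (k + 1))) L' = 0 ∧ fv C w M (fun l => F (idx w l)) =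
        ∑ l ∈ Finset.range L', Del C.lx (fun k => M.sqc Z hZ (F k) (F (k + 1))) l := by
  have a : Antitone F := antitone_nat_of_succ_le h.anti
  have w0 : (0 : ℤ) < w := by omega
  let h' : ℤ → G (Y.sub Z hZ) := fun l => M.sqc Z hZ (F (idx w l)) (F (idx w (l + 1)))
  have e0 : ∀ l : ℤ, (∀ k : ℕ, l ≠ k * w) → h' l = 0 := fun l hl => sqc_zero hZ
    ((a ((idx_le hw).2 (lt_of_le_of_ne (le_idx hw l) (hl _)))).trans (le_sat _))
  have e1 : ∀ k : ℕ, Dz C w h' (k * w) = Del C.lx (fun k => M.sqc Z hZ (F k) (F (k + 1))) k :=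
    fun k => del_eq C _ h' k fun i => by
      split_ifs with hi
      · have b : idx w ((k - i : ℕ) * w) = k - i := le_antisymm ((idx_le hw).2 le_rfl)
          (by exact_mod_cast le_of_mul_le_mul_right (le_idx hw ((k - i : ℕ) * w)) w0)
        have b' : idx w ((k - i : ℕ) * w + 1) = k - i + 1 := le_antisymm
          ((idx_add hw _ (j := 1) (by omega)).trans (by rw [b])) (lt_idx hw (lt_add_one _))
        rw [← Nat.cast_sub hi]
        simp only [h', b, b']
      · exact e0 _ fun m e => by have := mul_right_cancel₀ w0.ne' e; omega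
  obtain ⟨L, hL⟩ := Set.Finite.bddAbove ((az_idx hw h).fin hK)
  have e2 : ∀ k : ℕ, L.toNat + 1 ≤ k → Dz C w h' (k * w) = 0 := fun k hk => by
    by_contra e
    have : (k : ℤ) * w ≤ L := hL e
    have : L < k := by omega
    nlinarith
  refine ⟨L.toNat + 1, fun L' hl => ⟨(e1 _).symm.trans (e2 _ hl), ?_⟩⟩
  refine (finsum_eq_sum_of_support_subset (Dz C w h') (s := (Finset.range L').image
    fun k : ℕ => (k : ℤ) * w) fun l hl' => ?_).trans ((Finset.sum_image fun x _ y _ e => by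
      exact_mod_cast mul_right_cancel₀ w0.ne' e).trans (Finset.sum_congr rfl fun k _ => e1 k))
  by_cases e : ∃ k : ℕ, l = k * w
  · obtain ⟨k, rfl⟩ := e
    exact Finset.mem_coe.2 (Finset.mem_image_of_mem _ (Finset.mem_range.2
      (not_le.1 fun e => hl' (e2 k (hl.trans e)))))
  · refine (hl' (Finset.sum_eq_zero fun i _ => ?_)).elim
    rw [e0 _ fun k hk => e ⟨k + i, by push_cast; linarith⟩, map_zero, smul_zero]

end idx

end Sg

open Sg

/-- the map sigma -/
theorem exists_sigma (I : Ideal Y.R) (stab : (one Y).Stab I) (Z : Set Y.Pt) (hZ : Y.Stab Z)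
    (mem : ∀ z, z ∈ Z ↔ ∀ a ∈ I, z.1 a = 0) (C : Bun (Y.sub Z hZ))
    (θ : C.M.M →ₗ[(Y.sub Z hZ).R] ((Mor.incl Y Z hZ).pull ((one Y).sub I stab)).M)
    (hom : C.M.IsHom _ θ) (surj : ∀ z : (Y.sub Z hZ).Pt, SurjAt z.1 θ) :
    ∃ σ : G Y →+ G (Y.sub Z hZ),
      (∀ γ x, σ (kact Y (line Y γ) x) = kact _ (line (Y.sub Z hZ) γ) (σ x)) ∧
      ∀ (M : GMod Y) (F : ℕ → Submodule Y.R M.M), M.Adm Z I F → ∃ L, ∀ L' ≥ L,
        Del C.lx (fun k => M.sqc Z hZ (F k) (F (k + 1))) L' = 0 ∧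
        σ (cls M) = ∑ l ∈ Finset.range L', Del C.lx (fun k => M.sqc Z hZ (F k) (F (k + 1))) l := by
  obtain ⟨w, hw, hn⟩ := exists_pow mem
  have w0 : (0 : ℤ) < w := by omega
  have hK : Fin hZ I C w := fin stab hZ C θ hom surj w0
  have hs := az_std stab hZ hn
  obtain ⟨σ, hσ⟩ := G_lift' (fun M => fv C w M (std Z I w M.M))
    (fun A B D f g hf hg hi he hj => by
      rw [fv_ses hK w0 (hs B) hf hg hi he hj, fv_eq hK w0 ((hs B).comap w0 hf hi) (hs A),
        fv_eq hK w0 ((hs B).map hg hj) (hs D)])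
    fun M h => (congrArg (val C w) (funext fun l => sqc_zero hZ fun m _ z =>
      (h z m).imp fun r k => ⟨k.1, k.2 ▸ zero_mem _⟩)).trans val_zero
  refine ⟨σ, fun γ x => DFunLike.congr_fun (G_ext (ψ := σ.comp (kact Y (line Y γ)))
    (ψ' := (kact _ (line (Y.sub Z hZ) γ)).comp σ) fun M => ?_) x, fun M F h => ?_⟩
  · rw [AddMonoidHom.comp_apply, AddMonoidHom.comp_apply, kact_line, hσ, hσ]
    exact (congrArg (val C w) (funext fun l => sqc_shift hZ γ)).trans (val_kact ((hs M).fin hK) _)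
  · rw [hσ, fv_eq hK w0 (hs M) (az_idx hw h)]
    exact fv_idx hw hK h

end Vale.Agent.P297Z
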