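import Vale.Agent.P297Z.Loc.Defs
import Vale.Agent.P297Z.Loc.Sig
import Vale.Agent.P297Z.Loc.Fix2A
import Vale.Agent.P297Z.K.AP

/-!
# P297: the multiplicity map on the linear subspaces
-/

noncomputable section

namespace Vale.Agent.P297Z.Lc

namespace F2

theorem adm {Y : Spc} {M : GMod Y} {Z : Set Y.Pt} {I J q : Ideal Y.R} (hq : (GMod.one Y).Stab q)
    (h1 : Y.van Z ≤ q) (h2 : I ≤ q) (hJ : ∀ a ∈ J, ∀ m : M.M, a • m = 0)
    (h3 : ∀ y : Y.Pt, ∃ r, y.1 r ≠ 0 ∧ ∀ a ∈ q, r * a ∈ I ⊔ J) :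
    M.Adm Z I fun k => q ^ k • ⊤ where
  stab l := pow_stab hq l
  anti l := Submodule.smul_mono_left (Ideal.pow_le_pow_right l.le_succ)
  top m _ z := ⟨1, ev_one, by simp⟩
  nil l := by rw [pow_succ', mul_smul]; exact Submodule.smul_mono_left h1
  mul l := by rw [pow_succ', mul_smul]; exact Submodule.smul_mono_left h2
  stable := ⟨0, fun l _ m hm z => by
    obtain ⟨r, hr, h⟩ := h3 z
    refine ⟨r, hr, ?_⟩
    rw [pow_succ', mul_smul] at hm
    refine Submodule.smul_induction_on hm (fun a ha n hn => ?_) fun x y hx hy => ?_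
    · obtain ⟨b, hb, c, hc, e⟩ := Submodule.mem_sup.1 (h a ha)
      rw [← mul_smul r a n, ← e, add_smul, hJ c hc, add_zero]
      exact Submodule.smul_mem_smul hb hn
    · rw [smul_add]
      exact Submodule.add_mem _ hx hy⟩

theorem push_Del (h : Api) {X Q : Spc} {j : Mor X Q} (P : Prj j) (C : Bun Q) (u : ℕ → G X)
    (l : ℕ) : push P (Lc.Del (pullK j C.cls) u l) =
      P297Z.Del C.lx (fun k => push P (u k)) l := by
  simp only [Lc.Del, P297Z.Del, map_sum, map_zsmul, ← h.lam_pull, push_proj, h.lam_cls, Bun.lx]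

theorem Del_sum {Q : Spc} {κ : Type} (s : Finset κ) (t : ℕ → K0 Q) (u : κ → ℕ → G Q) (l : ℕ) :
    P297Z.Del t (fun k => ∑ i ∈ s, u i k) l = ∑ i ∈ s, P297Z.Del t (u i) l := by
  simp only [P297Z.Del, map_sum, Finset.smul_sum]
  exact Finset.sum_comm

variable {ι : Type} [Fintype ι] [Nonempty ι] {d : ι → ℤ} {O : Obs ι d}

theorem gr_eq {c : O.Comp} (g : Img c) {w : ℤ} (h : c.w = w) (k : ℕ) :
    g.gr k = g.e.pull ((Ow d w).sub (g.p ^ k • ⊤) (pow_stab g.p_stab k)) := by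
  subst h
  rfl

theorem on_comp {c : O.Comp} (g : Img c) {z : O.Q.Pt}
    (h : ∀ a ∈ g.p, z.1 (Ideal.Quotient.mk _ a) = 0) : ∃ x, O.Q.Orb (c.j.onPt x) z :=
  (g.pts z).1 fun r hr => by
    obtain ⟨a, rfl⟩ := Ideal.Quotient.mk_surjective r
    exact h a hr

theorem exists_pt {c : O.Comp} (g : Img c) {z : O.Q.Pt} (h : ∃ x, O.Q.Orb (c.j.onPt x) z) :
    ∃ x : (g.F.prod ptT).Pt, ∀ r, x.1 (g.i.φ r) = z.1 r := by
  have h1 := (g.pts z).2 h
  let u : (g.F.prod ptT).R →ₐ[ℂ] ℂ :=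
    (Ideal.Quotient.liftₐ (RingHom.ker g.i.φ) z.1 h1).comp
      (Ideal.quotientKerAlgEquivOfSurjective g.onto).symm.toAlgHom
  have h2 : ∀ r, u (g.i.φ r) = z.1 r := fun r => by
    have e : (Ideal.quotientKerAlgEquivOfSurjective g.onto).symm (g.i.φ r) =
        Ideal.Quotient.mk _ r := (AlgEquiv.symm_apply_eq _).2 rfl
    exact congrArg (Ideal.Quotient.liftₐ (RingHom.ker g.i.φ) z.1 h1) e
  refine ⟨⟨u, (g.P.pts u).2 ⟨?_, fun e => (g.emp.false e).elim⟩⟩, h2⟩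
  obtain ⟨a, ha, h3⟩ := z.2
  exact ⟨a, ha, (h2 a).trans_ne h3⟩

theorem loc_gen {κ : Type} {F : κ → O.Comp} (g : ∀ i, Img (F i)) (hg : ∀ i, (g i).Reg)
    (hc : ∀ z : O.Q.Pt, (∃ w, ∀ a, d a ≠ w → z.1 (O.inc.φ (Amb.x d a)) = 0) →
      ∃ i x, O.Q.Orb ((F i).j.onPt x) z) (w : ℤ) (y : (Amb ι d).Pt) :
    ∃ r, y.1 r ≠ 0 ∧ ∀ a, (∀ i, (F i).w = w → a ∈ (g i).p) → r * a ∈ O.I ⊔ Jw d w := by
  by_cases h1 : ∀ a ∈ O.I, y.1 a = 0
  swap
  · push Not at h1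
    obtain ⟨r, h1, h2⟩ := h1
    exact ⟨r, h2, fun a _ => Ideal.mem_sup_left (Ideal.mul_mem_right a _ h1)⟩
  by_cases h2 : ∀ a, d a ≠ w → y.1 (Amb.x d a) = 0
  swap
  · push Not at h2
    obtain ⟨b, h2, h3⟩ := h2
    exact ⟨_, h3, fun a _ => Ideal.mem_sup_right
      (Ideal.mul_mem_right a _ (Ideal.subset_span ⟨b, h2, rfl⟩))⟩
  let z : O.Q.Pt := ⟨Ideal.Quotient.liftₐ _ y.1 fun a ha => ha y ((O.mem y).2 h1),
    (Spc.sub_pt _ O.Z O.hZ _).2 y.2⟩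
  have hz : ∀ r, z.1 (O.inc.φ r) = y.1 r := fun _ => rfl
  obtain ⟨i, hi⟩ := hc z ⟨w, h2⟩
  obtain ⟨x, hx⟩ := exists_pt (g i) hi
  obtain ⟨b, hb⟩ := ((Spc.adj_pt ptT ι (fun a _ => d a) y.1).1 y.2).2
  have e1 : d b = w := by
    by_contra h
    exact hb (h2 b h)
  have e2 : d b = (F i).w := by
    by_contra h
    refine hb ((hz _).symm.trans ((hx _).symm.trans ?_))
    exact (congrArg x.1 ((g i).fix b h)).trans (map_zero _)
  obtain ⟨r, hr, h⟩ := (hg i).gen x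
  refine ⟨r, fun h0 => hr ((hx _).trans h0), fun a ha => ?_⟩
  have e3 : (F i).w = w := e2.symm.trans e1
  exact e3 ▸ h a (ha i e3)

end F2

open F2 in
theorem fix2 (h : Api) : FIX2 := by
  intro ι _ _ d O κ _ F g hg hc hd
  classical
  obtain ⟨σ, h1, h2⟩ := exists_sigma O.I O.stab O.Z O.hZ O.mem O.C O.θ O.hom O.surj
  refine ⟨σ, fun γ x => (h1 γ x).trans (by rw [pullK_line]; rfl), fun w => ?_⟩
  obtain ⟨q, hq⟩ : ∃ q : Ideal (Amb ι d).R, ∀ a, a ∈ q ↔ ∀ i, (F i).w = w → a ∈ (g i).p :=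
    ⟨⨅ i, ⨅ _ : (F i).w = w, (g i).p, fun a => by simp only [Submodule.mem_iInf]⟩
  have hs : (GMod.one (Amb ι d)).Stab q := fun t r hr =>
    (hq _).2 fun i hi => (g i).p_stab t r ((hq r).1 hr i hi)
  have hv : (Amb ι d).van O.Z ≤ q := fun r hr => (hq r).2 fun i _ =>
    (congrArg (g i).i.φ (Ideal.Quotient.eq_zero_iff_mem.2 hr)).trans (map_zero _)
  obtain ⟨L, hL⟩ := h2 (Ow d w) _ (adm (J := Jw d w) hs hv
    (fun a ha => hv fun z hz => (O.mem z).1 hz a ha) (fun a ha m => by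
      obtain ⟨m, rfl⟩ := Submodule.Quotient.mk_surjective _ m
      exact (Submodule.Quotient.mk_eq_zero _).2
        (Ideal.mul_mem_right (α := (Amb ι d).R) m (Jw d w) ha))
    fun y => (loc_gen g hg hc w y).imp fun r hr => ⟨hr.1, fun a ha => hr.2 a ((hq a).1 ha)⟩)
  refine ⟨L, fun L' hL' => (hL L' hL').2.trans ?_⟩
  have key : ∀ k, (Ow d w).sqc O.Z O.hZ (q ^ k • ⊤) (q ^ (k + 1) • ⊤) =
      ∑ i ∈ Finset.univ.filter (fun i => (F i).w = w), push (g i).P (cls ((g i).gr k)) := by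
    intro k
    rw [sqc_sum (κ := {i // (F i).w = w}) (fun i => (g i.1).i) (fun i => (g i.1).P)
      (fun i => (g i.1).emp) (fun i => (g i.1).onto) (fun i => (g i.1).p) (fun _ => rfl)
      (fun i => (g i.1).p_stab) (fun z i i' a b => ?_) hs (fun i a ha => (hq a).1 ha i.1 i.2)
      fun r hr => (hq r).2 fun i hi => hr ⟨i, hi⟩,
      Finset.sum_subtype (p := fun i => (F i).w = w) _ (by simp)]
    · refine Finset.sum_congr rfl fun i _ => ?_
      have := (g i.1).emp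
      rw [push_empty, gr_eq (g i.1) i.2]
    · obtain ⟨x, hx⟩ := on_comp (g i.1) a
      obtain ⟨x', hx'⟩ := on_comp (g i'.1) b
      exact Subtype.ext (hd _ _ x x' (hx.trans hx'.symm))
  simp only [key, Del_sum, map_sum, push_Del h]
  exact Finset.sum_comm

end Vale.Agent.P297Z.Lc
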