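import Vale.Agent.P297Z.Loc.Tp2
import Vale.Agent.P297Z.K.AG
import Vale.Agent.P297Z.Top.Lead

/-!
# P297: the coefficients of the powers of `t` on `G` and on `K0`
-/

set_option linter.all false

open scoped TensorProduct

noncomputable section

namespace Vale.Agent.P297Z

variable {W X : Spc}

theorem tK_tdeg (X : Spc) (k : ℤ) : tK X k = line (X.prod ptT) (tdeg X k) := tK_eq k

theorem line_prod_ptT (X : Spc) (γ : X.J → ℤ) (k : ℤ) :
    line (X.prod ptT) (Sum.elim γ fun _ => k) = tK X k * pullK (Mor.fst X ptT) (line X γ) := by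
  rw [tK_tdeg, pullK_line, ← line_add]
  refine congrArg (line (X.prod ptT)) (funext fun j => ?_)
  cases j
  · exact (zero_add _).symm
  · exact (add_zero _).symm

open Classical in
/-- the coefficient of `t ^ k` on `G` -/
def coG (X : Spc) (k : ℤ) : G (X.prod ptT) →+ G X :=
  if h : ∃ ψ : G (X.prod ptT) →+ G X, ∀ M, ψ (cls M) = cls (tp k M) then h.choose else 0

open Classical in
/-- the coefficient of `t ^ k` on `K0` -/
def coK (X : Spc) (k : ℤ) : K0 (X.prod ptT) →+ K0 X :=
  if h : ∃ ψ : K0 (X.prod ptT) →+ K0 X, ∀ B : Bun _, ψ B.cls = kc' (tp k B.M) then h.choose else 0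

theorem tp_shift_qis (k l : ℤ) (M : GMod (X.prod ptT)) :
    ∃ f, GMod.Qis (tp (k - l) M) (tp k (M.shift (tdeg X l))) f :=
  ⟨(tpShift k M (tdeg X l)).toLinearMap, fun g m =>
    (congrArg (tpShift k M (tdeg X l)) (by
      show _ = chr (-0) g • (tp (k - l) M).act g m
      rw [neg_zero, chr_zero, one_smul])).trans (tpShift_isHom k M (tdeg X l) g m),
    fun _ => IsoAt.of_equiv _⟩

theorem tp_pull_qis (N : GMod X) :
    GMod.Qis N (tp 0 ((Mor.fst X ptT).pull N)) (tpPull N).toLinearMap :=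
  GMod.qis_of_equiv _ (tpPull_isHom N)

section G

variable (k l : ℤ) (g : G (X.prod ptT))

theorem coG_cls (M : GMod (X.prod ptT)) : coG X k (cls M) = cls (tp k M) := by
  have h : ∃ ψ : G (X.prod ptT) →+ G X, ∀ M, ψ (cls M) = cls (tp k M) :=
    G_lift (fun M => cls (tp k M)) fun A B C f g h => cls_ses (tp_ses k h)
  rw [coG, dif_pos h]
  exact h.choose_spec M

theorem coG_tK : coG X k (kact _ (tK X l) g) = coG X (k - l) g := by
  refine DFunLike.congr_fun (G_ext (ψ := (coG X k).comp (kact _ (tK X l))) (ψ' := coG X (k - l))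
    fun M => ?_) g
  obtain ⟨f, hf⟩ := tp_shift_qis k l M
  rw [AddMonoidHom.comp_apply, tK_tdeg, kact_line, coG_cls, coG_cls, cls_qis hf]

theorem coG_pullG (a : G X) : coG X k (pullG (Mor.fst X ptT) a) = if k = 0 then a else 0 := by
  split_ifs with h
  · subst h
    refine DFunLike.congr_fun (G_ext (ψ := (coG X 0).comp (pullG (Mor.fst X ptT)))
      (ψ' := AddMonoidHom.id _) fun N => ?_) a
    rw [AddMonoidHom.comp_apply, pullG_cls (flat_fst _ _), coG_cls, ← cls_qis (tp_pull_qis N)]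
    rfl
  · refine DFunLike.congr_fun (G_ext (ψ := (coG X k).comp (pullG (Mor.fst X ptT)))
      (ψ' := 0) fun N => ?_) a
    haveI := tp_pull_subsingleton N h
    rw [AddMonoidHom.comp_apply, pullG_cls (flat_fst _ _), coG_cls, cls_subsingleton]
    rfl

theorem coG_tK_pullG (a : G X) :
    coG X k (kact _ (tK X l) (pullG (Mor.fst X ptT) a)) = if k = l then a else 0 := by
  rw [coG_tK, coG_pullG]
  simp only [sub_eq_zero]

theorem coG_oG : coG X k (oG (X.prod ptT)) = if k = 0 then oG X else 0 := by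
  rw [← pullG_oG (flat_fst X ptT), coG_pullG]

theorem coG_fin : ∃ s : Finset ℤ, ∀ k ∉ s, coG X k g = 0 := by
  classical
  induction g using G_induction with
  | h0 => exact ⟨∅, fun _ _ => map_zero _⟩
  | h1 M =>
    refine (tp_fin M).imp fun s hs k hk => ?_
    haveI := hs k hk
    rw [coG_cls, cls_subsingleton]
  | hn x hx => exact hx.imp fun s hs k hk => by rw [map_neg, hs k hk, neg_zero]
  | ha x y hx hy =>
    obtain ⟨s, hs⟩ := hx
    obtain ⟨t, ht⟩ := hy
    exact ⟨s ∪ t, fun k hk => by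
      rw [map_add, hs k fun h => hk (Finset.mem_union_left _ h),
        ht k fun h => hk (Finset.mem_union_right _ h), add_zero]⟩

theorem sum_indep {A B : Type*} [AddCommGroup A] [AddCommGroup B] (u : ℤ → A →+ B) {c : ℤ → A}
    {s t : Finset ℤ} (hs : ∀ k ∉ s, c k = 0) (ht : ∀ k ∉ t, c k = 0) :
    ∑ k ∈ s, u k (c k) = ∑ k ∈ t, u k (c k) := by
  classical
  rw [Finset.sum_subset (Finset.subset_union_left (s₂ := t)) fun k _ hk => by
      rw [hs k hk, map_zero],
    ← Finset.sum_subset (Finset.subset_union_right (s₁ := s)) fun k _ hk => by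
      rw [ht k hk, map_zero]]

theorem sum_coG {s : Finset ℤ} (hs : ∀ k ∉ s, coG X k g = 0) :
    ∑ k ∈ s, kact _ (tK X k) (pullG (Mor.fst X ptT) (coG X k g)) = g := by
  classical
  have ind := fun {g : G (X.prod ptT)} {s t : Finset ℤ} (hs : ∀ k ∉ s, coG X k g = 0)
    (ht : ∀ k ∉ t, coG X k g = 0) =>
    sum_indep (fun k => (kact _ (tK X k)).comp (pullG (Mor.fst X ptT))) hs ht
  simp only [AddMonoidHom.comp_apply] at ind
  induction g using G_induction generalizing s with
  | h0 => simp only [map_zero, Finset.sum_const_zero]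
  | h1 M =>
    obtain ⟨t, ht⟩ := tp_fin M
    obtain ⟨f, hf⟩ := exists_tp_qis M ht
    rw [ind hs (t := t) fun k hk => by
      haveI := ht k hk
      rw [coG_cls, cls_subsingleton]]
    conv_rhs => rw [← cls_qis hf, cls_pi]
    rw [← Finset.sum_coe_sort]
    refine Finset.sum_congr rfl fun k _ => ?_
    rw [coG_cls, pullG_cls (flat_fst _ _), tK_tdeg, kact_line]
  | hn x hx =>
    simp only [map_neg, neg_eq_zero] at hs ⊢
    rw [Finset.sum_neg_distrib, hx hs]
  | ha x y hx hy =>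
    obtain ⟨s1, h1⟩ := coG_fin x
    obtain ⟨s2, h2⟩ := coG_fin y
    have h1' : ∀ k ∉ s1 ∪ s2, coG X k x = 0 := fun k hk =>
      h1 k fun h => hk (Finset.mem_union_left _ h)
    have h2' : ∀ k ∉ s1 ∪ s2, coG X k y = 0 := fun k hk =>
      h2 k fun h => hk (Finset.mem_union_right _ h)
    rw [ind hs (t := s1 ∪ s2) fun k hk => by rw [map_add, h1' k hk, h2' k hk, add_zero]]
    simp only [map_add]
    rw [Finset.sum_add_distrib, hx h1', hy h2']

theorem coG_ext {g g' : G (X.prod ptT)} (h : ∀ k, coG X k g = coG X k g') : g = g' := by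
  rw [← sub_eq_zero, ← sum_coG (g - g') (s := ∅) fun k _ => by rw [map_sub, h, sub_self],
    Finset.sum_empty]

theorem coG_sum (s : Finset ℤ) (a : ℤ → G X) :
    coG X k (∑ l ∈ s, kact _ (tK X l) (pullG (Mor.fst X ptT) (a l))) = if k ∈ s then a k else 0 := by
  rw [map_sum]
  simp only [coG_tK_pullG]
  exact Finset.sum_ite_eq s k a

theorem coG_pullK (y : K0 X) :
    coG X k (kact _ (pullK (Mor.fst X ptT) y) g) = kact X y (coG X k g) := by
  obtain ⟨s, hs⟩ := coG_fin g
  conv_lhs => rw [← sum_coG g hs, map_sum]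
  simp only [kact_comm (pullK (Mor.fst X ptT) y), ← pullG_kact (flat_fst X ptT)]
  rw [coG_sum k s fun l => kact X y (coG X l g)]
  split_ifs with h
  · rfl
  · rw [hs k h, map_zero]

theorem dim_quo_le {R S : Type} [CommRing R] [CommRing S] (φ : R →+* S)
    (hφ : Function.Surjective φ) {I : Ideal R} {K : Ideal S} (h : I ≤ K.comap φ) :
    ringKrullDim (S ⧸ K) ≤ ringKrullDim (R ⧸ I) :=
  ringKrullDim_le_of_surjective (Ideal.quotientMap K φ h) fun y => by
    obtain ⟨y, rfl⟩ := Ideal.Quotient.mk_surjective y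
    obtain ⟨x, rfl⟩ := hφ y
    exact ⟨Ideal.Quotient.mk I x, rfl⟩

theorem coG_Fl {n : ℕ} {g : G (X.prod ptT)} (h : g ∈ Fl _ n) : coG X k g ∈ Fl X n := by
  refine (AddSubgroup.closure_le (K := (Fl X n).comap (coG X k))).2 ?_ h
  rintro _ ⟨M, hM, rfl⟩
  refine AddSubgroup.subset_closure ⟨tp k M, lt_of_le_of_lt (dim_quo_le (ridT X : _ →+* X.R)
    (ridT X).surjective fun r hr => ?_) hM, coG_cls k M⟩
  exact Module.mem_annihilator.2 fun m => tpVal_inj
    ((tpVal_smul' r m).trans (Module.mem_annihilator.1 hr _))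

theorem pullG_fstT_Fl {n : ℕ} {a : G X} (h : a ∈ Fl X n) :
    pullG (Mor.fst X ptT) a ∈ Fl _ n := by
  refine (AddSubgroup.closure_le (K := (Fl _ n).comap (pullG (Mor.fst X ptT)))).2 ?_ h
  rintro _ ⟨M, hM, rfl⟩
  refine AddSubgroup.subset_closure ⟨(Mor.fst X ptT).pull M, lt_of_le_of_lt
    (dim_quo_le ((Mor.fst X ptT).φ : X.R →+* (X.prod ptT).R) exists_fstT fun r hr => ?_) hM,
    pullG_cls (flat_fst _ _) M⟩
  refine Module.mem_annihilator.2 fun m => ?_
  obtain ⟨m, rfl⟩ := exists_pin m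
  exact (Mor.pin_smul _ _ r m).symm.trans
    ((congrArg _ (Module.mem_annihilator.1 hr m)).trans (Mor.pin_zero _ _))

/-- `1 - t ^ k * y` with `k ≠ 0` is not a zero divisor -/
theorem eq_zero_of_tK {k : ℤ} (hk : k ≠ 0) (γ : X.J → ℤ) {g : G (X.prod ptT)}
    (h : kact _ (1 - line (X.prod ptT) (Sum.elim γ fun _ => k)) g = 0) : g = 0 := by
  obtain ⟨s, hs⟩ := coG_fin g
  rw [map_sub, AddMonoidHom.sub_apply, kact_one, sub_eq_zero, line_prod_ptT, kact_mul] at h
  have h1 : ∀ l, coG X l g = kact X (line X γ) (coG X (l - k) g) := fun l => by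
    conv_lhs => rw [h, coG_tK, coG_pullK]
  have h2 : ∀ (n : ℕ) l, coG X (l - n * k) g = 0 → coG X l g = 0 := fun n => by
    induction n with
    | zero => exact fun l h => by simpa using h
    | succ n ih =>
      refine fun l h => ih l ?_
      rw [h1, show l - n * k - k = l - (n + 1 : ℕ) * k by push_cast; ring, h, map_zero]
  refine coG_ext fun l => ?_
  have hi : Function.Injective fun n : ℕ => l - n * k := fun a b e => by
    have e' : (a : ℤ) * k = b * k := sub_right_injective e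
    exact_mod_cast mul_right_cancel₀ hk e'
  obtain ⟨_, ⟨n, rfl⟩, hn⟩ := (Set.infinite_range_of_injective hi).exists_notMem_finset s
  rw [map_zero]
  exact h2 n l (hs _ hn)

end G

section K

variable [IsDomain X.R] (k l : ℤ) (x : K0 (X.prod ptT))

theorem kc'_of_dom {N : GMod X} {n : ℕ} (h : N.IsBun n) : kc' N = kc N n := by
  haveI := nonempty_pt_of_nontrivial X
  have h' : ∃ r, N.IsBun r := ⟨n, h⟩
  rw [kc', dif_pos h', h'.choose_spec.unique h]

theorem coK_cls (B : Bun (X.prod ptT)) : coK X k B.cls = kc' (tp k B.M) := by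
  have h : ∃ ψ : K0 (X.prod ptT) →+ K0 X, ∀ B : Bun _, ψ B.cls = kc' (tp k B.M) :=
    K0_lift (fun B => kc' (tp k B.M)) fun A B C f g h _ => by
      obtain ⟨a, ha⟩ := tp_isBun A.free k
      obtain ⟨c, hc⟩ := tp_isBun C.free k
      rw [kc'_of_dom ha, kc'_of_dom hc, kc'_of_dom ((tp_ses k h).isBun_mid ha hc),
        kc_ses (tp_ses k h) ha hc]
  rw [coK, dif_pos h]
  exact h.choose_spec B

theorem coK_kc {M : GMod (X.prod ptT)} {r n : ℕ} (h : M.IsBun r) (hn : (tp k M).IsBun n) :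
    coK X k (kc M r) = kc (tp k M) n := by
  rw [kc_eq h, coK_cls, kc'_of_dom hn]

theorem coK_tK : coK X k (tK X l * x) = coK X (k - l) x := by
  refine DFunLike.congr_fun (K0_ext (ψ := (coK X k).comp (AddMonoidHom.mulLeft (tK X l)))
    (ψ' := coK X (k - l)) fun B => ?_) x
  obtain ⟨f, hf⟩ := tp_shift_qis k l B.M
  obtain ⟨n, hn⟩ := tp_isBun B.free (k - l)
  rw [AddMonoidHom.comp_apply, AddMonoidHom.coe_mulLeft, tK_tdeg, ← kc_bun, ← kc_shift B.free,
    coK_kc k (B.free.shift _) (hf.isBun_iff.1 hn), coK_kc _ B.free hn, kc_qis hf]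

theorem coK_of_subsingleton {M : GMod (X.prod ptT)} {r : ℕ} (h : M.IsBun r)
    [Subsingleton (tp k M).M] : coK X k (kc M r) = 0 := by
  have h0 : ∀ z : X.Pt, ZeroAt z.1 (tp k M).M := fun _ => .of_subsingleton
  rw [coK_kc k h (GMod.isBun_zero h0), kc_zero h0]

theorem coK_pullK (y : K0 X) : coK X k (pullK (Mor.fst X ptT) y) = if k = 0 then y else 0 := by
  split_ifs with h
  · subst h
    refine DFunLike.congr_fun (K0_ext (ψ := (coK X 0).comp (pullK (Mor.fst X ptT)).toAddMonoidHom)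
      (ψ' := AddMonoidHom.id _) fun B => ?_) y
    show coK X 0 (pullK (Mor.fst X ptT) B.cls) = B.cls
    rw [pullK_cls, coK_kc 0 (B.free.pull _) ((tp_pull_qis B.M).isBun_iff.1 B.free),
      ← kc_qis (tp_pull_qis B.M), kc_bun]
  · refine DFunLike.congr_fun (K0_ext (ψ := (coK X k).comp (pullK (Mor.fst X ptT)).toAddMonoidHom)
      (ψ' := 0) fun B => ?_) y
    haveI := tp_pull_subsingleton B.M h
    show coK X k (pullK (Mor.fst X ptT) B.cls) = 0
    rw [pullK_cls, coK_of_subsingleton k (B.free.pull _)]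

theorem coK_tK_pullK (y : K0 X) :
    coK X k (tK X l * pullK (Mor.fst X ptT) y) = if k = l then y else 0 := by
  rw [coK_tK, coK_pullK]
  simp only [sub_eq_zero]

theorem coK_bun (B : Bun (X.prod ptT)) : ∃ s : Finset ℤ, (∀ k ∉ s, coK X k B.cls = 0) ∧
    ∑ k ∈ s, tK X k * pullK (Mor.fst X ptT) (coK X k B.cls) = B.cls := by
  haveI : Nonempty (X.prod ptT).Pt := (nonempty_pt_of_nontrivial X).map ptOf
  obtain ⟨s, hs⟩ := tp_fin B.M
  obtain ⟨f, hf⟩ := exists_tp_qis B.M hs
  choose n hn using tp_isBun B.free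
  have hb : ∀ k : s, (((Mor.fst X ptT).pull (tp k B.M)).shift (tdeg X k)).IsBun (n k) :=
    fun k => ((hn k).pull _).shift _
  refine ⟨s, fun k hk => ?_, ?_⟩
  · haveI := hs k hk
    rw [← kc_bun, coK_of_subsingleton k B.free]
  · conv_rhs => rw [← kc_bun, ← kc_qis hf,
      B.free.unique (hf.isBun_iff.1 (GMod.isBun_pi hb)), kc_pi hb]
    rw [← Finset.sum_coe_sort]
    refine Finset.sum_congr rfl fun k _ => ?_
    rw [kc_shift ((hn k).pull _), ← kc_bun, coK_kc _ B.free (hn k), pullK_kc _ (hn k), tK_tdeg]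

theorem coK_both : ∃ s : Finset ℤ, (∀ k ∉ s, coK X k x = 0) ∧
    ∑ k ∈ s, tK X k * pullK (Mor.fst X ptT) (coK X k x) = x := by
  classical
  obtain ⟨A, B, rfl⟩ := K0_induction x
  obtain ⟨s, h1, h2⟩ := coK_bun A
  obtain ⟨t, h3, h4⟩ := coK_bun B
  refine ⟨s ∪ t, fun k hk => ?_, ?_⟩
  · rw [map_sub, h1 k fun h => hk (Finset.mem_union_left _ h),
      h3 k fun h => hk (Finset.mem_union_right _ h), sub_zero]
  · simp only [map_sub, mul_sub]
    rw [Finset.sum_sub_distrib,
      ← Finset.sum_subset Finset.subset_union_left fun k _ hk => by rw [h1 k hk, map_zero, mul_zero],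
      ← Finset.sum_subset Finset.subset_union_right fun k _ hk => by
        rw [h3 k hk, map_zero, mul_zero], h2, h4]

theorem coK_fin : ∃ s : Finset ℤ, ∀ k ∉ s, coK X k x = 0 := (coK_both x).imp fun _ h => h.1

theorem sum_coK {s : Finset ℤ} (hs : ∀ k ∉ s, coK X k x = 0) :
    ∑ k ∈ s, tK X k * pullK (Mor.fst X ptT) (coK X k x) = x := by
  obtain ⟨t, h1, h2⟩ := coK_both x
  exact (sum_indep (fun k => (AddMonoidHom.mulLeft (tK X k)).comp
    (pullK (Mor.fst X ptT)).toAddMonoidHom) hs h1).trans h2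

theorem coK_ext {x x' : K0 (X.prod ptT)} (h : ∀ k, coK X k x = coK X k x') : x = x' := by
  rw [← sub_eq_zero, ← sum_coK (x - x') (s := ∅) fun k _ => by rw [map_sub, h, sub_self],
    Finset.sum_empty]

theorem coK_sum (s : Finset ℤ) (a : ℤ → K0 X) :
    coK X k (∑ l ∈ s, tK X l * pullK (Mor.fst X ptT) (a l)) = if k ∈ s then a k else 0 := by
  rw [map_sum]
  simp only [coK_tK_pullK]
  exact Finset.sum_ite_eq s k a

theorem coK_pullK_mul (y : K0 X) : coK X k (pullK (Mor.fst X ptT) y * x) = y * coK X k x := by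
  obtain ⟨s, hs⟩ := coK_fin x
  conv_lhs => rw [← sum_coK x hs, Finset.mul_sum]
  simp only [mul_left_comm (pullK (Mor.fst X ptT) y), ← map_mul]
  rw [coK_sum k s fun l => y * coK X l x]
  split_ifs with h
  · rfl
  · rw [hs k h, mul_zero]

theorem coG_kact_pullG (a : G X) :
    coG X k (kact _ x (pullG (Mor.fst X ptT) a)) = kact X (coK X k x) a := by
  obtain ⟨s, hs⟩ := coK_fin x
  conv_lhs => rw [← sum_coK x hs, map_sum, AddMonoidHom.finset_sum_apply]
  simp only [kact_mul, ← pullG_kact (flat_fst X ptT)]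
  rw [coG_sum k s fun l => kact X (coK X l x) a]
  split_ifs with h
  · rfl
  · rw [hs k h, map_zero, AddMonoidHom.zero_apply]

theorem coK_dualK : coK X k (dualK _ x) = dualK X (coK X (-k) x) := by
  obtain ⟨s, hs⟩ := coK_fin x
  conv_lhs => rw [← sum_coK x hs, map_sum, map_sum]
  simp only [map_mul, dualK_tK, ← pullK_dualK, coK_tK_pullK]
  rw [Finset.sum_eq_single (-k) (fun l _ hl => if_neg fun e => hl (by rw [e, neg_neg]))
    fun h => by rw [hs _ h, map_zero, ite_self], if_pos (neg_neg k).symm]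

theorem coK_nat [IsDomain W.R] (f : Mor W X) :
    coK W k (pullK (f.map (Mor.id ptT)) x) = pullK f (coK X k x) := by
  obtain ⟨s, hs⟩ := coK_fin x
  conv_lhs => rw [← sum_coK x hs, map_sum]
  simp only [map_mul, pullK_tK, ← pullK_comp, Mor.fst_map]
  simp only [pullK_comp]
  rw [coK_sum k s fun l => pullK f (coK X l x)]
  split_ifs with h
  · rfl
  · rw [hs k h, map_zero]

theorem rk_eq_sum_coK {s : Finset ℤ} (hs : ∀ k ∉ s, coK X k x = 0) :
    rk _ x = ∑ k ∈ s, rk X (coK X k x) := by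
  conv_lhs => rw [← sum_coK x hs, map_sum]
  simp only [map_mul, rk_tK, rk_pullK, one_mul]

theorem IsCls.coK {x : K0 (X.prod ptT)} {r : ℕ} (h : IsCls x r) : ∃ n, IsCls (coK X k x) n := by
  obtain ⟨B, -, rfl⟩ := h
  obtain ⟨n, hn⟩ := tp_isBun B.free k
  exact ⟨n, ⟨_, n, hn⟩, rfl, by rw [← kc_eq hn, ← kc_bun, coK_kc k B.free hn]⟩

end K

/-- the degree of a coordinate -/
def Amb.deg {ι : Type} [Fintype ι] [Nonempty ι] (d : ι → ℤ) (a : ι) : (Amb ι d).J → ℤ :=
  fun o => o.elim 1 fun _ => d a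

end Vale.Agent.P297Z
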