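import Vale.Agent.P297Z.Loc.Defs
import Vale.Agent.P297Z.Loc.Sig
import Vale.Agent.P297Z.Loc.Td
import Vale.Agent.P297Z.K.AG

/-!
# P297: the multiplicity of a regular embedding is one
-/

set_option linter.all false

open scoped TensorProduct

noncomputable section

namespace Vale.Agent.P297Z.Lc

open Finset

namespace F3

theorem binom (n l : ℕ) :
    ∑ i ∈ range (l + 1), (-1 : ℤ) ^ i * (n.choose i * n.multichoose (l - i)) =
      if l = 0 then 1 else 0 := by
  have h := Ring.add_choose_eq (r := (n : ℤ)) (s := -n) l (Commute.all _ _)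
  rw [add_neg_cancel, Ring.choose_zero_ite, Nat.sum_antidiagonal_eq_sum_range_succ_mk] at h
  have h1 : (if l = 0 then 1 else 0 : ℤ) = (-1) ^ l * if l = 0 then 1 else 0 := by
    split_ifs with e <;> simp [e]
  rw [h1, h, mul_sum]
  refine sum_congr rfl fun i hi => ?_
  obtain ⟨j, rfl⟩ := Nat.exists_eq_add_of_le (Nat.lt_succ_iff.1 (mem_range.1 hi))
  have h2 : Ring.multichoose (n : ℤ) j = n.multichoose j := by
    rw [Nat.multichoose_eq]
    rfl
  have h3 : (-1 : ℤ) ^ j * (-1) ^ j = 1 := by rw [← mul_pow]; simp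
  dsimp only
  rw [Nat.add_sub_cancel_left, Ring.choose_natCast, Ring.choose_neg', h2, Units.smul_def,
    Int.coe_negOnePow_natCast, smul_eq_mul]
  linear_combination (-(-1) ^ i * (n.choose i * n.multichoose j) : ℤ) * h3

variable {X Y : Spc}

theorem Del_eq (a : K0 X) (u : ℕ → G X) (l : ℕ) :
    Del a u l = ∑ i ∈ range (l + 1), ((-1) ^ i * lam i a) • u (l - i) :=
  sum_congr rfl fun i _ => by
    rw [kact_smul, mul_smul, ← Int.cast_smul_eq_zsmul (K0 X), Int.cast_pow, Int.cast_neg,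
      Int.cast_one]

theorem lam_add (a b : K0 X) (i : ℕ) :
    lam i (a + b) = ∑ k ∈ range (i + 1), lam k a * lam (i - k) b := by
  rw [lam, map_add, toMul_add, Units.val_mul, PowerSeries.coeff_mul,
    Nat.sum_antidiagonal_eq_sum_range_succ_mk]
  rfl

theorem Del_add (a b : K0 X) (u : ℕ → G X) (l : ℕ) :
    Del (a + b) u l = ∑ k ∈ range (l + 1), ((-1) ^ k * lam k a) • Del b u (l - k) := by
  have h := sum_range_diag_flip (l + 1)
    fun k j => (((-1) ^ k * lam k a) * ((-1) ^ j * lam j b)) • u (l - (k + j))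
  rw [Del_eq]
  refine (sum_congr rfl fun i _ => ?_).trans (h.trans (sum_congr rfl fun k hk => ?_))
  · rw [lam_add, mul_sum, sum_smul]
    refine sum_congr rfl fun k hk => ?_
    obtain ⟨j, rfl⟩ := Nat.exists_eq_add_of_le (Nat.lt_succ_iff.1 (mem_range.1 hk))
    rw [Nat.add_sub_cancel_left, pow_add, mul_mul_mul_comm]
  · rw [Del_eq, smul_sum, Nat.succ_sub (Nat.lt_succ_iff.1 (mem_range.1 hk))]
    exact sum_congr rfl fun j _ => by rw [mul_smul, Nat.sub_sub]

theorem lam_above (h : Api) (B : Bun X) {i : ℕ} (hi : B.rk < i) : lam i B.cls = 0 := by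
  have h1 := B.free.ext i
  rw [Nat.choose_eq_zero_of_lt hi] at h1
  rw [h.lam_cls, Nat.choose_eq_zero_of_lt hi]
  exact kc_zero fun z => fdim_eq_zero_iff.1 (h1 z).fdim

theorem cc_top (B : Bun X) : cc B.rk B.cls = ∑ k ∈ range (B.rk + 1), (-1) ^ k * lam k B.cls :=
  sum_congr rfl fun k hk => by
    rw [rk_cls, ← Nat.cast_sub (Nat.lt_succ_iff.1 (mem_range.1 hk)), Ring.choose_natCast,
      Nat.choose_self, Nat.cast_one, mul_one, zsmul_eq_mul, Int.cast_pow, Int.cast_neg,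
      Int.cast_one]

theorem sum_Del (h : Api) (B : Bun X) (b : K0 X) (u : ℕ → G X) {L₁ : ℕ}
    (h0 : ∀ l ≥ L₁, Del b u l = 0) {L : ℕ} (hL : B.rk + L₁ + 1 ≤ L) :
    ∑ l ∈ range L, Del (B.cls + b) u l = kact _ (cc B.rk B.cls) (∑ l ∈ range L₁, Del b u l) := by
  simp only [Del_add]
  rw [sum_range_diag_flip L fun k j => ((-1) ^ k * lam k B.cls) • Del b u j, cc_top, kact_smul,
    sum_smul]
  refine ((sum_subset (range_subset_range.2 (by omega)) fun k _ hk => ?_).symm.trans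
    (sum_congr rfl fun k hk => ?_))
  · rw [lam_above h B (by simpa using hk), mul_zero]
    simp only [zero_smul, sum_const_zero]
  · rw [mem_range] at hk
    rw [← smul_sum, ← sum_subset (range_subset_range.2 (show L₁ ≤ L - k by omega))
      fun j _ hj => h0 j (by simpa using hj)]

theorem rank_oG (h : Api) {e : ℕ} (hX : X.IsVar e) (a : K0 X) :
    kact X a (oG X) - rk X a • oG X ∈ Fd X e := by
  obtain ⟨z⟩ := hX.ne
  have h1 : ∀ B : Bun X, kact X B.cls (oG X) - (B.rk : ℤ) • oG X ∈ Fd X e := fun B => by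
    rw [← kc_bun, kact_oG B.free, natCast_zsmul]
    exact h.rank hX B.M B.rk z (B.free z)
  obtain ⟨B, B', rfl⟩ := K0_induction a
  have h2 := sub_mem (h1 B) (h1 B')
  rw [map_sub, map_sub, rk_cls, rk_cls, AddMonoidHom.sub_apply, sub_zsmul]
  convert h2 using 1
  abel

/-! ### modules of weight zero -/

section wt0

variable {M : GMod (X.prod ptT)} (hM : ∀ γ, ∀ m ∈ M.wt γ, γ (.inr ()) ≠ 0 → m = 0)
include hM

theorem tp_sub {k : ℤ} (hk : k ∉ ({0} : Finset ℤ)) : Subsingleton (tp k M).M := by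
  refine subsingleton_of_forall_eq 0 fun m => ?_
  induction m using (tp k M).induction with
  | h0 => rfl
  | ha x y hx hy => rw [hx, hy, add_zero]
  | hw γ m hm =>
    exact Subtype.ext (hM _ _ (mem_tp_wt.1 hm) (neg_ne_zero.2 (notMem_singleton.1 hk)))

theorem cls_wt0 : cls M = pullG (Mor.fst X ptT) (cls (tp 0 M)) := by
  have h := sum_coG (cls M) (s := {0}) fun k hk => by
    haveI := tp_sub hM hk
    rw [coG_cls, cls_subsingleton]
  rw [sum_singleton, tK_zero, kact_one, coG_cls] at h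
  exact h.symm

theorem kc_wt0 [IsDomain X.R] {r : ℕ} (hr : M.IsBun r) :
    (tp 0 M).IsBun r ∧ kc M r = pullK (Mor.fst X ptT) (kc (tp 0 M) r) := by
  obtain ⟨n, hn⟩ := tp_isBun hr 0
  have h := sum_coK (kc M r) (s := {0}) fun k hk => by
    haveI := tp_sub hM hk
    have h1 : ∀ z : X.Pt, ZeroAt z.1 (tp k M).M := fun _ => .of_subsingleton
    rw [coK_kc k hr (GMod.isBun_zero h1), kc_zero h1]
  rw [sum_singleton, tK_zero, one_mul, coK_kc 0 hr hn] at h
  have h2 := congrArg (rk _) h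
  rw [rk_pullK, rk_kc hn, rk_kc hr, Nat.cast_inj] at h2
  subst h2
  exact ⟨hn, h.symm⟩

end wt0

/-! ### the multiplication of the graded pieces -/

theorem exists_bc' {R S A B C : Type} [CommRing R] [CommRing S] [Algebra R S] [AddCommGroup A]
    [AddCommGroup B] [AddCommGroup C] [Module R A] [Module R B] [Module R C]
    (β : A →ₗ[R] B →ₗ[R] C) : ∃ μ : S ⊗[R] A →ₗ[S] S ⊗[R] B →ₗ[S] S ⊗[R] C,
      ∀ r s a b, μ (r ⊗ₜ a) (s ⊗ₜ b) = (r * s) ⊗ₜ β a b :=
  ⟨TensorProduct.curry ((TensorProduct.lift β).baseChange S ∘ₗ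
    (TensorProduct.AlgebraTensorModule.distribBaseChange R S A B).symm.toLinearMap),
    fun r s a b => by simp⟩

theorem exists_bc (f : Mor X Y) {A B C : GMod Y} (β : A.M →ₗ[Y.R] B.M →ₗ[Y.R] C.M) :
    ∃ μ : (f.pull A).M →ₗ[X.R] (f.pull B).M →ₗ[X.R] (f.pull C).M,
      ∀ (r s : f.Src) a b, μ (r ⊗ₜ a) (s ⊗ₜ b) = (r * s) ⊗ₜ β a b := exists_bc' (S := f.Src) β

theorem pull_ind (f : Mor X Y) {A : GMod Y} {P : (f.pull A).M → Prop} (h0 : P 0)
    (h1 : ∀ (r : f.Src) a, P (r ⊗ₜ a)) (h2 : ∀ x y, P x → P y → P (x + y)) (x : (f.pull A).M) :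
    P x := TensorProduct.induction_on x h0 h1 h2

variable {J p : Ideal Y.R} (hJ : (GMod.one Y).Stab J)

theorem exists_mk {x : ((GMod.one Y).quo J hJ).M} (hx : x ∈ p ^ 1 • (⊤ : Submodule Y.R _)) :
    ∃ a ∈ p, J.mkQ a = x := by
  rw [pow_one] at hx
  refine Submodule.smul_induction_on hx (fun r hr x _ => ?_) ?_
  · obtain ⟨s, rfl⟩ := J.mkQ_surjective x
    exact ⟨r * s, p.mul_mem_right _ hr, J.mkQ.map_smul r s⟩
  · rintro _ _ ⟨a, ha, rfl⟩ ⟨b, hb, rfl⟩
    exact ⟨a + b, p.add_mem ha hb, map_add _ _ _⟩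

theorem kos_gr (f : Mor X Y) (hp : ∀ k, ((GMod.one Y).quo J hJ).Stab (p ^ k • ⊤)) {n : ℕ}
    (hn : (f.pull (((GMod.one Y).quo J hJ).sub _ (hp 1))).IsBun n) :
    ∃ L, ∀ l ≥ L, P297Z.Del (Bun.lx ⟨_, n, hn⟩)
      (fun k => cls (f.pull (((GMod.one Y).quo J hJ).sub _ (hp k)))) l = 0 := by
  set A := (GMod.one Y).quo J hJ
  let m : A.M →ₗ[Y.R] A.M →ₗ[Y.R] A.M := J.liftQ (LinearMap.lsmul Y.R A.M) fun a ha =>
    LinearMap.ext fun x => by
      obtain ⟨s, rfl⟩ := J.mkQ_surjective x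
      exact (Submodule.Quotient.mk_eq_zero J).2 (J.mul_mem_right s ha)
  have hm : ∀ a x, m (J.mkQ a) x = a • x := fun _ _ => rfl
  have hs : ∀ k, p ^ (k + 1) • (⊤ : Submodule Y.R A.M) = p • p ^ k • ⊤ := fun k => by
    rw [pow_succ', mul_smul]
  have hβ : ∀ k, ∃ β : (A.sub _ (hp 1)).M →ₗ[Y.R] (A.sub _ (hp k)).M →ₗ[Y.R]
      (A.sub _ (hp (k + 1))).M, ∀ x y, (β x y).1 = m x.1 y.1 := fun k =>
    ⟨LinearMap.mk₂ Y.R (fun x y => ⟨m x.1 y.1, by
        obtain ⟨a, ha, e⟩ := exists_mk hJ x.2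
        rw [← e, hm, hs]
        exact Submodule.smul_mem_smul ha y.2⟩)
      (fun x x' y => Subtype.ext (m.map_add₂ x.1 x'.1 y.1))
      (fun c x y => Subtype.ext (m.map_smul₂ c x.1 y.1))
      (fun x y y' => Subtype.ext (map_add (m x.1) y.1 y'.1))
      (fun c x y => Subtype.ext (map_smul (m x.1) c y.1)), fun _ _ => rfl⟩
  choose β hβ using hβ
  choose μ hμ using fun k => exists_bc f (β k)
  refine kos ⟨_, n, hn⟩ _ μ (fun k g c y => ?_) (fun k c c' y => ?_) ⟨0, fun k _ => ?_⟩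
  · induction c using pull_ind f with
    | h0 => simp only [map_zero, LinearMap.zero_apply]
    | h2 x x' hx hx' => simp only [map_add, LinearMap.add_apply, hx, hx']
    | h1 r x =>
      induction y using pull_ind f with
      | h0 => simp only [map_zero]
      | h2 y y' hy hy' => simp only [map_add, hy, hy']
      | h1 s y =>
        rw [hμ]
        refine (hμ k (f.semi g r) (f.semi g s) ((A.sub _ (hp 1)).act _ x)
          ((A.sub _ (hp k)).act _ y)).trans (congrArg₂ (TensorProduct.tmul Y.R)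
            (map_mul (X.act g) r s).symm (Subtype.ext ?_))
        obtain ⟨a, -, e⟩ := exists_mk hJ x.2
        refine (hβ _ _ _).trans ?_
        change m (A.act _ x.1) (A.act _ y.1) = A.act _ (β k x y).1
        rw [hβ, ← e, hm, A.act_smul]
        rfl
  · induction c using pull_ind f with
    | h0 => simp only [map_zero, LinearMap.zero_apply]
    | h2 x x' hx hx' => simp only [map_add, LinearMap.add_apply, hx, hx']
    | h1 r x =>
      induction c' using pull_ind f with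
      | h0 => simp only [map_zero, LinearMap.zero_apply]
      | h2 x x' hx hx' => simp only [map_add, LinearMap.add_apply, hx, hx']
      | h1 r' x' =>
        induction y using pull_ind f with
        | h0 => simp only [map_zero]
        | h2 y y' hy hy' => simp only [map_add, hy, hy']
        | h1 s y =>
          rw [hμ, hμ, hμ, hμ, mul_left_comm]
          refine congrArg (TensorProduct.tmul Y.R _) (Subtype.ext ?_)
          obtain ⟨a, -, e⟩ := exists_mk hJ x.2
          obtain ⟨a', -, e'⟩ := exists_mk hJ x'.2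
          rw [hβ, hβ, hβ, hβ, ← e, ← e', hm, hm, hm, hm, smul_comm]
  · refine le_trans (fun y _ => ?_) (le_sat _)
    induction y using pull_ind f with
    | h0 => exact zero_mem _
    | h2 y y' hy hy' => exact add_mem (hy trivial) (hy' trivial)
    | h1 s y =>
      obtain ⟨y, hy⟩ := y
      have h1 : ∀ y ∈ p • p ^ k • (⊤ : Submodule Y.R A.M), ∃ hy, (s ⊗ₜ ⟨y, hy⟩ :
          (f.pull (A.sub _ (hp (k + 1)))).M) ∈ Submodule.map₂ (μ k) ⊤ ⊤ := fun y hy => by
        refine Submodule.smul_induction_on hy (fun a ha x hx => ?_) ?_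
        · have h2 : J.mkQ a ∈ p ^ 1 • (⊤ : Submodule Y.R A.M) := by
            have h3 := Submodule.smul_mem_smul ha (Submodule.mem_top (x := (J.mkQ 1 : A.M)))
            rw [pow_one]
            exact (J.mkQ.map_smul a 1).symm.trans (congrArg J.mkQ (mul_one a)) ▸ h3
          have h3 : μ k (s ⊗ₜ ⟨_, h2⟩) ((1 : f.Src) ⊗ₜ ⟨x, hx⟩) ∈ Submodule.map₂ (μ k) ⊤ ⊤ :=
            Submodule.apply_mem_map₂ _ trivial trivial
          rw [hμ k s 1 ⟨_, h2⟩ ⟨x, hx⟩, mul_one] at h3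
          have h4 : (β k ⟨_, h2⟩ ⟨x, hx⟩).1 = a • x := hβ _ _ _
          exact h4 ▸ ⟨(β k ⟨_, h2⟩ ⟨x, hx⟩).2, h3⟩
        · rintro x x' ⟨hx, h2⟩ ⟨hx', h3⟩
          exact ⟨add_mem hx hx', (congrArg (· ∈ Submodule.map₂ (μ k) ⊤ ⊤) (TensorProduct.tmul_add
            (R := Y.R) s (⟨x, hx⟩ : (A.sub _ (hp (k + 1))).M) ⟨x', hx'⟩)).mpr (add_mem h2 h3)⟩
      exact (h1 y (hs k ▸ hy)).2

end F3

open F3

theorem fix3 (h : Api) : FIX3 := by
  intro ι _ _ d O c g hg K
  haveI := g.var.dom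
  obtain ⟨n, hn, hb⟩ := hg.free
  obtain rfl : K.n = n := by have := K.hn; omega
  have h1 := fun k => kc_wt0 (hg.wt0 k) (hb k)
  obtain ⟨-, h2⟩ := kc_wt0 (hg.wt0 1) K.hN
  obtain ⟨L, hL⟩ := kos_gr (Jw_stab d c.w) g.e g.pow_stab K.hN
  have h3 : ∀ i, lam i (kc (g.gr 1) K.n) = kc ((g.gr 1).ext i) (K.n.choose i) := fun i => by
    rw [kc_eq K.hN, h.lam_cls]
  have h4 : ∀ l ≥ L + 1, Del (kc (g.gr 1) K.n) (fun k => cls (g.gr k)) l = 0 := fun l hl => by
    simp only [Del, h3]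
    exact hL l (by omega)
  refine ⟨∑ l ∈ range (L + 1), Del (kc (tp 0 (g.gr 1)) K.n) (fun k => cls (tp 0 (g.gr k))) l,
    K.C'.rk + (L + 1) + 1, ?_, fun L' hL' => ?_⟩
  · have h5 : ∑ l ∈ range (L + 1), ∑ i ∈ range (l + 1),
        (-1 : ℤ) ^ i * (K.n.choose i * K.n.multichoose (l - i)) = 1 := by
      simp only [binom]
      rw [sum_ite_eq', if_pos (mem_range.2 (Nat.succ_pos L))]
    rw [← one_zsmul (oG g.F), ← h5, sum_smul, ← sum_sub_distrib]
    refine sum_mem fun l _ => ?_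
    rw [Del, sum_smul, ← sum_sub_distrib]
    refine sum_mem fun i _ => ?_
    have h6 := rank_oG h g.var (lam i (kc (tp 0 (g.gr 1)) K.n) *
      kc (tp 0 (g.gr (l - i))) (K.n.multichoose (l - i)))
    rw [kact_mul, kact_oG (h1 _).1, map_mul, rk_kc (h1 _).1, ← rk_pullK (Mor.fst g.F ptT),
      h.lam_pull, ← h2, h3, rk_kc (K.hN.ext i)] at h6
    rw [mul_smul, ← smul_sub]
    exact zsmul_mem h6 _
  · rw [K.cls, sum_Del h K.C' _ _ h4 hL']
    refine congrArg (kact _ _) ?_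
    rw [map_sum]
    refine sum_congr rfl fun l _ => ?_
    rw [Del, Del, map_sum]
    refine sum_congr rfl fun i _ => ?_
    rw [map_zsmul, pullG_kact (flat_fst _ _), h.lam_pull, ← h2, ← cls_wt0 (hg.wt0 _)]

end Vale.Agent.P297Z.Lc
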