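import Vale.Agent.P297Z.Loc.Defs
import Vale.Agent.P297Z.K.AK3
import Vale.Agent.P297Z.K.Prj

/-!
# P297: the image of a fixed component, and the projection to `W × ptT`
-/

set_option linter.all false

open scoped TensorProduct

noncomputable section

namespace Vale.Agent.P297Z

namespace Lc

namespace Geo

/-! ### general facts -/

theorem adj_ext {J : Type} [Fintype J] [DecidableEq J] {ι : Type} [Fintype ι] [Nonempty ι]
    {d : ι → J → ℤ} {A : Type} [CommRing A] [Algebra ℂ A]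
    {f g : ((Spc.pt J).adj ι d).R →ₐ[ℂ] A}
    (h : ∀ a : ι, f (MvPolynomial.X a) = g (MvPolynomial.X a)) : f = g :=
  MvPolynomial.algHom_ext (R := ℂ) (σ := ι) (f := f) (g := g) h

theorem pt_one {J : Type} [Fintype J] [DecidableEq J] {A : Type} [CommRing A] [Algebra ℂ A]
    (z : A →ₐ[ℂ] ℂ) (φ : (Spc.pt J).R →ₐ[ℂ] A) : ∃ f ∈ (Spc.pt J).b, z (φ f) ≠ 0 :=
  ⟨1, trivial, by rw [map_one, map_one]; exact one_ne_zero⟩

theorem adj_pt' {J : Type} [Fintype J] [DecidableEq J] {ι : Type} [Fintype ι] [Nonempty ι]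
    {d : ι → J → ℤ} (z : ((Spc.pt J).adj ι d).R →ₐ[ℂ] ℂ) :
    (∃ f ∈ ((Spc.pt J).adj ι d).b, z f ≠ 0) ↔ ∃ a : ι, z (MvPolynomial.X a) ≠ 0 :=
  (Spc.adj_pt (Spc.pt J) ι d z).trans
    (and_iff_right (pt_one z (Mor.adjPr (Spc.pt J) ι d).φ))

theorem incl_inj (X : Spc) (S : Set X.Pt) (hS : X.Stab S) : (Mor.incl X S hS).Inj := by
  rintro z z' ⟨g, hg⟩
  refine ⟨g, AlgHom.ext fun r => ?_⟩
  obtain ⟨r, rfl⟩ := Ideal.Quotient.mk_surjective r
  exact DFunLike.congr_fun hg r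

theorem incl_mem {X : Spc} {S : Set X.Pt} (hS : X.Stab S) (hc : X.Clo S) (z : (X.sub S hS).Pt) :
    (Mor.incl X S hS).onPt z ∈ S := hc _ fun r hr =>
  (congrArg z.1 (Ideal.Quotient.eq_zero_iff_mem.2 hr)).trans (map_zero z.1)

theorem img_stab {X Y : Spc} (f : Mor X Y) (S : Set X.Pt) : Y.Stab (f.img S) := by
  rintro y ⟨x, hx, h⟩ y' h'
  exact ⟨x, hx, h.trans h'⟩

/-- the section of the projection from `X × ptT` -/
def sec (X : Spc) : Mor X (X.prod ptT) := Mor.lift (Mor.id X) (Mor.toPt X Unit 0)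

theorem fst_sec (X : Spc) : (Mor.fst X ptT).comp (sec X) = Mor.id X := Mor.fst_lift _ _

theorem sec_fst (X : Spc) (r : (X.prod ptT).R) : (Mor.fst X ptT).φ ((sec X).φ r) = r := by
  induction r using TensorProduct.induction_on with
  | zero => exact map_zero ((Mor.fst X ptT).φ.comp (sec X).φ)
  | add a b ha hb =>
    exact (map_add ((Mor.fst X ptT).φ.comp (sec X).φ) a b).trans (congrArg₂ (· + ·) ha hb)
  | tmul a c =>
    have h : ∀ c : ℂ, (a * algebraMap ℂ X.R c) ⊗ₜ[ℂ] (1 : ℂ) = a ⊗ₜ[ℂ] c := fun c => by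
      rw [mul_comm, ← Algebra.smul_def, TensorProduct.smul_tmul, smul_eq_mul, mul_one]
    exact h c

theorem sec_ρ (X : Spc) (δ : X.J ⊕ Unit → ℤ) : (sec X).ρ δ = fun j => δ (.inl j) := add_zero _

theorem t_wt {X : Spc} {δ : X.J ⊕ Unit → ℤ} {r : (X.prod ptT).R} (hr : r ∈ (X.prod ptT).wt δ)
    (h0 : r ≠ 0) : δ (.inr ()) = 0 := by
  have h1 := (Mor.fst X ptT).wt_map _ _ ((sec X).wt_map _ _ hr)
  rw [sec_fst] at h1
  by_contra hne
  exact h0 (eq_zero_of_mem_wt (fun e => hne (congrFun e (.inr ()))) hr h1)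

theorem dec (g : Option Unit → ℤ) :
    g = g none • Pi.single none 1 + g (some ()) • Pi.single (some ()) 1 := by
  funext j
  rcases j with _ | ⟨⟨⟩⟩ <;> simp

/-! ### the ambient space without the torus -/

section Amb0

variable (ι : Type) [Fintype ι] [Nonempty ι]

/-- the projective space -/
abbrev Amb0 : Spc := pt0.adj ι fun _ => 0

/-- the coordinates -/
def x0 (a : ι) : (Amb0 ι).R := MvPolynomial.X a

theorem x0_mem (a : ι) : x0 ι a ∈ (Amb0 ι).wt fun _ => 1 := by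
  refine (congrArg (fun δ => x0 ι a ∈ (Amb0 ι).wt δ) (funext fun j => ?_)).mpr
    (Spc.X_mem pt0 ι (fun _ => 0) a)
  rcases j with _ | ⟨⟨⟩⟩
  rfl

open Classical in
theorem amb0_proj : (Amb0 ι).IsProj := by
  refine ⟨fun _ => Finset.univ.image (x0 ι), fun j y hy => ?_, ?_, fun z => ?_⟩
  · obtain ⟨a, -, rfl⟩ := Finset.mem_image.1 hy
    refine (congrArg (fun δ => x0 ι a ∈ (Amb0 ι).wt δ) (funext fun j' => ?_)).mpr (x0_mem ι a)
    rcases j with _ | ⟨⟨⟩⟩
    rcases j' with _ | ⟨⟨⟩⟩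
    exact Pi.single_eq_same _ _
  · refine fin_of_integral _ fun r => int_of_mem ?_
    induction r using MvPolynomial.induction_on with
    | C c => exact Subalgebra.algebraMap_mem (R := ℂ) _ c
    | add p q hp hq => exact add_mem hp hq
    | mul_X p a hp =>
      exact mul_mem hp (Algebra.subset_adjoin (Set.mem_iUnion.2
        ⟨none, Finset.mem_image_of_mem _ (Finset.mem_univ a)⟩))
  · refine (adj_pt' z).trans ⟨fun ⟨a, ha⟩ _ => ?_, fun h => ?_⟩
    · exact ⟨_, Finset.mem_image_of_mem _ (Finset.mem_univ a), ha⟩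
    · obtain ⟨y, hy, h0⟩ := h none
      obtain ⟨a, -, rfl⟩ := Finset.mem_image.1 hy
      exact ⟨a, h0⟩

variable {ι} (d : ι → ℤ)

/-- forgetting the torus -/
def u : Mor (Amb0 ι) (Amb ι d) :=
  Mor.toAdj (Mor.toPt (Amb0 ι) Unit 0) ι (fun a _ => d a) (fun _ => 1) (x0 ι)
    (fun a => (congrArg (fun δ => x0 ι a ∈ (Amb0 ι).wt δ) (zero_add _)).mpr (x0_mem ι a))
    fun z => (adj_pt' z.1).1 z.2

theorem u_x (a : ι) : (u d).φ (Amb.x d a) = x0 ι a := MvPolynomial.aevalTower_X _ _ a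

/-- the inverse map of rings -/
def v : (Amb0 ι).R →ₐ[ℂ] (Amb ι d).R := AlgHom.id ℂ (MvPolynomial ι ℂ)

theorem u_v (p : (Amb0 ι).R) : (u d).φ (v d p) = p :=
  DFunLike.congr_fun (adj_ext (f := (u d).φ.comp (v d)) (g := AlgHom.id ℂ _) fun a => u_x d a) p

theorem v_u (p : (Amb ι d).R) : v d ((u d).φ p) = p :=
  DFunLike.congr_fun (adj_ext (f := (v d).comp (u d).φ) (g := AlgHom.id ℂ _)
    fun a => congrArg (v d) (u_x d a)) p

end Amb0

/-! ### the image of a component -/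

section Img

variable {ι : Type} [Fintype ι] [Nonempty ι] {d : ι → ℤ} {O : Obs ι d}

theorem inc_mem (z : O.Q.Pt) : O.inc.onPt z ∈ O.Z :=
  incl_mem O.hZ (fun z hz => (O.mem z).2 fun a ha => hz a fun y hy => (O.mem y).1 hy a ha) z

variable (c : O.Comp)

/-- the map from the component to the ambient space -/
def k : Mor c.X (Amb ι d) := O.inc.comp (c.j.comp (sec c.X))

/-- the degree of the coordinates -/
def γ : c.X.J → ℤ := fun j => c.j.ρ (Pi.single none 1) (.inl j)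

theorem jρ (g : Option Unit → ℤ) :
    c.j.ρ g = g none • c.j.ρ (Pi.single none 1) + g (some ()) • Pi.single (.inr ()) 1 := by
  rw [← c.jt, ← map_zsmul, ← map_zsmul, ← map_add]
  exact congrArg c.j.ρ (dec g)

theorem jρ_inl (g : Option Unit → ℤ) (j : c.X.J) : c.j.ρ g (.inl j) = g none * γ c j := by
  rw [jρ]
  show g none * γ c j + g (some ()) * (Pi.single (M := fun _ => ℤ) (Sum.inr ()) 1 (Sum.inl j)) = _
  rw [Pi.single_eq_of_ne Sum.inl_ne_inr, mul_zero, add_zero]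

theorem k_mem (a : ι) : (k c).φ (Amb.x d a) ∈ c.X.wt (γ c) := by
  refine (congrArg (fun δ => (k c).φ (Amb.x d a) ∈ c.X.wt δ) (funext fun j => ?_)).mpr
    ((k c).wt_map _ _ (Spc.X_mem ptT ι (fun a _ => d a) a))
  exact ((congrFun (sec_ρ c.X _) j).trans ((jρ_inl c _ j).trans (one_mul _))).symm

theorem k_pt (z : c.X.Pt) : ∃ a, z.1 ((k c).φ (Amb.x d a)) ≠ 0 :=
  (adj_pt' ((k c).onPt z).1).1 ((k c).onPt z).2

theorem k_fix (a : ι) (ha : d a ≠ c.w) : (k c).φ (Amb.x d a) = 0 :=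
  (congrArg (sec c.X).φ (c.fix a ha)).trans (map_zero _)

theorem exists_w : ∃ a, d a = c.w ∧ (k c).φ (Amb.x d a) ≠ 0 := by
  obtain ⟨z⟩ := c.var.ne
  obtain ⟨a, ha⟩ := k_pt c z
  have h0 : (k c).φ (Amb.x d a) ≠ 0 := fun e => ha (by rw [e, map_zero])
  exact ⟨a, by_contra fun hne => h0 (k_fix c a hne), h0⟩

theorem jρ_inr (g : Option Unit → ℤ) : c.j.ρ g (.inr ()) = g (some ()) + g none * -c.w := by
  have e : ∀ g : Option Unit → ℤ,
      c.j.ρ g (.inr ()) = g none * c.j.ρ (Pi.single none 1) (.inr ()) + g (some ()) := fun g => by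
    refine (congrFun (jρ c g) _).trans (congrArg (fun t : ℤ => g none * _ + t) ?_)
    exact (congrArg (fun t : ℤ => g (some ()) * t) (Pi.single_eq_same _ _)).trans (mul_one _)
  obtain ⟨a, ha, h0⟩ := exists_w c
  have h1 := t_wt ((O.inc.comp c.j).wt_map _ _ (Spc.X_mem ptT ι (fun a _ => d a) a))
    fun e => h0 ((congrArg (sec c.X).φ e).trans (map_zero _))
  have h2 : 1 * c.j.ρ (Pi.single none 1) (.inr ()) + d a = 0 := (e _).symm.trans h1
  rw [e, show c.j.ρ (Pi.single none 1) (.inr ()) = -c.w by omega, add_comm]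

/-- the map from the component to the projective space -/
def j00 : Mor c.X (Amb0 ι) :=
  Mor.toAdj (Mor.toPt c.X Empty 0) ι (fun _ => 0) (γ c) (fun a => (k c).φ (Amb.x d a))
    (fun a => (congrArg (fun δ => _ ∈ c.X.wt δ) (zero_add _)).mpr (k_mem c a)) (k_pt c)

theorem j00_x (a : ι) : (j00 c).φ (x0 ι a) = (k c).φ (Amb.x d a) :=
  MvPolynomial.aevalTower_X _ _ a

theorem u_j00 (z : c.X.Pt) :
    (u d).onPt ((j00 c).onPt z) = O.inc.onPt (c.j.onPt ((sec c.X).onPt z)) :=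
  Subtype.ext (adj_ext fun a => congrArg z.1 ((congrArg (j00 c).φ (u_x d a)).trans (j00_x c a)))

/-- the points of the image -/
def FS : Set (Amb0 ι).Pt := (j00 c).img Set.univ

theorem FS_stab : (Amb0 ι).Stab (FS c) := img_stab _ _

/-- the image -/
abbrev F : Spc := (Amb0 ι).sub (FS c) (FS_stab c)

/-- its inclusion -/
abbrev inF : Mor (F c) (Amb0 ι) := Mor.incl _ (FS c) (FS_stab c)

/-- the map to the image -/
def j0 : Mor c.X (F c) :=
  (j00 c).toSub (FS c) (FS_stab c) fun w => ⟨w, trivial, Spc.Orb.refl _⟩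

theorem inF_j0 (z : c.X.Pt) : (inF c).onPt ((j0 c).onPt z) = (j00 c).onPt z := rfl

theorem orb_of {z : c.X.Pt} {y : (Amb0 ι).Pt} {q : O.Q.Pt}
    (h : (Amb0 ι).Orb ((j00 c).onPt z) y) (e : (u d).onPt y = O.inc.onPt q) :
    O.Q.Orb (c.j.onPt ((sec c.X).onPt z)) q := by
  refine incl_inj _ O.Z O.hZ _ _ ?_
  rw [← u_j00, ← e]
  exact (u d).orb h

theorem j0_inj : (j0 c).Inj := fun z z' h =>
  (Mor.fst c.X ptT).orb (c.inj _ _ (orb_of c ((inF c).orb h) (u_j00 c z'))) |> fun h => by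
    rwa [← Mor.onPt_comp, ← Mor.onPt_comp, fst_sec] at h

theorem u_mem {y : (Amb0 ι).Pt} (hy : y ∈ FS c) : (u d).onPt y ∈ O.Z := by
  obtain ⟨z, -, h⟩ := hy
  refine O.hZ _ (inc_mem (c.j.onPt ((sec c.X).onPt z))) _ ?_
  rw [← u_j00]
  exact (u d).orb h

theorem x0_van (a : ι) (ha : d a ≠ c.w) : (inF c).φ (x0 ι a) = 0 := by
  refine Ideal.Quotient.eq_zero_iff_mem.2 ?_
  rintro y ⟨z, -, g, h⟩
  rw [h, AlgHom.comp_apply, Spc.mem_wt.1 (x0_mem ι a), map_smul]
  show _ • z.1 ((j00 c).φ (x0 ι a)) = 0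
  rw [j00_x, k_fix c a ha, map_zero, smul_zero]

/-- the degree of the coordinates on the image -/
def e0 : ((F c).prod ptT).J → ℤ := Sum.elim (fun _ => 1) fun _ => -c.w

theorem e_mem (a : ι) : (Mor.fst (F c) ptT).φ ((inF c).φ (x0 ι a)) ∈
    ((F c).prod ptT).wt ((Mor.snd (F c) ptT).ρ (fun _ => d a) + e0 c) := by
  by_cases ha : d a = c.w
  · refine (congrArg (fun δ => _ ∈ ((F c).prod ptT).wt δ) (funext fun j => ?_)).mpr
      (((inF c).comp (Mor.fst (F c) ptT)).wt_map _ _ (x0_mem ι a))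
    cases j
    · exact zero_add (1 : ℤ)
    · exact add_neg_eq_zero.2 ha
  · rw [x0_van c a ha, map_zero]
    exact Submodule.zero_mem _

/-- the embedding in the ambient space -/
def e : Mor ((F c).prod ptT) (Amb ι d) :=
  Mor.toAdj (Mor.snd (F c) ptT) ι (fun a _ => d a) (e0 c)
    (fun a => (Mor.fst (F c) ptT).φ ((inF c).φ (x0 ι a))) (e_mem c) fun z =>
      (adj_pt' (((inF c).comp (Mor.fst (F c) ptT)).onPt z).1).1
        (((inF c).comp (Mor.fst (F c) ptT)).onPt z).2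

theorem e_x (a : ι) : (e c).φ (Amb.x d a) = (Mor.fst (F c) ptT).φ ((inF c).φ (x0 ι a)) :=
  MvPolynomial.aevalTower_X _ _ a

theorem e_φ (p : (Amb ι d).R) : (e c).φ p = (Mor.fst (F c) ptT).φ ((inF c).φ ((u d).φ p)) :=
  DFunLike.congr_fun (adj_ext (f := (e c).φ)
    (g := ((u d).comp ((inF c).comp (Mor.fst (F c) ptT))).φ) fun a =>
      (e_x c a).trans (congrArg (fun r => (Mor.fst (F c) ptT).φ ((inF c).φ r)) (u_x d a)).symm) p

theorem e_inl (g : Option Unit → ℤ) (j : (F c).J) : (e c).ρ g (.inl j) = g none :=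
  (zero_add _).trans (mul_one (g none))

theorem e_inr (g : Option Unit → ℤ) : (e c).ρ g (.inr ()) = g (some ()) + g none * -c.w := rfl

/-- the inverse map of lattices -/
def ret : ((F c).J ⊕ Unit → ℤ) →+ (Option Unit → ℤ) where
  toFun := fun δ o => o.elim (δ (.inl none)) fun _ => δ (.inr ()) + δ (.inl none) * c.w
  map_zero' := funext fun o => by
    cases o
    · rfl
    · show (0 : ℤ) + 0 * c.w = 0
      ring
  map_add' := fun δ δ' => funext fun o => by
    cases o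
    · rfl
    · show δ (.inr ()) + δ' (.inr ()) + (δ (.inl none) + δ' (.inl none)) * c.w =
        δ (.inr ()) + δ (.inl none) * c.w + (δ' (.inr ()) + δ' (.inl none) * c.w)
      ring

theorem ret_e (g : Option Unit → ℤ) : ret c ((e c).ρ g) = g := funext fun o => by
  rcases o with _ | ⟨⟨⟩⟩
  · exact e_inl c g none
  · refine (congrArg₂ (fun a b : ℤ => a + b * c.w) (e_inr c g) (e_inl c g none)).trans ?_
    show g (some ()) + g none * -c.w + g none * c.w = g (some ())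
    ring

theorem e_ret (δ : (F c).J ⊕ Unit → ℤ) : (e c).ρ (ret c δ) = δ := funext fun j => by
  rcases j with (_ | ⟨⟨⟩⟩) | ⟨⟨⟩⟩
  · exact e_inl c _ none
  · have h : ∀ a b : ℤ, a + b * c.w + b * -c.w = a := fun a b => by ring
    exact h _ _

variable (hc : (Amb0 ι).Clo (FS c))

include hc in
theorem j0_surj : (j0 c).Surj := fun y => by
  obtain ⟨z, -, h⟩ := incl_mem (FS_stab c) hc y
  exact ⟨z, incl_inj _ _ (FS_stab c) _ _ h⟩

include hc in
theorem e_pt (z : ((F c).prod ptT).Pt) : (e c).onPt z ∈ O.Z := by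
  have h := u_mem c (incl_mem (FS_stab c) hc ((Mor.fst (F c) ptT).onPt z))
  refine (congrArg (· ∈ O.Z) (Subtype.ext (AlgHom.ext fun p => ?_))).mpr h
  exact congrArg z.1 (e_φ c p)

/-- the embedding in the zero set -/
def i : Mor ((F c).prod ptT) O.Q := (e c).toSub O.Z O.hZ (e_pt c hc)

theorem i_φ (p : (Amb ι d).R) : (i c hc).φ (O.inc.φ p) = (e c).φ p := rfl

theorem i_v (p : (Amb0 ι).R) :
    (i c hc).φ (O.inc.φ (v d p)) = (Mor.fst (F c) ptT).φ ((inF c).φ p) := by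
  rw [i_φ, e_φ, u_v]

theorem onto : Function.Surjective (i c hc).φ := fun r => by
  obtain ⟨p, hp⟩ := Ideal.Quotient.mk_surjective ((sec (F c)).φ r)
  exact ⟨_, (i_v c hc p).trans ((congrArg (Mor.fst (F c) ptT).φ hp).trans (sec_fst _ r))⟩

theorem fac : c.j = (i c hc).comp ((j0 c).map (Mor.id ptT)) := by
  refine Mor.eq_of (fun r => ?_) fun g => funext fun j => ?_
  · obtain ⟨p, rfl⟩ := Ideal.Quotient.mk_surjective r
    refine DFunLike.congr_fun (adj_ext (f := (O.inc.comp c.j).φ)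
      (g := ((e c).comp ((j0 c).map (Mor.id ptT))).φ) fun a => ?_) p
    refine ((congrArg ((j0 c).map (Mor.id ptT)).φ (e_x c a)).trans ?_).symm
    rw [Mor.map_φ_fst]
    exact (congrArg (Mor.fst c.X ptT).φ (j00_x c a)).trans (sec_fst c.X _)
  · refine Eq.trans ?_ (congrFun (Mor.map_ρ (j0 c) (Mor.id ptT) ((e c).ρ g)) j).symm
    rcases j with j | ⟨⟨⟩⟩
    · refine (jρ_inl c g j).trans ?_
      exact ((zero_add _).trans (congrArg (fun t : ℤ => t * γ c j) (e_inl c g none))).symm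
    · exact jρ_inr c g

/-- the projective structure of the closed embedding -/
def P : Prj (i c hc) :=
  Prj.ofFinite (i c hc) (ret c) (ret_e c) (e_ret c) (fun r => int_of_mem (onto c hc r)) fun z h => by
    obtain ⟨a, ha⟩ := (adj_pt' (z.comp (e c).φ)).1
      ((Spc.sub_pt _ O.Z O.hZ (z.comp (i c hc).φ)).1 h)
    refine (Spc.prod_pt' (F c) ptT z).2 ⟨?_, pt_one z _⟩
    refine (Spc.sub_pt _ (FS c) (FS_stab c) (z.comp (Mor.fst (F c) ptT).φ)).2 ?_
    exact (adj_pt' (z.comp ((inF c).comp (Mor.fst (F c) ptT)).φ)).2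
      ⟨a, fun e' => ha ((congrArg z (e_x c a)).trans e')⟩

theorem pts (z : O.Q.Pt) :
    (∀ r, (i c hc).φ r = 0 → z.1 r = 0) ↔ ∃ x, O.Q.Orb (c.j.onPt x) z := by
  constructor
  · intro h
    obtain ⟨a, ha⟩ := (adj_pt' (O.inc.onPt z).1).1 (O.inc.onPt z).2
    let y : (Amb0 ι).Pt := ⟨(O.inc.onPt z).1.comp (v d), (adj_pt' _).2 ⟨a, ha⟩⟩
    have hy : y ∈ FS c := hc y fun p hp => h _ ((i_v c hc p).trans
      ((congrArg (Mor.fst (F c) ptT).φ (Ideal.Quotient.eq_zero_iff_mem.2 hp)).trans (map_zero _)))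
    obtain ⟨x, -, hx⟩ := hy
    exact ⟨_, orb_of c hx (Subtype.ext (AlgHom.ext fun p =>
      congrArg (O.inc.onPt z).1 (v_u d p)))⟩
  · rintro ⟨x, g, hg⟩ r hr
    rw [hg, fac c hc, ← (P c hc).tor_ret g]
    show x.1 (((j0 c).map (Mor.id ptT)).φ ((i c hc).φ (O.Q.act _ r))) = 0
    rw [Mor.act_map, hr, map_zero, map_zero, map_zero]

end Img

/-! ### the projection to `W × ptT` -/

section Prw

variable {ι : Type} [Fintype ι] [Nonempty ι] {d : ι → ℤ} (O : Obs ι d) (W : Spc)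

theorem piW_none (δ : W.J ⊕ Unit → ℤ) : (piW O W).ρ δ (.inl none) = 0 := rfl

theorem piW_some (δ : W.J ⊕ Unit → ℤ) (t : Unit) : (piW O W).ρ δ (.inl (some t)) = δ (.inr ()) :=
  zero_add _

theorem piW_inr (δ : W.J ⊕ Unit → ℤ) (j : W.J) : (piW O W).ρ δ (.inr j) = δ (.inl j) :=
  add_zero _

theorem piW_fst (b : W.R) : (piW O W).φ ((Mor.fst W ptT).φ b) = (Mor.snd O.Q W).φ b :=
  congrArg (fun f : Mor (O.Q.prod W) W => f.φ b) (Mor.fst_lift _ _)

open Classical in
/-- the projective structure -/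
def prjW : Prj (piW O W) where
  E := Unit
  π := { toFun := fun g _ => g (.inl none), map_zero' := rfl, map_add' := fun _ _ => rfl }
  σ := { toFun := fun k => Sum.elim (fun o : Option Unit => o.elim (k ()) fun _ => 0) 0
         map_zero' := funext fun j => by rcases j with (_ | _) | _ <;> rfl
         map_add' := fun _ _ => funext fun j => by rcases j with (_ | _) | _ <;> rfl }
  ret := { toFun := fun g => Sum.elim (fun j => g (.inr j)) fun _ => g (.inl (some ()))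
           map_zero' := funext fun j => by cases j <;> rfl
           map_add' := fun _ _ => funext fun j => by cases j <;> rfl }
  ret_ρ := fun δ => funext fun j => by
    cases j
    · exact piW_inr O W δ _
    · exact piW_some O W δ ()
  ret_σ := fun _ => funext fun j => by cases j <;> rfl
  π_ρ := fun δ => rfl
  π_σ := fun _ => rfl
  tot := fun δ => funext fun j => by
    rcases j with (_ | _) | _
    · exact zero_add _
    · exact (add_zero _).trans (piW_some O W _ ())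
    · exact (add_zero _).trans (piW_inr O W _ _)
  y := fun _ => Finset.univ.image fun a => (O.inc.comp (Mor.fst O.Q W)).φ (Amb.x d a)
  y_wt := fun _ r hr => by
    obtain ⟨a, -, rfl⟩ := Finset.mem_image.1 hr
    refine ⟨Sum.elim 0 fun _ => d a, ?_⟩
    refine (congrArg (fun δ => _ ∈ (O.Q.prod W).wt δ) ?_).mpr
      ((O.inc.comp (Mor.fst O.Q W)).wt_map _ _ (Spc.X_mem ptT ι (fun a _ => d a) a))
    funext j
    rcases j with (_ | _) | _
    · rfl
    · exact (add_zero _).trans (piW_some O W _ ())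
    · rfl
  fin := fin_of_integral _ (ten_integral (fun r => int_of_mem (by
      obtain ⟨p, rfl⟩ := Ideal.Quotient.mk_surjective r
      show (O.inc.comp (Mor.fst O.Q W)).φ p ∈ _
      induction p using MvPolynomial.induction_on with
      | C c =>
        exact ((O.inc.comp (Mor.fst O.Q W)).φ.commutes (c : ℂ)).symm ▸ Subalgebra.algebraMap_mem _ _
      | add p q hp hq => exact (map_add (O.inc.comp (Mor.fst O.Q W)).φ p q).symm ▸ add_mem hp hq
      | mul_X p a hp =>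
        exact (map_mul (O.inc.comp (Mor.fst O.Q W)).φ p (Amb.x d a)).symm ▸ mul_mem hp
          (Algebra.subset_adjoin (Or.inr (Set.mem_iUnion.2
            ⟨(), Finset.mem_image_of_mem _ (Finset.mem_univ a)⟩)))))
    fun b => int_of_mem (Algebra.subset_adjoin (Or.inl ⟨_, piW_fst O W b⟩)))
  pts := fun z => by
    have h1 : (∃ f ∈ O.Q.b, z ((Mor.fst O.Q W).φ f) ≠ 0) ↔
        ∃ a, z ((O.inc.comp (Mor.fst O.Q W)).φ (Amb.x d a)) ≠ 0 :=
      (Spc.sub_pt _ O.Z O.hZ (z.comp (Mor.fst O.Q W).φ)).trans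
        (adj_pt' (z.comp (O.inc.comp (Mor.fst O.Q W)).φ))
    have h2 : (∃ a ∈ (W.prod ptT).b, z ((piW O W).φ a) ≠ 0) ↔
        ∃ f ∈ W.b, z ((Mor.snd O.Q W).φ f) ≠ 0 := by
      refine (Spc.prod_pt' W ptT (z.comp (piW O W).φ)).trans ((and_iff_left (pt_one _ _)).trans ?_)
      simp only [AlgHom.comp_apply, piW_fst]
    rw [Spc.prod_pt', h1, h2, and_comm]
    refine and_congr_right fun _ => ⟨fun ⟨a, ha⟩ _ => ?_, fun h => ?_⟩
    · exact ⟨_, Finset.mem_image_of_mem _ (Finset.mem_univ a), ha⟩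
    · obtain ⟨r, hr, h0⟩ := h ()
      obtain ⟨a, -, rfl⟩ := Finset.mem_image.1 hr
      exact ⟨a, h0⟩

end Prw

end Geo

open Geo

theorem geo (h : Api) (hd : DIMJ) : GEO := fun ι _ _ d O c => by
  have hc : (Amb0 ι).Clo (FS c) := h.clim _ _ (j00 c) Set.univ c.var.proj (amb0_proj ι)
    (fun _ _ _ _ => trivial) fun _ _ => trivial
  have hp : (F c).IsProj := h.proj_sub _ _ (amb0_proj ι)
  obtain ⟨h1, h2⟩ := hd _ _ (j0 c) c.var.proj hp (j0_inj c) (j0_surj c hc)
  obtain ⟨h3, h4⟩ := h2 ⟨c.var.dom, c.var.ne⟩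
  obtain ⟨a, ha, -⟩ := exists_w c
  exact ⟨{
    F := F c
    var := ⟨hp, h3, h4, (h1 c.e).1 c.var.dim⟩
    card := rfl
    j0 := j0 c
    inj := j0_inj c
    surj := j0_surj c hc
    i := i c hc
    fac := fac c hc
    it := by
      funext j
      rcases j with j | ⟨⟨⟩⟩
      · exact (e_inl c _ j).trans ((Pi.single_eq_of_ne (Option.some_ne_none _).symm _).trans
          (Pi.single_eq_of_ne (M := fun _ => ℤ) Sum.inl_ne_inr 1).symm)
      · refine (e_inr c _).trans (Eq.trans ?_ (Pi.single_eq_same (M := fun _ => ℤ) _ 1).symm)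
        refine (congrArg₂ (fun s t : ℤ => s + t * -c.w) (Pi.single_eq_same _ _)
          (Pi.single_eq_of_ne (Option.some_ne_none _).symm _)).trans ?_
        show (1 : ℤ) + 0 * -c.w = 1
        ring
    ρbij := Function.bijective_iff_has_inverse.2 ⟨ret c, ret_e c, e_ret c⟩
    onto := onto c hc
    fix := fun a ha => (e_x c a).trans ((congrArg _ (x0_van c a ha)).trans (map_zero _))
    P := P c hc
    emp := inferInstanceAs (IsEmpty Empty)
    pts := pts c hc
    mem := Finset.mem_image.2 ⟨a, Finset.mem_univ a, ha⟩ }⟩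

theorem prw : PRW := fun ι _ _ d O W => ⟨⟨prjW O W⟩, fun k => by
  rw [tK, tY, pullK_line, pullK_line, pullK_line, pullK_line]
  refine congrArg (line _) (funext fun j => ?_)
  rcases j with (_ | _) | _
  · rfl
  · exact piW_some O W _ ()
  · rfl⟩

end Lc

end Vale.Agent.P297Z
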