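import Vale.Agent.P297Z.Loc.Defs
import Vale.Agent.P297Z.Top.Lead

/-!
# P297: the Euler class of the kernel bundle
-/

set_option linter.all false

noncomputable section

namespace Vale.Agent.P297Z

open PowerSeries

namespace Lc

namespace Ky

variable {W Y V : Spc} {a b : K0 Y} {r r' : ℕ}

theorem cls_kc {M : GMod Y} (h : M.IsBun r) : IsCls (kc M r) r := ⟨⟨M, r, h⟩, rfl, (kc_eq h).symm⟩

theorem cls_rk (h : IsCls a r) : rk Y a = r := by
  obtain ⟨B, rfl, rfl⟩ := h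
  exact rk_cls B

theorem cls_add (h : IsCls a r) (h' : IsCls b r') : IsCls (a + b) (r + r') := by
  obtain ⟨A, rfl, rfl⟩ := h
  obtain ⟨B, rfl, rfl⟩ := h'
  rw [← kc_bun, ← kc_bun, ← kc_prod A.free B.free]
  exact cls_kc (A.free.prod B.free)

theorem cls_line_mul (γ : Y.J → ℤ) (h : IsCls a r) : IsCls (line Y γ * a) r := by
  obtain ⟨A, rfl, rfl⟩ := h
  rw [← kc_bun, ← kc_shift A.free]
  exact cls_kc (A.free.shift γ)

theorem cls_pull (f : Mor W Y) (h : IsCls a r) : IsCls (pullK f a) r := by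
  obtain ⟨A, rfl, rfl⟩ := h
  rw [pullK_cls]
  exact cls_kc (A.free.pull f)

theorem cls_line (γ : Y.J → ℤ) : IsCls (line Y γ) 1 := cls_kc ((GMod.isBun_one Y).shift γ)

theorem cls_tK {a : K0 V} (k : ℤ) (h : IsCls a r) :
    IsCls (tK V k * pullK (Mor.fst V ptT) a) r := by
  rw [tK_eq]
  exact cls_line_mul _ (cls_pull _ h)

theorem above (h : Api) (ha : IsCls a r) {i : ℕ} (hi : r < i) : cc i a = 0 := by
  obtain ⟨A, rfl, rfl⟩ := ha
  exact h.cc_above A i hi

theorem coeff_cT (i : ℕ) (a : K0 Y) : coeff i (cT a) = cc i a := coeff_mk _ _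

theorem top_mul (h : Api) (ha : IsCls a r) (hb : IsCls b r') :
    cc (r + r') (a + b) = cc r a * cc r' b := by
  rw [← coeff_cT, h.cT_add, coeff_mul, Finset.sum_eq_single (r, r'), coeff_cT, coeff_cT]
  · intro p hp hn
    have e := Finset.HasAntidiagonal.mem_antidiagonal.1 hp
    rw [coeff_cT, coeff_cT]
    by_cases h1 : r < p.1
    · rw [above h ha h1, zero_mul]
    · rw [above h hb (i := p.2) ?_, mul_zero]
      by_contra h2
      exact hn (Prod.ext (by omega) (by omega))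
  · intro hn
    exact absurd (Finset.HasAntidiagonal.mem_antidiagonal (a := (r, r')).2 rfl) hn

theorem cc_cls (ha : IsCls a r) {i : ℕ} (hi : i ≤ r) : cc i a =
    ∑ j ∈ Finset.range (i + 1), (-1) ^ j * ((r - j).choose (i - j) : K0 Y) * lam j a := by
  refine Finset.sum_congr rfl fun j hj => ?_
  have hj' := Finset.mem_range.1 hj
  rw [cls_rk ha, ← Nat.cast_sub (by omega), Ring.choose_natCast, zsmul_eq_mul]
  push_cast
  rfl

theorem cc_top (ha : IsCls a r) :
    cc r a = ∑ j ∈ Finset.range (r + 1), (-1) ^ j * lam j a := by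
  rw [cc_cls ha le_rfl]
  refine Finset.sum_congr rfl fun j _ => ?_
  rw [Nat.choose_self, Nat.cast_one, mul_one]

theorem cc_line (h : Api) (γ : Y.J → ℤ) : cc 1 (line Y γ) = 1 - line Y γ := by
  rw [cc_top (cls_line γ), Finset.sum_range_succ, Finset.sum_range_one, h.lam_zero, h.lam_one]
  ring

theorem cT_zero (h : Api) : cT (0 : K0 Y) = 1 := by
  have h1 : IsUnit (cT (0 : K0 Y)) := by
    rw [isUnit_iff_constantCoeff, ← coeff_zero_eq_constantCoeff_apply, coeff_cT, cc,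
      Finset.sum_range_one, h.lam_zero]
    simp
  have h2 := h.cT_add (0 : K0 Y) 0
  rw [add_zero] at h2
  exact h1.mul_eq_left.1 h2.symm

theorem cT_neg (h : Api) (a : K0 Y) : cT a * cT (-a) = 1 := by
  rw [← h.cT_add, add_neg_cancel, cT_zero h]

theorem cc_pull (h : Api) (f : Mor W Y) (i : ℕ) (a : K0 Y) :
    cc i (pullK f a) = pullK f (cc i a) := by
  rw [cc, cc, map_sum]
  refine Finset.sum_congr rfl fun j _ => ?_
  rw [map_zsmul, h.lam_pull, rk_pullK]

theorem twist (h : Api) (γ : Y.J → ℤ) (ha : IsCls a r) : cc r (line Y γ * a) =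
    ∑ i ∈ Finset.range (r + 1), (1 - line Y γ) ^ (r - i) * (line Y γ ^ i * cc i a) := by
  rw [cc_top (cls_line_mul γ ha)]
  simp only [h.lam_line]
  generalize line Y γ = l
  have e := Finset.sum_range_diag_flip (r + 1) fun j k =>
    (1 - l) ^ (r - (j + k)) * (l ^ (j + k) * ((-1) ^ j * ((r - j).choose k : K0 Y) * lam j a))
  refine Eq.trans ?_ (e.symm.trans ?_)
  · refine Finset.sum_congr rfl fun j hj => ?_
    have hj' := Finset.mem_range.1 hj
    have e2 := add_pow l (1 - l) (r - j)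
    rw [add_sub_cancel, one_pow] at e2
    rw [show r + 1 - j = r - j + 1 by omega]
    refine ((mul_one _).symm.trans (congrArg _ e2)).trans ?_
    rw [Finset.mul_sum]
    refine Finset.sum_congr rfl fun k _ => ?_
    rw [pow_add, Nat.sub_add_eq]
    ring
  · refine Finset.sum_congr rfl fun i hi => ?_
    have hi' := Finset.mem_range.1 hi
    rw [cc_cls ha (by omega : i ≤ r), Finset.mul_sum, Finset.mul_sum]
    refine Finset.sum_congr rfl fun j hj => ?_
    have hj' := Finset.mem_range.1 hj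
    rw [show j + (i - j) = i by omega]

theorem top_sum (h : Api) {ι : Type} (S : Finset ι) (γ : ι → Y.J → ℤ) (ha : IsCls a r) :
    IsCls (a + ∑ i ∈ S, line Y (γ i)) (r + S.card) ∧
      cc (r + S.card) (a + ∑ i ∈ S, line Y (γ i)) = cc r a * ∏ i ∈ S, (1 - line Y (γ i)) := by
  classical
  induction S using Finset.induction_on with
  | empty => simpa using ha
  | insert i S hi ih =>
    rw [Finset.card_insert_of_notMem hi, Finset.sum_insert hi, Finset.prod_insert hi,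
      add_comm (line Y _), ← add_assoc, ← add_assoc, top_mul h ih.1 (cls_line _), ih.2, cc_line h]
    exact ⟨cls_add ih.1 (cls_line _), by ring⟩

/-- the homogeneous value of a series -/
def Hh (k : ℤ) (n : ℕ) (s : (K0 V)⟦X⟧) : K0 (V.prod ptT) :=
  ∑ b ∈ Finset.range (n + 1),
    (1 - tK V 1) ^ (n - b) * (tK V k ^ b * pullK (Mor.fst V ptT) (coeff b s))

/-- the terms of degree at most `D` -/
def cut {A : Type*} [CommRing A] (D : ℕ) (s : A⟦X⟧) : A⟦X⟧ :=
  PowerSeries.mk fun i => if i ≤ D then coeff i s else 0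

theorem dvd_cut {A : Type*} [CommRing A] (D : ℕ) (s : A⟦X⟧) : X ^ (D + 1) ∣ cut D s - s :=
  X_pow_dvd_iff.2 fun i hi => by rw [map_sub, cut, coeff_mk, if_pos (by omega), sub_self]

theorem coeff_of_dvd {A : Type*} [CommRing A] {D b : ℕ} {s s' : A⟦X⟧}
    (h : X ^ (D + 1) ∣ s - s') (hb : b ≤ D) : coeff b s = coeff b s' := by
  have := X_pow_dvd_iff.1 h b (by omega)
  rwa [map_sub, sub_eq_zero] at this

theorem cut_above {A : Type*} [CommRing A] {D b : ℕ} (s : A⟦X⟧) (hb : D < b) :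
    coeff b (cut D s) = 0 := by rw [cut, coeff_mk, if_neg (by omega)]

theorem cut_FF {s : (K0 V)⟦X⟧} (hs : ∀ b, coeff b s ∈ FF V b) (D b : ℕ) :
    coeff b (cut D s) ∈ FF V b := by
  rw [cut, coeff_mk]
  split_ifs
  · exact hs b
  · exact zero_mem _

theorem FF_anti {i j : ℕ} (h : i ≤ j) (ha : a ∈ FF Y j) : a ∈ FF Y i :=
  fun W f hW d x hx => ha W f hW d x (AddSubgroup.closure_mono (by
    rintro x ⟨M, hM, rfl⟩
    exact ⟨M, hM.trans_le (by exact_mod_cast Nat.add_le_add_left h _), rfl⟩) hx)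

theorem tK_pow (k : ℤ) (b : ℕ) : tK V k ^ b = tK V (b * k) := by
  induction b with
  | zero => rw [pow_zero, Nat.cast_zero, zero_mul, tK_zero]
  | succ b ih => rw [pow_succ, ih, ← tK_add, Nat.cast_succ, add_mul, one_mul]

theorem tK_inv : tK V (-1) * tK V 1 = 1 := by rw [← tK_add, neg_add_cancel, tK_zero]

theorem lead_Hh (k : ℤ) {n : ℕ} {s : (K0 V)⟦X⟧} (h1 : ∀ b, coeff b s ∈ FF V b)
    (h2 : ∀ b, n < b → coeff b s = 0) : Lead V n (Hh k n s) s := by
  refine ⟨h1, h2, ?_⟩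
  rw [Hh, ← Finset.sum_sub_distrib]
  refine sum_mem fun b hb => ?_
  have hb' := Finset.mem_range.1 hb
  have a1 : tK V (b * k) - 1 ∈ Deg V 1 := by simpa using (Lead.tK (V := V) (b * k)).2.2
  have a2 := Deg_mul (Deg_gen' (m := n) (a := n - b) (by omega) (h1 b)) a1
  rw [← tK_pow] at a2
  convert a2 using 1
  ring

theorem Hh_mul (k : ℤ) {m n : ℕ} {s s' : (K0 V)⟦X⟧} (h : ∀ b, m < b → coeff b s = 0)
    (h' : ∀ b, n < b → coeff b s' = 0) : Hh k m s * Hh k n s' = Hh k (m + n) (s * s') := by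
  have e := conv_sum (RingHom.id _) (1 - tK V 1)
    (rescale (tK V k) (map (pullK (Mor.fst V ptT)) s))
    (rescale (tK V k) (map (pullK (Mor.fst V ptT)) s')) m n
    (fun b hb => by rw [coeff_rescale, coeff_map, h b hb, map_zero, mul_zero])
    (fun b hb => by rw [coeff_rescale, coeff_map, h' b hb, map_zero, mul_zero])
  rw [← map_mul, ← map_mul] at e
  simpa only [Hh, RingHom.id_apply, coeff_rescale, coeff_map] using e

theorem Hh_nul (hm : LMUL) {n : ℕ} (hV : V.IsVar n) (k : ℤ) (m D : ℕ) {s : (K0 V)⟦X⟧}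
    (h1 : ∀ b, coeff b s ∈ FF V b) (h2 : X ^ (D + 1) ∣ s - 1) :
    Hh k m s - (1 - tK V 1) ^ m ∈ Nul V D := by
  rw [Hh, Finset.sum_range_succ', coeff_of_dvd h2 D.zero_le, coeff_zero_one, map_one, pow_zero,
    mul_one, mul_one, Nat.sub_zero, add_sub_cancel_right]
  refine sum_mem fun b _ => (hm V).2.2.2.2.2 n D hV _ _ ?_
  by_cases hb : b + 1 ≤ D
  · rw [coeff_of_dvd h2 hb, coeff_one, if_neg b.succ_ne_zero, map_zero, mul_zero]
    exact zero_mem _
  · exact AddSubgroup.subset_closure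
      ⟨_, _, FF_anti (by omega) (h1 (b + 1)), congrArg (· * _) (tK_pow _ _)⟩

theorem inv_nul (hm : LMUL) {n : ℕ} (hV : V.IsVar n) (k : ℤ) (D : ℕ) {s s' : (K0 V)⟦X⟧}
    (h1 : ∀ b, coeff b s ∈ FF V b) (h2 : ∀ b, r < b → coeff b s = 0)
    (h3 : ∀ b, coeff b s' ∈ FF V b) (h4 : s * s' = 1) :
    Hh k r s * Hh k D (cut D s') - (1 - tK V 1) ^ (r + D) ∈ Nul V D := by
  rw [Hh_mul k h2 fun b => cut_above s']
  refine Hh_nul hm hV k _ D ((lead_Hh k h1 h2).mul
    (lead_Hh k (cut_FF h3 D) fun b => cut_above s')).1 ?_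
  rw [← h4, ← mul_sub]
  exact (dvd_cut D s').mul_left _

theorem twist_pos (h : Api) {a : K0 V} (ha : IsCls a r) :
    cc r (tK V 1 * pullK (Mor.fst V ptT) a) = Hh 1 r (cT a) := by
  have e := twist h (Y := V.prod ptT) (Sum.elim 0 fun _ => 1) (cls_pull (Mor.fst V ptT) ha)
  rw [← tK_eq] at e
  rw [e]
  refine Finset.sum_congr rfl fun i _ => ?_
  rw [cc_pull h, coeff_cT]

theorem twist_neg (h : Api) {a : K0 V} (ha : IsCls a r) :
    cc r (tK V (-1) * pullK (Mor.fst V ptT) a) =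
      (-tK V (-1)) ^ r * Hh 0 r (rescale (-1) (cT a)) := by
  have e := twist h (Y := V.prod ptT) (Sum.elim 0 fun _ => -1) (cls_pull (Mor.fst V ptT) ha)
  rw [← tK_eq] at e
  rw [e, Hh, Finset.mul_sum]
  refine Finset.sum_congr rfl fun i hi => ?_
  have hi' := Finset.mem_range.1 hi
  have e1 : 1 - tK V (-1) = -tK V (-1) * (1 - tK V 1) := by
    linear_combination (-1 : K0 (V.prod ptT)) * tK_inv (V := V)
  have e2 : (-tK V (-1)) ^ i * (-1) ^ i = tK V (-1) ^ i := by rw [← mul_pow, mul_neg_one, neg_neg]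
  rw [cc_pull h, coeff_rescale, coeff_cT, tK_zero, one_pow, one_mul, map_mul, map_pow, map_neg,
    map_one, e1, mul_pow, ← e2, ← pow_sub_mul_pow (-tK V (-1)) (by omega : i ≤ r)]
  ring

theorem cT_FF (h : Api) (a : K0 Y) (i : ℕ) : coeff i (cT a) ∈ FF Y i := by
  rw [coeff_cT]
  exact h.cc_FF i a

theorem res_FF (h : Api) (a : K0 Y) (i : ℕ) : coeff i (rescale (-1) (cT a)) ∈ FF Y i := by
  rw [coeff_rescale]
  rcases neg_one_pow_eq_or (K0 Y) i with e | e
  · rw [e, one_mul]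
    exact cT_FF h a i
  · rw [e, neg_one_mul]
    exact neg_mem (cT_FF h a i)

theorem lead_pow (k : ℤ) (n : ℕ) : Lead V 0 ((-tK V k) ^ n) ((-1) ^ n) := by
  induction n with
  | zero => simpa using Lead.one
  | succ n ih =>
    rw [pow_succ, pow_succ]
    exact ih.mul (Lead.tK k).neg

theorem sign {A : Type*} [CommRing A] (m n : ℕ) :
    (-1 : A) ^ m * (-1) ^ n = (-1) ^ ((m : ℤ) - n).natAbs := by
  rw [← pow_add, neg_one_pow_eq_pow_mod_two, neg_one_pow_eq_pow_mod_two (n := Int.natAbs _)]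
  congr 1
  omega

end Ky

open Ky

theorem key (h : Api) (hm : LMUL) : KEY := by
  intro V n hV C' r hC Ob o hO bp bm ι S γ e D
  obtain ⟨P1, P2, rfl⟩ := K0_induction bp
  obtain ⟨M1, M2, rfl⟩ := K0_induction bm
  have c : ∀ B : Bun V, IsCls B.cls B.rk := fun B => ⟨B, rfl, rfl⟩
  have z1 : ∀ (B : Bun V) b, B.rk < b → coeff b (cT B.cls) = 0 := fun B b hb => by
    rw [coeff_cT, h.cc_above B b hb]
  have z2 : ∀ (B : Bun V) b, B.rk < b → coeff b (rescale (-1) (cT B.cls)) = 0 := fun B b hb => by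
    rw [coeff_rescale, z1 B b hb, mul_zero]
  obtain ⟨s1, s2⟩ := top_sum h S γ (cls_pull (Mor.fst V ptT) hO)
  have e1 : C' + tK V 1 * pullK (Mor.fst V ptT) P2.cls + tK V (-1) * pullK (Mor.fst V ptT) M2.cls =
      pullK (Mor.fst V ptT) Ob + ∑ a ∈ S, line _ (γ a) + tK V 1 * pullK (Mor.fst V ptT) P1.cls +
        tK V (-1) * pullK (Mor.fst V ptT) M1.cls := by
    rw [e, map_sub, map_sub]
    ring
  have l1 := cls_add hC (cls_tK 1 (c P2))
  have l2 := cls_add s1 (cls_tK 1 (c P1))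
  have e2 : r + P2.rk + M2.rk = o + S.card + P1.rk + M1.rk := by
    have := congrArg (rk _) e1
    rw [cls_rk (cls_add l1 (cls_tK (-1) (c M2))), cls_rk (cls_add l2 (cls_tK (-1) (c M1)))] at this
    exact_mod_cast this
  have e3 := top_mul h l1 (cls_tK (-1) (c M2))
  rw [e1, e2, top_mul h l2 (cls_tK (-1) (c M1)), top_mul h s1 (cls_tK 1 (c P1)), s2,
    top_mul h hC (cls_tK 1 (c P2)), twist_pos h (c P1), twist_pos h (c P2), twist_neg h (c M1),
    twist_neg h (c M2), cc_pull h] at e3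
  have n1 := inv_nul hm hV 1 D (cT_FF h _) (z1 P2) (cT_FF h _) (cT_neg h P2.cls)
  have n2 := inv_nul hm hV 0 D (res_FF h _) (z2 M2) (res_FF h (-M2.cls))
    (by rw [← map_mul, cT_neg h, map_one])
  have e4 : (-tK V (-1)) ^ M2.rk * (-tK V 1) ^ M2.rk = 1 := by
    rw [← mul_pow, neg_mul_neg, tK_inv, one_pow]
  have L := ((((Lead.of_FF' (h.cc_FF o Ob)).mul (lead_Hh 1 (cT_FF h _) (z1 P1))).mul
    (lead_Hh 1 (cut_FF (cT_FF h (-P2.cls)) D) fun b => cut_above _)).mul
    (lead_Hh 0 (res_FF h _) (z2 M1))).mul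
    (lead_Hh 0 (cut_FF (res_FF h (-M2.cls)) D) fun b => cut_above _)
  refine ⟨P2.rk + D + (M2.rk + D), _, _, _, ?_,
    L.mul ((lead_pow (-1) M1.rk).mul (lead_pow 1 M2.rk)), ?_, fun b hb => ?_⟩
  · have I := (hm V).2.2.2.2.2 n D hV
    have := add_mem (I (-cc r C' * (1 - tK V 1) ^ (P2.rk + D)) _ n2)
      (I (-cc r C' * (Hh 0 M2.rk (rescale (-1) (cT M2.cls)) *
        Hh 0 D (cut D (rescale (-1) (cT (-M2.cls)))))) _ n1)
    convert this using 1
    rw [pow_add]
    linear_combination (-(Hh 1 D (cut D (cT (-P2.cls))) *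
      Hh 0 D (cut D (rescale (-1) (cT (-M2.cls)))) * (-tK V 1) ^ M2.rk)) * e3 -
      (cc r C' * Hh 1 P2.rk (cT P2.cls) * Hh 1 D (cut D (cT (-P2.cls))) *
        Hh 0 M2.rk (rescale (-1) (cT M2.cls)) *
        Hh 0 D (cut D (rescale (-1) (cT (-M2.cls))))) * e4
  · simp only [map_sub, rk_cls]
    push_cast
    ring
  · rw [← map_zsmul, zsmul_eq_mul, map_sub, rk_cls, rk_cls, Int.cast_pow, Int.cast_neg,
      Int.cast_one, ← sign, sub_eq_add_neg, sub_eq_add_neg, h.cT_add, h.cT_add,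
      map_mul (rescale _)]
    refine coeff_of_dvd ?_ hb
    obtain ⟨u, hu⟩ := dvd_cut D (cT (-P2.cls))
    obtain ⟨w, hw⟩ := dvd_cut D (rescale (-1) (cT (-M2.cls)))
    rw [sub_eq_iff_eq_add.1 hu, sub_eq_iff_eq_add.1 hw]
    exact ⟨C (cc o Ob) * X ^ o * cT P1.cls * rescale (-1) (cT M1.cls) *
      ((-1) ^ M1.rk * (-1) ^ M2.rk) * (u * (X ^ (D + 1) * w + rescale (-1) (cT (-M2.cls))) +
        cT (-P2.cls) * w), by ring⟩

end Lc

end Vale.Agent.P297Z
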