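import Vale.Agent.P297Z.Loc.Defs
import Vale.Agent.P297Z.Top.Lead

/-!
# P297: leading parts and the leading term of the push-forward
-/

noncomputable section

namespace Vale.Agent.P297Z

open PowerSeries

namespace Lc

namespace Leadx

variable {V W : Spc}

theorem fl_mono {d d' : ℕ} (h : d ≤ d') : Fl V d ≤ Fl V d' :=
  AddSubgroup.closure_mono fun _ ⟨M, h1, h2⟩ => ⟨M, h1.trans_le (by exact_mod_cast h), h2⟩

theorem ff_anti {a b : ℕ} (h : a ≤ b) : FF V b ≤ FF V a := fun _ hy W f hW d x hx =>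
  hy W f hW d x (fl_mono (Nat.add_le_add_left h d) hx)

theorem ff_zero (h : Api) (y : K0 V) : y ∈ FF V 0 := fun _ _ _ d x hx => h.kact_Fl _ d x hx

theorem ff_act (hV : V.Free) {b d : ℕ} {y : K0 V} (hy : y ∈ FF V b) {x : G V}
    (hx : x ∈ Fd V (d + b)) : kact V y x ∈ Fd V d := by
  have := hy V (Mor.id V) hV (d + Fintype.card V.J) x (by rwa [add_right_comm])
  rwa [pullK_id] at this

theorem sub_add_sub_comm_aux {A : Type*} [AddCommGroup A] (a b c d : A) :
    a - b - c + (b - d) = a - (d + c) := by abel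

end Leadx

open Leadx

theorem lmul (h : Api) (hk : KDEC) : LMUL := fun V =>
  ⟨fun _ _ _ _ _ _ => Lead.mul, Lead.one_sub_pow, Lead.tK, fun _ _ => Lead.of_FF',
    fun _ _ _ => Lead.neg, fun n D hV a x hx => by
    have ha := hk V n hV a
    induction ha using AddSubgroup.closure_induction with
    | mem a ha =>
      obtain ⟨k, y, rfl⟩ := ha
      induction hx using AddSubgroup.closure_induction with
      | mem x hx =>
        obtain ⟨k', y', hy, rfl⟩ := hx
        refine AddSubgroup.subset_closure ⟨k + k', y * y', ?_, ?_⟩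
        · simpa only [zero_add] using FF_mul (ff_zero h y) hy
        · rw [tK_add, map_mul, mul_mul_mul_comm]
      | zero => rw [mul_zero]; exact zero_mem _
      | add y z _ _ hy hz => rw [mul_add]; exact add_mem hy hz
      | neg y _ hy => rw [mul_neg]; exact neg_mem hy
    | zero => rw [zero_mul]; exact zero_mem _
    | add y z _ _ hy hz => rw [add_mul]; exact add_mem hy hz
    | neg y _ hy => rw [neg_mul]; exact neg_mem hy⟩

theorem res (h : Api) : RES := by
  intro V W n hV x hx φ Ξ h1 h2 N D δ hD hN hδ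
  subst hD
  have hF : V.Free := h.free hV.1
  simp only [kact_smul] at h1 ⊢
  have h3 : ∀ (a : ℕ) c u, Ξ (((1 - tK V 1) ^ a * c) • u) = (1 - tK W 1) ^ a • Ξ (c • u) := by
    intro a c u
    induction a with
    | zero => rw [pow_zero, pow_zero, one_mul, one_smul]
    | succ a ih =>
      rw [pow_succ', mul_assoc, sub_mul, one_mul, sub_smul, map_sub, h1, ih, pow_succ', mul_smul,
        sub_smul, one_smul]
  have h4 : ∀ k (a : ℕ) y, Ξ ((tK V k * (1 - tK V 1) ^ a * pullK (Mor.fst V ptT) y) •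
      pullG (Mor.fst V ptT) x) =
      tK W k • (1 - tK W 1) ^ a • pullG (Mor.fst W ptT) (φ (y • x)) := fun k a y => by
    rw [mul_assoc, h1, h3, ← h2]
    exact congrArg (fun u => tK W k • (1 - tK W 1) ^ a • Ξ u) (pullG_kact (flat_fst _ _) y x).symm
  have h5 : ∀ (a : ℕ), ∀ u ∈ N, (1 - tK W 1) ^ a • u ∈ N := fun a u hu => by
    induction a with
    | zero => rwa [pow_zero, one_smul]
    | succ a ih =>
      rw [pow_succ', mul_smul, sub_smul, one_smul]
      exact sub_mem ih (hN 1 _ ih)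
  have hx' : x ∈ Fd V (δ + (D + 1)) := by
    rw [← sub_add_cancel x (oG V), show δ + (D + 1) = D + δ + 1 by omega]
    exact add_mem (fl_mono (by omega) hx) (h.oG_Fd hV)
  have h6 : ∀ k (a : ℕ), ∀ y ∈ FF V (D + 1), Ξ ((tK V k * (1 - tK V 1) ^ a *
      pullK (Mor.fst V ptT) y) • pullG (Mor.fst V ptT) x) ∈ N := fun k a y hy => by
    rw [h4]
    exact hN k _ (h5 a _ (hδ _ (ff_act hF hy hx')))
  refine ⟨fun a ha => ?_, fun E R s hR hE => ?_⟩
  · induction ha using AddSubgroup.closure_induction with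
    | mem a ha =>
      obtain ⟨k, y, hy, rfl⟩ := ha
      simpa only [pow_zero, mul_one] using h6 k 0 y hy
    | zero => rw [zero_smul, map_zero]; exact zero_mem _
    | add y z _ _ hy hz => rw [add_smul, map_add]; exact add_mem hy hz
    | neg y _ hy => rw [neg_smul, map_neg]; exact neg_mem hy
  let S : AddSubgroup (K0 (V.prod ptT)) :=
    { carrier := {c | ∃ u, Ξ (c • pullG (Mor.fst V ptT) x) - (1 - tK W 1) ^ (E - D + 1) • u ∈ N}
      zero_mem' := ⟨0, by simp⟩
      add_mem' := fun ⟨u, hu⟩ ⟨v, hv⟩ => ⟨u + v, by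
        rw [add_smul, map_add, smul_add, add_sub_add_comm]; exact add_mem hu hv⟩
      neg_mem' := fun ⟨u, hu⟩ => ⟨-u, by
        rw [neg_smul, map_neg, smul_neg, neg_sub_neg, ← neg_sub]; exact neg_mem hu⟩ }
  have h7 : ∀ k (a b : ℕ), ∀ y ∈ FF V b, D < b ∨ E - D + 1 ≤ a →
      tK V k * (1 - tK V 1) ^ a * pullK (Mor.fst V ptT) y ∈ S := by
    rintro k a b y hy (hb | ha)
    · exact ⟨0, by rw [smul_zero, sub_zero]; exact h6 k a y (ff_anti hb hy)⟩
    · obtain ⟨c, rfl⟩ := Nat.exists_eq_add_of_le ha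
      refine ⟨tK W k • (1 - tK W 1) ^ c • pullG (Mor.fst W ptT) (φ (y • x)), ?_⟩
      rw [h4, pow_add, mul_smul, smul_comm, sub_self]
      exact zero_mem _
  have h8 : Deg V (E + 1) ≤ S := (AddSubgroup.closure_le _).2 <| by
    rintro _ ⟨k, a, b, y, hab, hy, rfl⟩
    exact h7 k a b y hy (by omega)
  have h9 : R - (1 - tK V 1) ^ (E - D) * pullK (Mor.fst V ptT) (coeff D s) ∈ S := by
    have e := h8 hR.2.2
    rw [← Finset.add_sum_erase _ _ (Finset.mem_range.2 (Nat.lt_succ_of_le hE)), ← sub_sub] at e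
    refine (sub_add_cancel _ _).subst (add_mem e (sum_mem fun b hb => ?_))
    have := h7 0 (E - b) b _ (hR.1 b) (by have := Finset.ne_of_mem_erase hb; omega)
    rwa [tK_zero, one_mul] at this
  obtain ⟨u, hu⟩ := h9
  refine ⟨u, ?_⟩
  have e := h4 0 (E - D) (coeff D s)
  rw [tK_zero, tK_zero, one_mul, one_smul] at e
  rw [sub_smul, map_sub, e, pow_succ, mul_smul] at hu
  have h10 := h5 (E - D) _ (hδ _ (ff_act hF (hR.1 D) (x := x - oG V) (by rwa [add_comm])))
  rw [kact_smul, smul_sub, map_sub, map_sub, smul_sub] at h10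
  have h11 := add_mem hu h10
  rw [smul_add]
  rwa [sub_add_sub_comm_aux] at h11

end Lc

end Vale.Agent.P297Z
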