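import Vale.Agent.P297Z.Loc.MainA

/-!
# P297: assembly of the localisation theorem
-/

set_option linter.all false

noncomputable section

namespace Vale.Agent.P297Z

open PowerSeries

namespace Lc

variable {ι : Type} [Fintype ι] [Nonempty ι] {d : ι → ℤ} {O : Obs ι d}

theorem push_cast {X Y : Spc} {f f' : Mor X Y} (e : f = f') (P : Prj f') :
    ∃ R : Prj f, push R = push P := by
  subst e
  exact ⟨P, rfl⟩

theorem fst_mid {X Q : Spc} (j : Mor (X.prod ptT) Q) (W : Spc) :
    (Mor.fst Q W).comp (j.mid W) = j.comp ((Mor.fst X W).map (Mor.id ptT)) := Mor.fst_lift _ _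

theorem mid_comp {X F Q : Spc} (i : Mor (F.prod ptT) Q) (j0 : Mor X F) (W : Spc) :
    (i.mid W).comp ((j0.map (Mor.id W)).map (Mor.id ptT)) =
      (i.comp (j0.map (Mor.id ptT))).mid W := by
  rw [Mor.mid, Mor.mid, Mor.lift_comp, Mor.comp_assoc, Mor.comp_assoc, Mor.comp_assoc, Mor.map_map,
    Mor.map_map, Mor.fst_map, Mor.fst_map, ← Mor.comp_assoc, Mor.snd_map, Mor.id_comp,
    Mor.id_comp]

/-- the geometry of one component -/
theorem comp_geo (h : Api) (h2 : Api2) (hb : BCI) (ht : TR) (c : O.Comp) (g : Img c) {W : Spc}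
    {nW : ℕ} (hW : W.IsVar nW) (PW : Prj (piW O W))
    (PX : Prj ((Mor.snd c.X W).map (Mor.id ptT))) (ins : K0 (O.Q.prod W)) (a : K0 (Amb ι d))
    (b : K0 (g.F.prod ptT)) (x : G c.X) :
    push PW (kact _ ins (pullG (Mor.fst O.Q W) (kact _ (pullK O.inc a)
      (push g.P (kact _ b (pullG (Mor.fst _ _) (fstar g.j0 x))))))) =
    push PX (kact _ (pullK (c.j.mid W) ins * pullK ((Mor.fst c.X W).map (Mor.id ptT))
      (pullK (O.inc.comp c.j) a * pullK (g.j0.map (Mor.id ptT)) b))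
      (pullG (Mor.fst _ ptT) (pullG (Mor.fst c.X W) x))) := by
  obtain ⟨hf, he, P', hP'⟩ := hb ι d O c g W
  obtain ⟨P0⟩ := h.prj_snd W g.var.proj
  obtain ⟨PF⟩ := h.prj_map P0 ptT
  obtain ⟨R, hR⟩ := push_cast he PF
  rw [pullG_kact (flat_fst _ _), hP', ← kact_mul, ← h2.push_proj, ← h2.push_comp P' PW R, hR,
    pullG_kact hf, ← pullG_comp (flat_fst _ _) hf, Mor.fst_map,
    pullG_comp (flat_fst _ _) (flat_fst _ _), ← kact_mul,
    (ht c.X g.F W c.e nW c.var g.var hW g.j0 PX PF x).1]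
  congr 3
  have e1 : ∀ y, pullK ((g.j0.map (Mor.id W)).map (Mor.id ptT)) (pullK (g.i.mid W) y) =
      pullK (c.j.mid W) y := fun y => by rw [← pullK_comp, mid_comp, ← g.fac]
  rw [map_mul, e1, map_mul, map_mul, mul_assoc]
  congr 2
  · rw [← pullK_comp, fst_mid, pullK_comp, ← pullK_comp O.inc]
  · rw [← pullK_comp, ← pullK_comp, Mor.map_map, Mor.map_map, Mor.fst_map]

theorem exists_x (h : Api) (hs : SURJF) (c : O.Comp) (g : Img c) (y : G g.F)
    (hy : y - oG _ ∈ Fd g.F c.e) : ∃ x : G c.X, x - oG _ ∈ Fd c.X c.e ∧ fstar g.j0 x = y := by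
  obtain ⟨n, -, h1, h2⟩ := h.deg c.X g.F g.j0 c.e c.var.proj g.var.proj ⟨g.var.dom, g.var.ne⟩
    c.var.dim g.var.dim g.surj
  rw [h2 g.inj, one_smul] at h1
  obtain ⟨x, hx, h3⟩ := hs c.X g.F g.j0 c.var.proj g.var.proj g.inj g.surj c.e _ (sub_mem hy h1)
  refine ⟨oG _ + x, by simpa using hx, ?_⟩
  rw [map_add, h3]
  abel

theorem s_closure {s : G (Amb ι d) →+ G O.Q}
    (hs : ∀ γ x, s (kact _ (line _ γ) x) = kact _ (pullK O.inc (line _ γ)) (s x))
    {a : K0 (Amb ι d)} (ha : a ∈ Subring.closure (Set.range (line (Amb ι d)))) (x) :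
    s (kact _ a x) = kact _ (pullK O.inc a) (s x) := by
  induction ha using Subring.closure_induction generalizing x with
  | mem a ha => obtain ⟨γ, rfl⟩ := ha; exact hs γ x
  | zero => simp
  | one => rw [kact_one, map_one, kact_one]
  | add a b _ _ h1 h2 => simp only [map_add, AddMonoidHom.add_apply, h1, h2]
  | neg a _ h1 => simp only [map_neg, AddMonoidHom.neg_apply, h1]
  | mul a b _ _ h1 h2 => rw [kact_mul, h1, h2, map_mul, kact_mul]

section T

variable {V W : Spc} {Ξ : G (V.prod ptT) →+ G (W.prod ptT)}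
  (hΞ : ∀ k a u, Ξ (kact _ (tK V k * a) u) = kact _ (tK W k) (Ξ (kact _ a u)))
include hΞ

theorem xi_one_sub (k a u) :
    Ξ (kact _ ((1 - tK V k) * a) u) = kact _ (1 - tK W k) (Ξ (kact _ a u)) := by
  rw [sub_mul, one_mul, map_sub, AddMonoidHom.sub_apply, map_sub, hΞ, map_sub,
    AddMonoidHom.sub_apply, kact_one]

theorem xi_pow (n : ℕ) (a u) :
    Ξ (kact _ ((1 - tK V 1) ^ n * a) u) = kact _ ((1 - tK W 1) ^ n) (Ξ (kact _ a u)) := by
  induction n with
  | zero => rw [pow_zero, pow_zero, one_mul, kact_one]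
  | succ n ih => rw [pow_succ', pow_succ', mul_assoc, xi_one_sub hΞ, ih, kact_mul]

theorem xi_pT (l : List ℤ) (a u) :
    Ξ (kact _ (pT V l * a) u) = kact _ (pT W l) (Ξ (kact _ a u)) := by
  induction l with
  | nil => rw [pT, pT, List.map_nil, List.map_nil, List.prod_nil, List.prod_nil, one_mul, kact_one]
  | cons k l ih =>
    rw [pT, pT, List.map_cons, List.map_cons, List.prod_cons, List.prod_cons, mul_assoc,
      xi_one_sub hΞ, kact_mul (1 - tK W k)]
    exact congrArg _ ih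

end T

section N

variable {W : Spc} {N : AddSubgroup (G (W.prod ptT))}

theorem cancel_pT (hN : ∀ k u, k ≠ 0 → kact _ (1 - tK W k) u ∈ N → u ∈ N) {l : List ℤ}
    (hl : ∀ k ∈ l, k ≠ 0) (u) (hu : kact _ (pT W l) u ∈ N) : u ∈ N := by
  induction l with
  | nil => rwa [pT, List.map_nil, List.prod_nil, kact_one] at hu
  | cons k l ih =>
    rw [pT, List.map_cons, List.prod_cons, kact_mul] at hu
    exact ih (fun k hk => hl k (List.mem_cons_of_mem _ hk)) (hN k _ (hl k List.mem_cons_self) hu)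

theorem cancel_pow (hN : ∀ k u, k ≠ 0 → kact _ (1 - tK W k) u ∈ N → u ∈ N) (n : ℕ) (u)
    (hu : kact _ ((1 - tK W 1) ^ n) u ∈ N) : u ∈ N := by
  induction n with
  | zero => rwa [pow_zero, kact_one] at hu
  | succ n ih =>
    rw [pow_succ', kact_mul] at hu
    exact ih (hN 1 _ one_ne_zero hu)

theorem pT_mem (hN : ∀ k, ∀ u ∈ N, kact _ (tK W k) u ∈ N) (l : List ℤ) (u) (hu : u ∈ N) :
    kact _ (pT W l) u ∈ N := by
  induction l with
  | nil => rwa [pT, List.map_nil, List.prod_nil, kact_one]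
  | cons k l ih =>
    rw [pT, List.map_cons, List.prod_cons, kact_mul, map_sub, AddMonoidHom.sub_apply, kact_one]
    exact sub_mem ih (hN _ _ ih)

end N

theorem loc_of (h : Api) (h2 : Api2) (hgeo : GEO) (hprw : PRW) (hbci : BCI) (hreg : REG) (hob : OB)
    (hf2 : FIX2) (hf3 : FIX3) (hp1 : PF1) (hp2 : PF2) (hsj : SURJF) (htr : TR) (htf : TF)
    (hm : LMUL) (hk : KEY) (hr : RES) : LOC := by
  classical
  intro ι _ _ d O κ _ F hcov hdis W Z nW nZ hW hZ q ins m s hs vd δ hvd hlt hδ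
  have g := fun i => (hgeo ι d O (F i)).some
  have hg := fun i => hreg ι d O (F i) (g i)
  have K := fun i => (hob ι d O (F i) (g i) (hg i)).some
  choose y L₁ hy hL₁ using fun i => hf3 ι d O (F i) (g i) (hg i) (K i)
  choose x hx hxy using fun i => exists_x h hsj (F i) (g i) (y i) (hy i)
  obtain ⟨σ, hσ, hσw⟩ := hf2 ι d O κ F g hg hcov hdis
  obtain ⟨l, aw, hl, haw, hp⟩ := hp2 ι d
  obtain ⟨⟨PW⟩, hPW⟩ := hprw ι d O W
  have PX := fun i => (h.prj_map (h.prj_snd W (F i).var.proj).some ptT).some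
  obtain ⟨N, ε, n1, n2, n3, n4, n5, n6⟩ := htf W (G Z ⧸ Fd Z δ)
    ((QuotientAddGroup.mk' (Fd Z δ)).comp (fstar q))
  have hV := fun i => h.var_prod (F i).var hW
  -- the localisation formula on `Q`
  have k1 : ∀ w, σ (cls (Ow d w)) = ∑ i ∈ Finset.univ.filter (fun i => (F i).w = w),
      push (g i).P (kact _ (cc (K i).C'.rk (K i).C'.cls)
        (pullG (Mor.fst _ _) (fstar (g i).j0 (x i)))) := fun w => by
    obtain ⟨L₀, hL₀⟩ := hσw w
    rw [hL₀ (max L₀ (Finset.univ.sup L₁)) (le_max_left _ _)]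
    refine Finset.sum_congr rfl fun i _ => ?_
    rw [hL₁ i _ ((Finset.le_sup (Finset.mem_univ i)).trans (le_max_right _ _)), hxy]
  have k2 : kact _ (pullK O.inc (l.map fun k => 1 - tY d k).prod) (σ (oG _)) =
      ∑ i, kact _ (pullK O.inc (aw (F i).w)) (push (g i).P (kact _ (cc (K i).C'.rk (K i).C'.cls)
        (pullG (Mor.fst _ _) (fstar (g i).j0 (x i))))) := by
    have hmem : (l.map fun k => 1 - tY d k).prod ∈ Subring.closure (Set.range (line (Amb ι d))) :=
      Subring.list_prod_mem _ fun a ha => by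
        obtain ⟨k, -, rfl⟩ := List.mem_map.1 ha
        exact sub_mem (one_mem _) (Subring.subset_closure ⟨_, rfl⟩)
    rw [← s_closure hσ hmem, hp, map_sum, AddMonoidHom.finset_sum_apply, map_sum,
      ← Finset.sum_fiberwise_of_maps_to (s := Finset.univ) (t := Finset.univ.image d)
        (g := fun i => (F i).w) (fun i _ => (g i).mem)]
    refine Finset.sum_congr rfl fun w _ => ?_
    rw [kact_mul, hp1, s_closure hσ (haw w), k1, map_sum]
    refine Finset.sum_congr rfl fun i hi => ?_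
    rw [(Finset.mem_filter.1 hi).2]
  -- push forward to `W × ptT`
  set P := push PW (kact _ ins (pullG (Mor.fst O.Q W) (σ (oG _)))) with hP
  set T := fun i => pullK ((F i).j.mid W) ins * pullK ((Mor.fst (F i).X W).map (Mor.id ptT))
      (pullK (O.inc.comp (F i).j) (aw (F i).w) *
        pullK ((g i).j0.map (Mor.id ptT)) (cc (K i).C'.rk (K i).C'.cls)) with hT
  set x' := fun i => pullG (Mor.fst (F i).X W) (x i) with hx'
  have k3 : kact _ (pT W l) P = ∑ i, push (PX i) (kact _ (T i) (pullG (Mor.fst _ ptT) (x' i))) := by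
    have e1 : pullK (piW O W) (pT W l) =
        pullK (Mor.fst O.Q W) (pullK O.inc (l.map fun k => 1 - tY d k).prod) := by
      rw [pT, map_list_prod, map_list_prod, map_list_prod, List.map_map, List.map_map, List.map_map]
      congr 2
      funext k
      simp only [Function.comp, map_sub, map_one, hPW]
    rw [hP, ← h2.push_proj, kact_comm, e1, ← pullG_kact (flat_fst _ _), k2, map_sum, map_sum,
      map_sum]
    exact Finset.sum_congr rfl fun i _ =>
      comp_geo h h2 hbci htr (F i) (g i) hW PW (PX i) ins _ _ (x i)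
  have hΞ := fun i k a u => ((htr (F i).X (F i).X W (F i).e nW (F i).var (F i).var hW (Mor.id _)
    (PX i) (PX i) (x i)).2 k a u 0).1
  have hΞ' := fun i v => ((htr (F i).X (F i).X W (F i).e nW (F i).var (F i).var hW (Mor.id _)
    (PX i) (PX i) (x i)).2 0 0 0 v).2
  have hψ : ∀ i v, fstar q (fstar (Mor.snd (F i).X W) v) = fstar (q.comp (Mor.snd _ W)) v :=
    fun i v => (h.fstar_comp _ q (hV i).proj hW.proj hZ.proj v).symm
  have k4 := fun i => hr _ W _ (hV i) (x' i) (by
      have := h.pullG_Fd hW _ _ (hx i)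
      rwa [map_sub, pullG_oG (flat_fst _ _)] at this)
    (fstar (Mor.snd (F i).X W)) (push (PX i)) (hΞ i) (hΞ' i) N ((F i).e + nW - δ) δ (by omega) n1
    (fun v hv => n6 _ (by
      rw [AddMonoidHom.comp_apply, hψ, QuotientAddGroup.mk'_apply, QuotientAddGroup.eq_zero_iff]
      exact h.fstar_Fd _ (hV i).proj hZ.proj _ _ hv))
  choose A₀ hA₀ using fun i =>
    comp_key h hm hk (F i) (g i) (K i) hp hW _ (hs i) ((F i).e + nW - δ)
  obtain ⟨n, hn⟩ : ∃ n : ℕ, (n + 1 : ℤ) = vd + nW - m - δ := ⟨(vd + nW - m - δ - 1).toNat, by omega⟩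
  set B := Finset.univ.sup A₀ with hB
  choose E R s' r1 r2 r3 r4 using fun i => hA₀ i (B + (n + 1))
    ((Finset.le_sup (Finset.mem_univ i)).trans (Nat.le_add_right _ _))
  have hE : ∀ i, E i = B + ((F i).e + nW - δ) := fun i => by
    have := r3 i
    have := hvd i
    push_cast at *
    omega
  choose u hu using fun i => (k4 i).2 (E i) (R i) (s' i) (r2 i) (by rw [hE]; omega)
  set Lx := fun i => pullG (Mor.fst W ptT)
    (fstar (Mor.snd (F i).X W) (kact _ (coeff ((F i).e + nW - δ) (s' i)) (oG _))) with hLx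
  have k5 : kact _ (pT W l) (kact _ ((1 - tK W 1) ^ B)
      (kact _ ((1 - tK W 1) ^ (n + 1)) P - ∑ i, (Lx i + kact _ (1 - tK W 1) (u i)))) ∈ N := by
    rw [map_sub, map_sub, ← kact_mul _ _ P, ← pow_add, kact_comm, k3, map_sum, map_sum, map_sum,
      ← Finset.sum_sub_distrib]
    refine sum_mem fun i _ => ?_
    have a1 := (k4 i).1 _ (r1 i)
    rw [map_sub, AddMonoidHom.sub_apply, map_sub, xi_pow (hΞ i), xi_pT (hΞ i)] at a1
    have a2 := pT_mem n1 l _ (hu i)
    rw [map_sub, hE, Nat.add_sub_cancel] at a2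
    have := add_mem a1 a2
    rwa [sub_add_sub_cancel] at this
  have k6 := n3 _ (cancel_pow n2 _ _ (cancel_pT n2 hl _ k5))
  have e0 : ∀ v, ε (kact _ (1 - tK W 1) v) = 0 := fun v => by
    rw [map_sub, AddMonoidHom.sub_apply, kact_one, map_sub, n4, sub_self]
  rw [map_sub, pow_succ', kact_mul, e0, zero_sub, neg_eq_zero, map_sum] at k6
  rw [← QuotientAddGroup.eq_zero_iff, ← QuotientAddGroup.mk'_apply, map_sum, ← k6]
  refine Finset.sum_congr rfl fun i _ => ?_
  rw [map_add, e0, add_zero, n5, AddMonoidHom.comp_apply, hψ, r4, map_zsmul (kact _),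
    AddMonoidHom.zsmul_apply, map_zsmul (fstar _)]

end Lc

end Vale.Agent.P297Z
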