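import Vale.Agent.P297Z.Loc.ObA
import Vale.Agent.P297Z.Loc.Td

/-!
# P297: the class of the kernel bundle
-/

set_option linter.all false

noncomputable section

namespace Vale.Agent.P297Z

open GMod

namespace Lc

namespace ObA

theorem wt_zero {X : Spc} {γ : (X.prod ptT).J → ℤ} {r : (X.prod ptT).R}
    (hr : r ∈ (X.prod ptT).wt γ) (h : r ≠ 0) : γ (.inr ()) = 0 := by
  by_contra hγ
  obtain ⟨t, ht⟩ := chr_sep (γ := fun j : Unit => γ (.inr j)) (δ := 0) fun e => hγ (congrFun e ())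
  have h1 : (X.prod ptT).act (Sum.elim 1 t) r = r := by
    show Algebra.TensorProduct.map (X.act 1) (AlgHom.id ℂ ℂ) r = r
    rw [show X.act 1 = AlgHom.id ℂ X.R from AlgHom.ext X.act_one, Algebra.TensorProduct.map_id]
    rfl
  have h2 : chr γ (Sum.elim 1 t) = chr (fun j : Unit => γ (.inr j)) t :=
    (chr_sum_type γ _).trans ((congrArg (· * _) (chr_one _)).trans (one_mul _))
  replace h1 := (Spc.mem_wt.1 hr _).symm.trans h1
  rw [h2] at h1
  rw [chr_zero] at ht
  exact h ((smul_eq_zero.1 (show (chr (fun j : Unit => γ (.inr j)) t - 1) • r = 0 by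
    rw [sub_smul, h1, one_smul, sub_self])).resolve_left (sub_ne_zero.2 ht))

theorem rho_eq {J : Type} [DecidableEq (Option Unit)] [DecidableEq (J ⊕ Unit)]
    (ρ : (Option Unit → ℤ) →+ (J ⊕ Unit → ℤ))
    (h : ρ (Pi.single (some ()) 1) = Pi.single (.inr ()) 1) {w : ℤ}
    (hw : ρ (fun o => o.elim 1 fun _ => w) (.inr ()) = 0) (k : ℤ) :
    ρ (fun o => -o.elim 1 fun _ => k) =
      Sum.elim (fun j => -ρ (Pi.single none 1) (.inl j)) fun _ => w - k := by
  have h1 : ∀ k : ℤ, ρ (fun o => o.elim 1 fun _ => k) =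
      ρ (Pi.single none 1) + k • Pi.single (.inr ()) 1 := fun a => by
    rw [← h, ← map_zsmul, ← map_add]
    refine congrArg _ (funext fun o => ?_)
    cases o <;> simp
  rw [h1] at hw
  refine (map_neg ρ fun o => o.elim 1 fun _ => k).trans ?_
  rw [h1]
  funext o
  rcases o with j | ⟨⟨⟩⟩
  · simp
  · simp at hw ⊢
    linarith

variable {ι : Type} [Fintype ι] [Nonempty ι] {d : ι → ℤ} {O : Obs ι d}

theorem chi_eq (c : O.Comp) : ∃ L : K0 c.X, rk _ L = 1 ∧
    ∀ a, pullK (O.inc.comp c.j) (chi d a) = tK c.X (c.w - d a) * pullK (Mor.fst _ _) L := by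
  obtain ⟨z⟩ : Nonempty (c.X.prod ptT).Pt := inferInstance
  obtain ⟨b, hb⟩ := ((Spc.adj_pt ptT ι (fun a _ => d a) _).1 ((O.inc.comp c.j).onPt z).2).2
  have h2 : (O.inc.comp c.j).φ (Amb.x d b) ≠ 0 := fun e =>
    hb ((congrArg z.1 e).trans (map_zero _))
  have h3 : d b = c.w := by_contra fun e => h2 (c.fix b e)
  have h4 := wt_zero ((O.inc.comp c.j).wt_map _ _ (Spc.X_mem ptT ι (fun a _ => d a) b)) h2
  refine ⟨line _ fun j => -c.j.ρ (Pi.single none 1) (.inl j), rk_line _, fun a => ?_⟩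
  rw [chi, pullK_line, ← line_prod_ptT, ← h3]
  exact congrArg _ (@rho_eq _ O.Q.dJ (c.X.prod ptT).dJ c.j.ρ c.jt _ h4 (d a))

theorem eq_pull {X : Spc} [IsDomain X.R] {N : GMod (X.prod ptT)} {n : ℕ} (hN : N.IsBun n)
    (h : ∀ γ, ∀ m ∈ N.wt γ, γ (.inr ()) ≠ 0 → m = 0) :
    ∃ y, kc N n = pullK (Mor.fst X ptT) y := by
  have h1 := sum_coK (kc N n) (s := {0}) fun k hk => by
    have h2 : ∀ z : X.Pt, ZeroAt z.1 (tp k N).M := fun z m => ⟨1, AK.one_ne, by
      rw [one_smul]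
      exact (tp k N).induction (P := fun m => m = 0) rfl (fun γ m hm => Subtype.ext
        (h _ _ (mem_tp_wt.1 hm) (neg_ne_zero.2 (Finset.notMem_singleton.1 hk))))
        (fun x y hx hy => by rw [hx, hy, add_zero]) m⟩
    rw [coK_kc k hN (isBun_zero h2), kc_zero h2]
  rw [Finset.sum_singleton, tK_zero, one_mul] at h1
  exact ⟨_, h1.symm⟩

theorem coK_zero {X : Spc} [IsDomain X.R] (D : Bun (X.prod ptT))
    (h : rk X (coK X 0 D.cls) = 0) : coK X 0 D.cls = 0 := by
  obtain ⟨m, hm⟩ := tp_isBun D.free 0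
  rw [← kc_bun, coK_kc 0 D.free hm] at h ⊢
  rw [rk_kc hm, Nat.cast_eq_zero] at h
  subst h
  exact kc_zero fun z => freeAt_zero_iff.1 (hm z)

end ObA

open ObA

theorem ob (h : Api) : OB := by
  intro ι _ _ d O c g hg
  haveI := c.var.dom
  haveI := g.var.dom
  obtain ⟨n, hn, hN⟩ := hg.free
  replace hN := hN 1
  rw [Nat.multichoose_one_right] at hN
  obtain ⟨⟨C', h1⟩, D, h2⟩ := ObA.exists_split g hg hN
  change pullK g.i O.C.cls = C'.cls + kc (g.gr 1) n at h1
  change pullK c.j O.C.cls = _ + pullK _ (kc (g.gr 1) n) at h2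
  refine ⟨⟨n, hn, hN, C', h1, ?_⟩⟩
  obtain ⟨y, hy⟩ := eq_pull hN (hg.wt0 1)
  have h3 : rk _ y = n := by rw [← rk_pullK (Mor.fst g.F ptT), ← hy, rk_kc hN]
  have h4 := congrArg (pullK (g.j0.map (Mor.id ptT))) h1
  rw [map_add, ← pullK_comp, ← g.fac] at h4
  rw [hy, ← pullK_comp, Mor.fst_map, pullK_comp] at h2 h4
  obtain ⟨L, hL, h5⟩ := chi_eq c
  have h6 := c.hb
  change _ - ∑ a, pullK (O.inc.comp c.j) (chi d a) + 1 = _ at h6
  have h7 : ∑ a ∈ Finset.univ.filter (fun a => d a = c.w), pullK (O.inc.comp c.j) (chi d a) =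
      pullK (Mor.fst _ _) ((n + (c.e + 1)) • L) := by
    rw [hn, map_nsmul, ← Finset.sum_const]
    refine Finset.sum_congr rfl fun a ha => ?_
    rw [h5, (Finset.mem_filter.1 ha).2, sub_self, tK_zero, one_mul]
  rw [← Finset.sum_filter_add_sum_filter_not _ fun a => d a = c.w, h7] at h6
  generalize hS : ∑ a ∈ Finset.univ.filter (fun a => ¬d a = c.w),
    pullK (O.inc.comp c.j) (chi d a) = S at h6 ⊢
  have h8 : coK c.X 0 S = 0 := by
    rw [← hS, map_sum]
    refine Finset.sum_eq_zero fun a ha => ?_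
    rw [h5, coK_tK_pullK, if_neg fun e => (Finset.mem_filter.1 ha).2 (by omega)]
  have h9 : D.cls = pullK (Mor.fst _ _) ((n + (c.e + 1)) • L - 1 + c.b0 - pullK g.j0 y - c.Ob.cls) +
      (S + tK c.X 1 * pullK (Mor.fst _ _) c.bp + tK c.X (-1) * pullK (Mor.fst _ _) c.bm) := by
    rw [map_sub, map_sub, map_add, map_sub, map_one]
    linear_combination h6 - h2
  have h10 := congrArg (coK c.X 0) h9
  rw [map_add, map_add, map_add, coK_pullK, coK_tK_pullK, coK_tK_pullK, h8, if_pos rfl,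
    if_neg (by decide), if_neg (by decide), add_zero, add_zero, add_zero] at h10
  rw [← h10, coK_zero D (by
    rw [h10, map_sub, map_sub, map_add, map_sub, map_one, map_nsmul, hL, rk_pullK, h3, rk_cls,
      c.rkOb]
    simp
    ring), map_zero, zero_add] at h9
  linear_combination h2 - h4 + h9

end Lc

end Vale.Agent.P297Z
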