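import Vale.Agent.P297Z.Loc.Pf0
import Vale.Agent.P297Z.Loc.Td

/-!
# P297: Laurent polynomials in `t`: cancellation, evaluation at `t = 1`, decomposition
-/

set_option linter.all false

noncomputable section

namespace Vale.Agent.P297Z

namespace Lc

/-- a periodic function with finite support is zero -/
theorem eq_zero_of_per {A : Type*} [Zero A] {f : ℤ → A} {s : Finset ℤ} (hs : ∀ j ∉ s, f j = 0)
    {k : ℤ} (hk : k ≠ 0) (h : ∀ j, f (j - k) = f j) (j : ℤ) : f j = 0 := by
  have h1 : ∀ n : ℕ, f (j - n * k) = f j := fun n => by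
    induction n with
    | zero => simp
    | succ n ih => rw [← ih, ← h (j - n * k), Nat.cast_succ, add_mul, one_mul, sub_sub]
  obtain ⟨n, hn⟩ : ∃ n : ℕ, j - n * k ∉ s := by
    by_contra hn
    push Not at hn
    exact Set.infinite_of_injective_forall_mem (s := (s : Set ℤ)) (f := fun n : ℕ => j - n * k)
      (fun a b e => by simpa [hk] using e) hn s.finite_toSet
  rw [← h1 n, hs _ hn]

theorem tf : TF := fun W A _ ψ => by
  have fin : ∀ u, Function.HasFiniteSupport fun k => ψ (coG W k u) := fun u => by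
    obtain ⟨s, hs⟩ := coG_fin u
    refine s.finite_toSet.subset fun k hk => ?_
    by_contra h
    exact hk (show ψ (coG W k u) = 0 by rw [hs k h, map_zero])
  let N : AddSubgroup (G (W.prod ptT)) := ⨅ k, (ψ.comp (coG W k)).ker
  have hN : ∀ u, u ∈ N ↔ ∀ k, ψ (coG W k u) = 0 := fun u => AddSubgroup.mem_iInf
  let ε : G (W.prod ptT) →+ A := AddMonoidHom.mk' (fun u => ∑ᶠ k, ψ (coG W k u)) fun u v => by
    simp only [map_add]
    exact finsum_add_distrib (fin u) (fin v)
  have hε : ∀ u, ε u = ∑ᶠ k, ψ (coG W k u) := fun _ => rfl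
  refine ⟨N, ε, fun k u hu => (hN _).2 fun j => ?_, fun k u hk hu => (hN _).2 ?_,
    fun u hu => ?_, fun k u => ?_, fun v => ?_, fun v hv => (hN _).2 fun k => ?_⟩
  · rw [coG_tK]
    exact (hN u).1 hu _
  · obtain ⟨s, hs⟩ := coG_fin u
    refine eq_zero_of_per (s := s) (fun j hj => by rw [hs j hj, map_zero]) hk fun j => ?_
    have h := (hN _).1 hu j
    rw [map_sub, AddMonoidHom.sub_apply, kact_one, map_sub, map_sub, coG_tK] at h
    exact (sub_eq_zero.1 h).symm
  · rw [hε, finsum_congr ((hN u).1 hu), finsum_zero]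
  · simp only [hε, coG_tK]
    exact finsum_comp_equiv (Equiv.subRight k) (f := fun j => ψ (coG W j u))
  · rw [hε, finsum_eq_single _ 0 fun k hk => by rw [coG_pullG, if_neg hk, map_zero], coG_pullG,
      if_pos rfl]
  · rw [coG_pullG]
    split_ifs
    · exact hv
    · exact map_zero _

theorem kdec : KDEC := fun V _ hV a => by
  haveI := hV.dom
  obtain ⟨s, hs⟩ := coK_fin a
  rw [← sum_coK a hs]
  exact sum_mem fun k _ => AddSubgroup.subset_closure ⟨k, _, rfl⟩

end Lc

end Vale.Agent.P297Z
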