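import Vale.Agent.P297Z.K.Tan
import Vale.Agent.P297Z.Dim.Fib
import Vale.Agent.P271.H879.RegDom

/-!
# P297: local equations at a smooth point, and their quasi-regularity
-/

noncomputable section

namespace Vale.Agent.P297Z.Rg

open MvPolynomial Dim

/-! ### quasi-regularity through derivations -/

section qreg

variable {P : Type} [CommRing P] [Algebra ℂ P]

theorem der_mem_pow (D : Derivation ℂ P P) (p : Ideal P) (n : ℕ) {x : P} (hx : x ∈ p ^ (n + 1)) :
    D x ∈ p ^ n := by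
  induction n generalizing x with
  | zero => simp
  | succ n ih =>
    rw [pow_succ] at hx
    refine Submodule.mul_induction_on hx (fun a ha b hb => ?_) (fun a b ha hb => ?_)
    · rw [D.leibniz, smul_eq_mul, smul_eq_mul]
      refine add_mem (Ideal.mul_mem_right _ _ ha) ?_
      rw [pow_succ']
      exact Ideal.mul_mem_mul hb (ih ha)
    · rw [map_add]
      exact add_mem ha hb

variable {κ : Type} [Fintype κ]

omit [Algebra ℂ P] [Fintype κ] in
theorem aeval_mem_pow {p : Ideal P} {f : κ → P} (hf : ∀ i, f i ∈ p) (n : ℕ)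
    {Φ : MvPolynomial κ P} (h : Φ ∈ idealOfVars κ P ^ n) : aeval f Φ ∈ p ^ n := by
  have h1 : (idealOfVars κ P).map (aeval f : MvPolynomial κ P →ₐ[P] P) ≤ p := by
    rw [Ideal.map_span, Ideal.span_le]
    rintro _ ⟨_, ⟨i, rfl⟩, rfl⟩
    simpa using hf i
  have h2 := Ideal.mem_map_of_mem (aeval f : MvPolynomial κ P →ₐ[P] P) h
  rw [Ideal.map_pow] at h2
  exact Ideal.pow_right_mono h1 n h2

/-- the part of the derivative which comes from the coefficients -/
def rest (D : Derivation ℂ P P) (f : κ → P) (Φ : MvPolynomial κ P) : P :=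
  D (aeval f Φ) - ∑ l, aeval f (pderiv l Φ) * D (f l)

theorem rest_add (D : Derivation ℂ P P) (f : κ → P) (Φ Ψ : MvPolynomial κ P) :
    rest D f (Φ + Ψ) = rest D f Φ + rest D f Ψ := by
  simp only [rest, map_add, add_mul, Finset.sum_add_distrib]
  ring

theorem rest_mul (D : Derivation ℂ P P) (f : κ → P) (Φ Ψ : MvPolynomial κ P) :
    rest D f (Φ * Ψ) = aeval f Φ * rest D f Ψ + aeval f Ψ * rest D f Φ := by
  simp only [rest, map_add, map_mul, Derivation.leibniz, smul_eq_mul, add_mul,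
    Finset.sum_add_distrib, mul_sub, Finset.mul_sum, mul_assoc]
  ring

theorem rest_X (D : Derivation ℂ P P) (f : κ → P) (i : κ) : rest D f (X i) = 0 := by
  classical
  simp [rest, pderiv_X, Pi.single_apply, apply_ite]

theorem rest_mem_pow (D : Derivation ℂ P P) {p : Ideal P} {f : κ → P} (hf : ∀ i, f i ∈ p) (n : ℕ)
    {Φ : MvPolynomial κ P} (h : Φ ∈ idealOfVars κ P ^ n) : rest D f Φ ∈ p ^ n := by
  have h1 : ∀ x ∈ idealOfVars κ P, rest D f x ∈ p := fun x hx => by
    obtain ⟨g, rfl⟩ := (Ideal.mem_span_range_iff_exists_fun).1 hx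
    refine Finset.sum_induction _ (fun y => rest D f y ∈ p) (fun a b ha hb => ?_) ?_ fun i _ => ?_
    · rw [rest_add]
      exact add_mem ha hb
    · simp [rest]
    · rw [rest_mul, rest_X, mul_zero, zero_add, aeval_X]
      exact Ideal.mul_mem_right _ _ (hf i)
  induction n generalizing Φ with
  | zero => simp
  | succ n ih =>
    rw [pow_succ] at h
    refine Submodule.mul_induction_on h (fun a ha b hb => ?_) (fun a b ha hb => ?_)
    · rw [rest_mul]
      refine add_mem ?_ ?_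
      · rw [pow_succ]
        exact Ideal.mul_mem_mul (aeval_mem_pow hf n ha) (h1 b hb)
      · rw [pow_succ']
        exact Ideal.mul_mem_mul (by simpa using aeval_mem_pow hf 1 (Φ := b) (by simpa using hb))
          (ih ha)
    · rw [rest_add]
      exact add_mem ha hb

omit [Algebra ℂ P] [Fintype κ] in
theorem hom_mem_pow {n : ℕ} {Φ : MvPolynomial κ P} (h : Φ.IsHomogeneous n) :
    Φ ∈ idealOfVars κ P ^ n :=
  (mem_pow_idealOfVars_iff' n Φ).2 fun _ hx => h.coeff_eq_zero hx.ne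

/-- quasi-regularity from dual derivations -/
theorem qreg_of_der [DecidableEq κ] {p J : Ideal P} (hp : p.IsPrime) (hJ : J ≤ p) {f : κ → P}
    (hf : ∀ i, f i ∈ p) {δ : P} (hδ : δ ∉ p) (D : κ → Derivation ℂ P P)
    (hD : ∀ j, ∀ x ∈ J, D j x ∈ J) (hDf : ∀ j l, D j (f l) = if j = l then δ else 0) (k : ℕ)
    {Φ : MvPolynomial κ P} (h : Φ.IsHomogeneous k) (hΦ : aeval f Φ ∈ p ^ (k + 1) ⊔ J) (s : κ →₀ ℕ) :
    Φ.coeff s ∈ p := by
  induction k generalizing Φ s with
  | zero =>
    rw [← totalDegree_zero_iff_isHomogeneous, totalDegree_eq_zero_iff_eq_C] at h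
    rw [h, aeval_C, zero_add, pow_one, sup_eq_left.2 hJ] at hΦ
    rw [h, coeff_C]
    split_ifs
    exacts [hΦ, p.zero_mem]
  | succ k ih =>
    have key : ∀ j, pderiv j Φ ∈ p.map (C : P →+* MvPolynomial κ P) := fun j => by
      have h1 : D j (aeval f Φ) ∈ p ^ (k + 1) ⊔ J := by
        obtain ⟨a, ha, b, hb, e⟩ := Submodule.mem_sup.1 hΦ
        rw [← e, map_add]
        exact Submodule.add_mem_sup (der_mem_pow _ _ _ ha) (hD j b hb)
      have h2 := sub_mem h1
        (Ideal.mem_sup_left (rest_mem_pow (D j) hf (k + 1) (hom_mem_pow h)))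
      have h3 : D j (aeval f Φ) - rest (D j) f Φ = aeval f (C δ * pderiv j Φ) := by
        simp [rest, hDf, mul_comm]
      rw [h3] at h2
      refine MvPolynomial.mem_map_C_iff.2 fun t => ?_
      have h4 := ih ((h.pderiv (i := j)).C_mul δ) h2 t
      rw [coeff_C_mul] at h4
      exact (hp.mem_or_mem h4).resolve_left hδ
    have h5 : (k + 1) • Φ ∈ p.map (C : P →+* MvPolynomial κ P) := by
      rw [← h.sum_X_mul_pderiv]
      exact Ideal.sum_mem _ fun j _ => Ideal.mul_mem_left _ _ (key j)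
    have h6 := MvPolynomial.mem_map_C_iff.1 h5 s
    rw [coeff_smul, ← Nat.cast_smul_eq_nsmul ℂ] at h6
    have h7 := p.smul_of_tower_mem (((k + 1 : ℕ) : ℂ)⁻¹) h6
    rwa [smul_smul, inv_mul_cancel₀ (Nat.cast_ne_zero.2 k.succ_ne_zero), one_smul] at h7

end qreg

/-! ### a regular point -/

/-- if the maximal ideal has few generators, the component through the point is locally reduced
and unique -/
theorem reg_of_gens {R : Type} [CommRing R] [Algebra ℂ R] [Algebra.FiniteType ℂ R] {m q : Ideal R}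
    [m.IsMaximal] [hq : q.IsPrime] (h : q ≤ m) (t : Finset R)
    (hm : m ≤ Ideal.span t ⊔ m ^ 2) (ht : (t : Set R) ⊆ m) (hc : t.card ≤ td ℂ (R ⧸ q)) :
    t.card = td ℂ (R ⧸ q) ∧ ∃ r, r ∉ m ∧ ∀ x ∈ q, r * x = 0 := by
  classical
  have := Algebra.FiniteType.isNoetherianRing ℂ R
  let A := Localization.AtPrime m
  have e1 : m.map (algebraMap R A) = IsLocalRing.maximalIdeal A :=
    Localization.AtPrime.map_eq_maximalIdeal
  have e2 : IsLocalRing.maximalIdeal A = Ideal.span (t.image (algebraMap R A) : Finset A) := by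
    rw [Finset.coe_image, ← Ideal.map_span]
    refine le_antisymm ?_ (e1 ▸ Ideal.map_mono (Ideal.span_le.2 ht))
    refine Submodule.le_of_le_smul_of_le_jacobson_bot (I := IsLocalRing.maximalIdeal A)
      (IsNoetherian.noetherian _) (IsLocalRing.jacobson_eq_maximalIdeal _ bot_ne_top).ge ?_
    rw [smul_eq_mul, ← pow_two, ← e1, ← Ideal.map_pow, ← Ideal.map_sup]
    exact Ideal.map_mono hm
  have h1 : (IsLocalRing.maximalIdeal A).spanFinrank ≤ t.card := by
    rw [e2]
    refine (Submodule.spanFinrank_span_le_ncard_of_finite (Finset.finite_toSet _)).trans ?_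
    rw [Set.ncard_coe_finset]
    exact Finset.card_image_le
  have h2 : ringKrullDim A = m.height := IsLocalization.AtPrime.ringKrullDim_eq_height m A
  have h3 := td_le_height (k := ℂ) h
  have h4 : ((IsLocalRing.maximalIdeal A).spanFinrank : WithBot ℕ∞) ≤ ringKrullDim A := by
    rw [h2]
    exact_mod_cast (Nat.cast_le.2 (h1.trans hc)).trans h3
  have hreg := IsRegularLocalRing.of_spanFinrank_maximalIdeal_le _ h4
  have hdom := P271.H879.Reg.isDomain A
  have h5 : m.height ≤ t.card := by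
    have h6 := hreg.spanFinrank_maximalIdeal
    rw [h2] at h6
    have h7 : (((IsLocalRing.maximalIdeal A).spanFinrank : ℕ) : ℕ∞) = m.height := by
      exact_mod_cast h6
    rw [← h7]
    exact_mod_cast h1
  have hk : (RingHom.ker (algebraMap R A)).IsPrime := RingHom.ker_isPrime _
  have h8 : RingHom.ker (algebraMap R A) ≤ q := fun x hx => by
    obtain ⟨s, hs⟩ := (IsLocalization.map_eq_zero_iff m.primeCompl A x).1 hx
    exact (hq.mem_or_mem (hs ▸ q.zero_mem)).resolve_left fun o => s.2 (h o)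
  have h9 : RingHom.ker (algebraMap R A) = q := by
    refine eq_of_td_le (k := ℂ) h8 (le_trans ?_ hc)
    exact_mod_cast (td_le_height (k := ℂ) (h8.trans h)).trans h5
  refine ⟨le_antisymm hc (by exact_mod_cast h3.trans h5), ?_⟩
  obtain ⟨s, hs⟩ := (IsNoetherian.noetherian q : q.FG)
  have h10 : ∀ x : s, ∃ r : m.primeCompl, (r : R) * x = 0 := fun x =>
    (IsLocalization.map_eq_zero_iff m.primeCompl A x).1
      (show (x : R) ∈ RingHom.ker (algebraMap R A) from h9 ▸ hs ▸ Ideal.subset_span x.2)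
  choose r hr using h10
  refine ⟨(∏ x, r x : m.primeCompl), (∏ x, r x).2, fun x hx => ?_⟩
  rw [← hs] at hx
  refine Submodule.span_induction (fun y hy => ?_) (mul_zero _) (fun a b _ _ ha hb => ?_)
    (fun a b _ hb => ?_) hx
  · rw [← Finset.prod_erase_mul _ _ (Finset.mem_univ ⟨y, hy⟩), Submonoid.coe_mul, mul_assoc,
      hr ⟨y, hy⟩, mul_zero]
  · rw [mul_add, ha, hb, add_zero]
  · rw [smul_eq_mul, mul_left_comm, hb, mul_zero]

variable {ι : Type} [Fintype ι]

/-- the first order expansion at a point -/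
theorem taylor (z : MvPolynomial ι ℂ →ₐ[ℂ] ℂ) (g : MvPolynomial ι ℂ) :
    g - C (z g) - ∑ a, C (z (pderiv a g)) * (X a - C (z (X a))) ∈ RingHom.ker z ^ 2 := by
  classical
  have h0 : ∀ x : MvPolynomial ι ℂ, x - C (z x) ∈ RingHom.ker z := fun x => sub_mem_ker z x
  induction g using MvPolynomial.induction_on with
  | C c => simp
  | add a b ha hb =>
    convert add_mem ha hb using 1
    simp only [map_add, add_mul, Finset.sum_add_distrib]
    ring
  | mul_X g i hg =>
    have h1 : (g - C (z g)) * (X i - C (z (X i))) ∈ RingHom.ker z ^ 2 := by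
      rw [pow_two]
      exact Ideal.mul_mem_mul (h0 _) (h0 _)
    convert add_mem (Ideal.mul_mem_left _ (C (z (X i))) hg) h1 using 1
    have h2 : ∀ a, C (z (pderiv a (g * X i))) * (X a - C (z (X a))) =
        (if i = a then C (z g) * (X a - C (z (X a))) else 0) +
          C (z (X i)) * (C (z (pderiv a g)) * (X a - C (z (X a))) : MvPolynomial ι ℂ) := fun a => by
      rw [Derivation.leibniz, pderiv_X, smul_eq_mul, smul_eq_mul, Pi.single_apply]
      split_ifs <;> simp only [map_add, map_mul, mul_one, mul_zero, zero_add] <;> ring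
    rw [Finset.sum_congr rfl fun a _ => h2 a, Finset.sum_add_distrib, Finset.sum_ite_eq,
      if_pos (Finset.mem_univ _), ← Finset.mul_sum, map_mul, map_mul]
    ring

/-- the ideal of the coordinate subspace -/
def Jw (w : Set ι) : Ideal (MvPolynomial ι ℂ) := Ideal.span ((fun a => X a) '' wᶜ)

omit [Fintype ι] in
theorem X_mem_Jw {w : Set ι} {a : ι} (h : a ∉ w) : (X a : MvPolynomial ι ℂ) ∈ Jw w :=
  Ideal.subset_span ⟨a, h, rfl⟩

omit [Fintype ι] in
theorem pderiv_mem_Jw {w : Set ι} {a : ι} (h : a ∈ w) {x : MvPolynomial ι ℂ} (hx : x ∈ Jw w) :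
    pderiv a x ∈ Jw w := by
  have key : x ∈ Jw w ∧ pderiv a x ∈ Jw w := by
    refine Submodule.span_induction (p := fun x _ => x ∈ Jw w ∧ pderiv a x ∈ Jw w) ?_ ?_ ?_ ?_ hx
    · rintro _ ⟨b, hb, rfl⟩
      refine ⟨X_mem_Jw hb, ?_⟩
      rw [pderiv_X_of_ne fun o : b = a => hb (o ▸ h)]
      exact zero_mem _
    · simp
    · intro x y _ _ h1 h2
      rw [map_add]
      exact ⟨add_mem h1.1 h2.1, add_mem h1.2 h2.2⟩
    · intro c x _ h1
      rw [smul_eq_mul, Derivation.leibniz, smul_eq_mul, smul_eq_mul]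
      exact ⟨Ideal.mul_mem_left _ _ h1.1,
        add_mem (Ideal.mul_mem_left _ _ h1.2) (Ideal.mul_mem_right _ _ h1.1)⟩
  exact key.2

/-- equations with independent differentials, as many as the tangent space allows -/
theorem exists_eqs (w : Set ι) (I : Ideal (MvPolynomial ι ℂ)) (z : MvPolynomial ι ℂ →ₐ[ℂ] ℂ) :
    ∃ (c : ℕ) (f : Fin c → MvPolynomial ι ℂ) (a : Fin c → ι), (∀ j, f j ∈ I) ∧ (∀ i, a i ∈ w) ∧
      (∀ i j, z (pderiv (a i) (f j)) = if i = j then 1 else 0) ∧
      ∃ V : Submodule ℂ (MvPolynomial ι ℂ →ₗ[ℂ] ℂ), w.ncard = Module.finrank ℂ V + c ∧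
        ∀ D ∈ V, D ∈ Tan z ∧ (∀ x ∈ I, D x = 0) ∧ ∀ b, b ∉ w → D (X b) = 0 := by
  classical
  let φ : w → I → ℂ := fun a g => z (pderiv a.1 g.1)
  obtain ⟨κ, a, ha, h1, h2⟩ := exists_linearIndependent' ℂ φ
  have := Finite.of_injective a ha
  obtain ⟨c, ⟨e⟩⟩ := Finite.exists_equiv_fin κ
  have h3 : LinearIndependent ℂ (φ ∘ a ∘ e.symm) := h2.comp e.symm e.symm.injective
  let L : I →ₗ[ℂ] Fin c → ℂ := LinearMap.pi fun i =>
    z.toLinearMap ∘ₗ (pderiv (a (e.symm i) : ι)).toLinearMap ∘ₗ I.subtype.restrictScalars ℂ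
  have h4 : LinearMap.range L = ⊤ := by
    rw [← top_le_iff, ← span_flip_eq_top_iff_linearIndependent.2 h3, Submodule.span_le]
    rintro _ ⟨g, rfl⟩
    exact ⟨g, rfl⟩
  choose f hf using fun j => LinearMap.range_eq_top.1 h4 (Pi.single j 1)
  let Ψ : (w → ℂ) →ₗ[ℂ] I → ℂ := Fintype.linearCombination ℂ φ
  let Θ : (w → ℂ) →ₗ[ℂ] MvPolynomial ι ℂ →ₗ[ℂ] ℂ :=
    Fintype.linearCombination ℂ fun b : w => z.toLinearMap ∘ₗ (pderiv (b : ι)).toLinearMap
  have hΘ : ∀ x g, Θ x g = ∑ b : w, x b * z (pderiv b.1 g) := fun x g => by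
    simp [Θ, Fintype.linearCombination_apply, LinearMap.sum_apply]
  have hX : ∀ x (b : w), Θ x (X b) = x b := fun x b => by
    rw [hΘ, Finset.sum_eq_single b]
    · simp
    · intro b' _ o
      rw [pderiv_X_of_ne fun o' => o (Subtype.ext o').symm, map_zero, mul_zero]
    · simp
  have hinj : Function.Injective Θ := fun x y h => funext fun b => by rw [← hX x, h, hX]
  refine ⟨c, fun j => f j, fun i => a (e.symm i), fun j => (f j).2, fun i => (a _).2,
    fun i j => ?_, (LinearMap.ker Ψ).map Θ, ?_, ?_⟩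
  · have h5 := congrFun (hf j) i
    rw [Pi.single_apply] at h5
    exact h5
  · have h5 := Ψ.finrank_range_add_finrank_ker
    have h6 : Set.range (φ ∘ a ∘ e.symm) = Set.range (φ ∘ a) :=
      e.symm.surjective.range_comp (φ ∘ a)
    rw [Fintype.range_linearCombination, ← h1, ← h6, finrank_span_eq_card h3,
      Module.finrank_fintype_fun_eq_card, Fintype.card_fin] at h5
    rw [(Submodule.equivMapOfInjective Θ hinj _).symm.finrank_eq, add_comm, h5,
      ← Nat.card_eq_fintype_card, Nat.card_coe_set_eq]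
  · rintro _ ⟨x, hx, rfl⟩
    refine ⟨fun g g' => ?_, fun g hg => ?_, fun b hb => ?_⟩
    · simp only [hΘ, Derivation.leibniz, smul_eq_mul, map_add, map_mul, mul_add,
        Finset.sum_add_distrib, Finset.mul_sum, mul_left_comm]
    · have h5 := congrFun (LinearMap.mem_ker.1 hx) ⟨g, hg⟩
      rw [hΘ]
      simpa [Ψ, Fintype.linearCombination_apply, φ] using h5
    · rw [hΘ]
      refine Finset.sum_eq_zero fun b' _ => ?_
      rw [pderiv_X_of_ne fun o : b = b' => hb (o ▸ b'.2), map_zero, mul_zero]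

/-- local equations at a point where the tangent space is small, with the unit matrix as
Jacobian matrix -/
theorem reg_one (w : Set ι) (I p : Ideal (MvPolynomial ι ℂ)) [hp : p.IsPrime] (hI : I ≤ p)
    (hw : Jw w ≤ p) (z : MvPolynomial ι ℂ →ₐ[ℂ] ℂ) (hz : ∀ x ∈ p, z x = 0)
    (hV : ∀ V : Submodule ℂ (MvPolynomial ι ℂ →ₗ[ℂ] ℂ),
      (∀ D ∈ V, D ∈ Tan z ∧ (∀ x ∈ I, D x = 0) ∧ ∀ b, b ∉ w → D (X b) = 0) →
        Module.finrank ℂ V ≤ td ℂ (MvPolynomial ι ℂ ⧸ p)) :
    ∃ (c : ℕ) (f : Fin c → MvPolynomial ι ℂ) (a : Fin c → ι) (r : MvPolynomial ι ℂ),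
      c + td ℂ (MvPolynomial ι ℂ ⧸ p) = w.ncard ∧ (∀ j, f j ∈ I) ∧ (∀ i, a i ∈ w) ∧
      (∀ i j, z (pderiv (a i) (f j)) = if i = j then 1 else 0) ∧ z r ≠ 0 ∧
      ∀ x ∈ p, r * x ∈ Ideal.span (Set.range f) ⊔ Jw w := by
  classical
  obtain ⟨c, f, a, hf, ha, hM, V, h1, h2⟩ := exists_eqs w I z
  have hinj : Function.Injective a := fun i j o => by
    by_contra o'
    have h3 := hM i j
    rw [if_neg o', o, hM, if_pos rfl] at h3
    exact one_ne_zero h3
  let J := Ideal.span (Set.range f) ⊔ Jw w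
  have hJ : J ≤ p := sup_le (Ideal.span_le.2 (Set.range_subset_iff.2 fun j => hI (hf j))) hw
  let u : ι → MvPolynomial ι ℂ := fun b => X b - C (z (X b))
  let T : Finset ι := w.toFinset \ Finset.univ.image a
  have hT : T.card + c = w.ncard := by
    have h3 : Finset.univ.image a ⊆ w.toFinset := fun b hb => by
      obtain ⟨i, -, rfl⟩ := Finset.mem_image.1 hb
      exact Set.mem_toFinset.2 (ha i)
    have h4 := Finset.card_sdiff_add_card_eq_card h3
    rwa [Finset.card_image_of_injective _ hinj, Finset.card_fin, ← Set.ncard_eq_toFinset_card']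
      at h4
  let K := J ⊔ (Ideal.span (T.image u : Finset _) ⊔ RingHom.ker z ^ 2)
  have k1 : ∀ b, b ∉ Finset.univ.image a → u b ∈ K := fun b hb => by
    by_cases o : b ∈ w
    · refine Ideal.mem_sup_right (Ideal.mem_sup_left (Ideal.subset_span ?_))
      exact Finset.mem_coe.2 (Finset.mem_image_of_mem u
        (Finset.mem_sdiff.2 ⟨Set.mem_toFinset.2 o, hb⟩))
    · simp only [u, hz _ (hw (X_mem_Jw o)), map_zero, sub_zero]
      exact Ideal.mem_sup_left (Ideal.mem_sup_right (X_mem_Jw o))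
  have k2 : ∀ b, u b ∈ K := fun b => by
    by_cases o : b ∈ Finset.univ.image a
    · obtain ⟨j, -, rfl⟩ := Finset.mem_image.1 o
      have h3 : _ ∈ K := Ideal.mem_sup_right (Ideal.mem_sup_right (taylor z (f j)))
      have h4 : f j ∈ K :=
        Ideal.mem_sup_left (Ideal.mem_sup_left (Ideal.subset_span ⟨j, rfl⟩))
      have h5 := sub_mem h4 h3
      rw [hz _ (hI (hf j)), map_zero, sub_zero, sub_sub_cancel,
        ← Finset.add_sum_erase _ _ (Finset.mem_univ (a j)), hM, if_pos rfl, map_one, one_mul] at h5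
      refine (Submodule.add_mem_iff_left _ (Ideal.sum_mem _ fun b hb => ?_)).1 h5
      by_cases o' : b ∈ Finset.univ.image a
      · obtain ⟨i, -, rfl⟩ := Finset.mem_image.1 o'
        rw [hM, if_neg fun e => Finset.ne_of_mem_erase hb (congrArg a e), map_zero, zero_mul]
        exact zero_mem _
      · exact Ideal.mul_mem_left _ _ (k1 b o')
    · exact k1 b o
  have k3 : RingHom.ker z ≤ K := fun g hg => by
    have h3 : _ ∈ K := Ideal.mem_sup_right (Ideal.mem_sup_right (taylor z g))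
    rw [RingHom.mem_ker.1 hg, map_zero, sub_zero] at h3
    exact (Submodule.sub_mem_iff_left _ (Ideal.sum_mem _ fun b _ =>
      Ideal.mul_mem_left _ _ (k2 b))).1 h3
  have hs := Ideal.Quotient.mk_surjective (I := J)
  have hm := ker_isMaximal z
  have hJm : J ≤ RingHom.ker z := fun x hx => hz x (hJ hx)
  have hm' : ((RingHom.ker z).map (Ideal.Quotient.mk J)).IsMaximal :=
    Ideal.IsMaximal.map_of_surjective_of_ker_le hs (by rwa [Ideal.mk_ker])
  have hp' : (p.map (Ideal.Quotient.mk J)).IsPrime :=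
    Ideal.map_isPrime_of_surjective hs (by rwa [Ideal.mk_ker])
  have hc : ((T.image u).image (Ideal.Quotient.mk J)).card ≤ T.card :=
    Finset.card_image_le.trans Finset.card_image_le
  have h6 := hV V h2
  obtain ⟨h7, r, h8, h9⟩ := reg_of_gens (m := (RingHom.ker z).map (Ideal.Quotient.mk J))
    (q := p.map (Ideal.Quotient.mk J)) (Ideal.map_mono hz)
    ((T.image u).image (Ideal.Quotient.mk J)) (by
      refine (Ideal.map_mono k3).trans ?_
      rw [Ideal.map_sup, Ideal.map_quotient_self, bot_sup_eq, Ideal.map_sup, Ideal.map_span,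
        Ideal.map_pow, Finset.coe_image (f := Ideal.Quotient.mk J)])
    (by
      rw [Finset.coe_image, Finset.coe_image]
      rintro _ ⟨_, ⟨b, -, rfl⟩, rfl⟩
      exact Ideal.mem_map_of_mem _ (sub_mem_ker z _))
    (by rw [td_quot_map hJ]; omega)
  rw [td_quot_map hJ] at h7
  obtain ⟨r, rfl⟩ := hs r
  refine ⟨c, f, a, r, by omega, hf, ha, hM, fun o => h8 (Ideal.mem_map_of_mem _ o), fun x hx => ?_⟩
  rw [← Ideal.Quotient.eq_zero_iff_mem, map_mul]
  exact h9 _ (Ideal.mem_map_of_mem _ hx)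

/-- local equations at a point where the tangent space is small -/
theorem reg (w : Set ι) (I p : Ideal (MvPolynomial ι ℂ)) (hp : p.IsPrime) (hI : I ⊔ Jw w ≤ p)
    (z : MvPolynomial ι ℂ →ₐ[ℂ] ℂ) (hz : p ≤ RingHom.ker z) (d : ℕ)
    (hd : ringKrullDim (MvPolynomial ι ℂ ⧸ p) = d)
    (hV : ∀ V : Submodule ℂ (MvPolynomial ι ℂ →ₗ[ℂ] ℂ),
      (∀ D ∈ V, D ∈ Tan z ∧ (∀ x ∈ I, D x = 0) ∧ ∀ b, b ∉ w → D (X b) = 0) →
        Module.finrank ℂ V ≤ d) :
    ∃ (c : ℕ) (f : Fin c → MvPolynomial ι ℂ) (a : Fin c → ι) (r : MvPolynomial ι ℂ),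
      c + d = w.ncard ∧ (∀ j, f j ∈ I) ∧ (∀ i, a i ∈ w) ∧
      z (Matrix.of fun i j => pderiv (a i) (f j)).det ≠ 0 ∧ z r ≠ 0 ∧
      ∀ x ∈ p, r * x ∈ Ideal.span (Set.range f) ⊔ Jw w := by
  rw [dim_eq_td (k := ℂ)] at hd
  obtain rfl : td ℂ (MvPolynomial ι ℂ ⧸ p) = d := by exact_mod_cast hd
  obtain ⟨c, f, a, r, h1, h2, h3, h4, h5, h6⟩ :=
    reg_one w I p (le_sup_left.trans hI) (le_sup_right.trans hI) z hz hV
  refine ⟨c, f, a, r, h1, h2, h3, ?_, h5, h6⟩
  have h7 : z.mapMatrix (Matrix.of fun i j => pderiv (a i) (f j)) = 1 := by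
    ext i j
    rw [Matrix.one_apply]
    exact h4 i j
  rw [AlgHom.map_det, h7, Matrix.det_one]
  exact one_ne_zero

omit [Fintype ι] in
/-- equations with a Jacobian determinant outside the prime are quasi-regular -/
theorem qreg_det {κ : Type} [Fintype κ] [DecidableEq κ] (w : Set ι)
    {p : Ideal (MvPolynomial ι ℂ)} (hp : p.IsPrime) (hw : Jw w ≤ p)
    {f : κ → MvPolynomial ι ℂ} (hf : ∀ j, f j ∈ p) {a : κ → ι} (ha : ∀ i, a i ∈ w)
    (hd : (Matrix.of fun i j => pderiv (a i) (f j)).det ∉ p) (k : ℕ)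
    {Φ : MvPolynomial κ (MvPolynomial ι ℂ)} (h : Φ.IsHomogeneous k)
    (hΦ : aeval f Φ ∈ p ^ (k + 1) ⊔ Jw w) (s : κ →₀ ℕ) : Φ.coeff s ∈ p := by
  let M : Matrix κ κ (MvPolynomial ι ℂ) := Matrix.of fun i j => pderiv (a i) (f j)
  have hs : ∀ j x, (∑ i, M.adjugate j i • pderiv (R := ℂ) (a i)) x =
      ∑ i, M.adjugate j i * pderiv (a i) x := fun j x => by
    refine Finset.induction_on (Finset.univ : Finset κ) (by simp) fun i t hi ih => ?_
    rw [Finset.sum_insert hi, Finset.sum_insert hi, Derivation.add_apply, ih]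
    rfl
  refine qreg_of_der hp hw hf hd (fun j => ∑ i, M.adjugate j i • pderiv (a i))
    (fun j x hx => ?_) (fun j l => ?_) k h hΦ s
  · rw [hs]
    exact Ideal.sum_mem _ fun i _ => Ideal.mul_mem_left _ _ (pderiv_mem_Jw (ha i) hx)
  · have h1 := congrFun (congrFun M.adjugate_mul j) l
    rw [Matrix.mul_apply, Matrix.smul_apply, Matrix.one_apply, smul_eq_mul, mul_ite, mul_one,
      mul_zero] at h1
    rw [hs]
    exact h1

end Vale.Agent.P297Z.Rg
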