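import Vale.Agent.P297Z.Loc.Defs
import Vale.Agent.P297Z.Loc.Reg
import Vale.Agent.P297Z.K.PartT
import Vale.Agent.P297Z.K.Loc

/-!
# P297: the conormal bundle of a fixed component
-/

open scoped TensorProduct

noncomputable section

namespace Vale.Agent.P297Z

open MvPolynomial

namespace Rg

section gr

variable {P T : Type} [CommRing P] [CommRing T] [Algebra P T]

theorem mem_smul_of_tmul (hs : Function.Surjective (algebraMap P T)) {N : Type} [AddCommGroup N]
    [Module P N] {n : N} (h : (1 : T) ⊗ₜ[P] n = 0) :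
    n ∈ RingHom.ker (algebraMap P T) • (⊤ : Submodule P N) := by
  let e := Ideal.quotientKerAlgEquivOfSurjective (f := Algebra.ofId P T) hs
  have h1 := congrArg (e.symm.toLinearMap.rTensor N) h
  rw [LinearMap.rTensor_tmul, map_zero, AlgEquiv.toLinearMap_apply, map_one] at h1
  rw [← LinearMap.ker_tensorProductMk]
  exact h1

theorem mkQ_mem_smul {I J : Ideal P} {x : P} :
    J.mkQ x ∈ I • (⊤ : Submodule P (P ⧸ J)) ↔ x ∈ I ⊔ J := by
  rw [← J.range_mkQ, ← Submodule.map_top, ← Submodule.map_smul'', ← Submodule.mem_comap,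
    Submodule.comap_map_mkQ, sup_comm, smul_eq_mul, Ideal.mul_top]

theorem pow_mul_mem {p K J : Ideal P} {r : P} (h : ∀ x ∈ p, r * x ∈ K ⊔ J) (k : ℕ) {x : P}
    (hx : x ∈ p ^ k) : r ^ k * x ∈ K ^ k ⊔ J := by
  induction k generalizing x with
  | zero => simp
  | succ k ih =>
    rw [pow_succ] at hx
    refine Submodule.mul_induction_on hx (fun a ha b hb => ?_) (fun a b ha hb => ?_)
    · obtain ⟨u, hu, v, hv, e⟩ := Submodule.mem_sup.1 (ih ha)
      obtain ⟨u', hu', v', hv', e'⟩ := Submodule.mem_sup.1 (h b hb)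
      have : r ^ (k + 1) * (a * b) = u * u' + (u * v' + v * (u' + v')) := by
        rw [pow_succ, mul_mul_mul_comm, ← e, ← e']
        ring
      rw [this, pow_succ]
      exact Submodule.add_mem_sup (Ideal.mul_mem_mul hu hu')
        (add_mem (Ideal.mul_mem_left _ _ hv') (Ideal.mul_mem_right _ _ hv))
    · rw [mul_add]
      exact add_mem ha hb

/-- the exponents of degree `k` -/
def Ex (n k : ℕ) : Type := (Finset.univ : Finset (Fin n)).finsuppAntidiag k

instance (n k : ℕ) : Fintype (Ex n k) :=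
  inferInstanceAs (Fintype ((Finset.univ : Finset (Fin n)).finsuppAntidiag k))

theorem Ex.deg {n k : ℕ} (s : Ex n k) : s.1.degree = k := by
  rw [Finsupp.degree_eq_sum]
  exact (Finset.mem_finsuppAntidiag.1 s.2).1

theorem card_Ex (n k : ℕ) : Fintype.card (Ex n k) = n.multichoose k :=
  (Fintype.card_coe _).trans (by
    rw [Finset.card_finsuppAntidiag_nat_eq_multichoose, Finset.card_fin])

theorem span_pow_eq {n : ℕ} (f : Fin n → P) (k : ℕ) : Ideal.span (Set.range f) ^ k =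
    Ideal.span (Set.range fun s : Ex n k => aeval f (monomial s.1 (1 : P))) := by
  have h1 : Ideal.span (Set.range f) =
      (idealOfVars (Fin n) P).map (aeval f : MvPolynomial (Fin n) P →ₐ[P] P) := by
    rw [Ideal.map_span, ← Set.range_comp]
    congr 2
    exact funext fun i => (aeval_X f i).symm
  rw [h1, ← Ideal.map_pow, pow_idealOfVars_eq_span, Ideal.map_span]
  congr 1
  ext x
  constructor
  · rintro ⟨_, ⟨s, hs, rfl⟩, rfl⟩
    refine ⟨⟨s, Finset.mem_finsuppAntidiag.2 ⟨?_, Finset.subset_univ _⟩⟩, rfl⟩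
    rw [← Finsupp.degree_eq_sum]
    exact hs
  · rintro ⟨s, rfl⟩
    exact ⟨_, ⟨s.1, s.deg, rfl⟩, rfl⟩

variable [Algebra ℂ T] [IsNoetherianRing T] [IsNoetherianRing P]

/-- the graded pieces along a quasi-regular sequence are free -/
theorem free_gr (hs : Function.Surjective (algebraMap P T)) (z : T →ₐ[ℂ] ℂ) {p J : Ideal P}
    (hp : RingHom.ker (algebraMap P T) = p) {n : ℕ} {f : Fin n → P} (hf : ∀ i, f i ∈ p) {r : P}
    (hr : z (algebraMap P T r) ≠ 0) (h : ∀ x ∈ p, r * x ∈ Ideal.span (Set.range f) ⊔ J) (k : ℕ)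
    (hq : ∀ Φ : MvPolynomial (Fin n) P, Φ.IsHomogeneous k → aeval f Φ ∈ p ^ (k + 1) ⊔ J →
      ∀ s, Φ.coeff s ∈ p) :
    FreeAt z (T ⊗[P] (p ^ k • ⊤ : Submodule P (P ⧸ J))) (n.multichoose k) := by
  classical
  have h0 : Ideal.span (Set.range f) ≤ p := Ideal.span_le.2 (Set.range_subset_iff.2 hf)
  let m : Ex n k → (p ^ k • ⊤ : Submodule P (P ⧸ J)) := fun s =>
    ⟨J.mkQ (aeval f (monomial s.1 (1 : P))), mkQ_mem_smul.2 (Ideal.mem_sup_left
      (Ideal.pow_right_mono h0 k (span_pow_eq f k ▸ Ideal.subset_span ⟨s, rfl⟩)))⟩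
  let e := Fintype.linearCombination T fun s => (1 : T) ⊗ₜ[P] m s
  have he : ∀ c : Ex n k → P, e (fun s => algebraMap P T (c s)) = 1 ⊗ₜ ∑ s, c s • m s := fun c => by
    simp only [e, Fintype.linearCombination_apply, algebraMap_smul, TensorProduct.tmul_sum,
      TensorProduct.tmul_smul]
  have hm : ∀ c : Ex n k → P, ((∑ s, c s • m s : (p ^ k • ⊤ : Submodule P (P ⧸ J))) : P ⧸ J) =
      J.mkQ (∑ s, c s * aeval f (monomial s.1 (1 : P))) := fun c => by
    simp only [m, Submodule.coe_sum, Submodule.coe_smul, map_sum, ← smul_eq_mul, map_smul]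
  rw [← card_Ex]
  refine (freeAt_fun (Ex n k)).of_isoAt (f := e) (isoAt_of (InjAt.of_inj ?_) fun x => ?_)
  · refine (injective_iff_map_eq_zero e).2 fun t ht => ?_
    choose c hc using fun s => hs (t s)
    obtain rfl : t = fun s => algebraMap P T (c s) := funext fun s => (hc s).symm
    have h1 := (Submodule.mem_smul_top_iff _ _ _).1
      (mem_smul_of_tmul hs (n := ∑ s, c s • m s) ((he c).symm.trans ht))
    rw [hp, ← mul_smul, ← pow_succ', hm, mkQ_mem_smul] at h1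
    have h2 := hq (∑ s : Ex n k, monomial s.1 (c s))
      (IsHomogeneous.sum Finset.univ (fun s : Ex n k => monomial s.1 (c s)) k
        fun s _ => isHomogeneous_monomial (c s) s.deg) (by
        convert h1 using 1
        rw [map_sum]
        refine Finset.sum_congr rfl fun s _ => ?_
        rw [aeval_monomial, aeval_monomial, map_one, one_mul]
        rfl)
    funext s
    have h3 := h2 s.1
    rw [coeff_sum, Finset.sum_eq_single s, coeff_monomial, if_pos rfl, ← hp] at h3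
    · exact h3
    · intro s' _ o
      rw [coeff_monomial, if_neg fun o' => o (Subtype.ext o')]
    · simp
  · refine ⟨algebraMap P T (r ^ k), ?_⟩
    suffices ∃ a, e a = algebraMap P T (r ^ k) • x by
      obtain ⟨a, ha⟩ := this
      exact ⟨a, by rw [map_pow]; exact ev_pow hr k, ha⟩
    induction x using TensorProduct.induction_on with
    | zero => exact ⟨0, by rw [map_zero, smul_zero]⟩
    | add x y hx hy =>
      obtain ⟨a, ha⟩ := hx
      obtain ⟨b, hb⟩ := hy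
      exact ⟨a + b, by rw [map_add, ha, hb, smul_add]⟩
    | tmul t x =>
      obtain ⟨x, hx⟩ := x
      obtain ⟨x, rfl⟩ := J.mkQ_surjective x
      obtain ⟨u, hu, v, hv, rfl⟩ := Submodule.mem_sup.1 (mkQ_mem_smul.1 hx)
      obtain ⟨u', hu', v', hv', e'⟩ := Submodule.mem_sup.1 (pow_mul_mem h k hu)
      rw [span_pow_eq] at hu'
      obtain ⟨c, rfl⟩ := Ideal.mem_span_range_iff_exists_fun.1 hu'
      refine ⟨t • fun s => algebraMap P T (c s), ?_⟩
      have h1 : ∑ s, c s • m s = r ^ k • ⟨J.mkQ (u + v), hx⟩ := by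
        refine Subtype.ext ?_
        rw [hm, Submodule.coe_smul, ← map_smul, smul_eq_mul, mul_add, ← e', eq_comm,
          Submodule.mkQ_apply, Submodule.mkQ_apply, Submodule.Quotient.eq, add_assoc,
          add_sub_cancel_left]
        exact add_mem hv' (Ideal.mul_mem_left _ _ hv)
      rw [map_smul, he, h1, algebraMap_smul, TensorProduct.tmul_smul, smul_comm,
        TensorProduct.smul_tmul', smul_eq_mul, mul_one]

end gr

theorem coef_zero {ι : Type} (y : MvPolynomial ι ℂ →ₐ[ℂ] ℂ) (a : ι) {n : ℕ} (i : Fin n)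
    {f t : Fin n → MvPolynomial ι ℂ} {r x v : MvPolynomial ι ℂ} (h1 : ∀ j, y (f j) = 0)
    (h2 : ∀ j, y (pderiv a (f j)) = if i = j then 1 else 0) (h3 : y x = 0)
    (h4 : y (pderiv a x) = 0) (h5 : y (pderiv a v) = 0) (e : ∑ j, t j * f j + v = r * x) :
    y (t i) = 0 := by
  simpa [map_sum, h1, h2, h3, h4, h5] using congrArg (fun s => y (pderiv a s)) e

end Rg

namespace Lc

namespace Img

variable {ι : Type} [Fintype ι] [Nonempty ι] {d : ι → ℤ} {O : Obs ι d} {c : O.Comp} (g : Img c)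

/-- the point of `X × ptT` over a point of `X` -/
def up {X : Spc} (z : X.Pt) : (X.prod ptT).Pt := (Mor.lift (Mor.id X) (Mor.toPt X Unit 0)).onPt z

theorem up_left {X : Spc} (z : X.Pt) (a : X.R) : (up z).1 ((Mor.fst X ptT).φ a) = z.1 a :=
  congrArg z.1 (Algebra.TensorProduct.productMap_left_apply _ _ a)

theorem pt_ext {X : Spc} {A : Type} [CommRing A] [Algebra ℂ A] {u v : (X.prod ptT).R →ₐ[ℂ] A}
    (h : ∀ a, u ((Mor.fst X ptT).φ a) = v ((Mor.fst X ptT).φ a)) : u = v :=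
  Algebra.TensorProduct.ext (AlgHom.ext h) (Subsingleton.elim (α := ℂ →ₐ[ℂ] A) _ _)

theorem e_surj : Function.Surjective g.e.φ := g.onto.comp Ideal.Quotient.mk_surjective

theorem dom : IsDomain (g.F.prod ptT).R :=
  have := g.var.dom
  (Algebra.TensorProduct.rid ℂ ℂ g.F.R).toMulEquiv.isDomain _

theorem p_prime : g.p.IsPrime :=
  have := g.dom
  RingHom.ker_isPrime _

theorem td_p : Dim.td ℂ ((Amb ι d).R ⧸ g.p) = c.e + 1 := by
  have := g.p_prime
  have := g.var.dom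
  have h1 := g.var.dim
  rw [Dim.dim_eq_td (k := ℂ), g.card] at h1
  let e : ((Amb ι d).R ⧸ g.p) ≃ₐ[ℂ] g.F.R :=
    (Ideal.quotientKerAlgEquivOfSurjective g.e_surj).trans (Algebra.TensorProduct.rid ℂ ℂ g.F.R)
  rw [Dim.td_eq_of_equiv e]
  exact_mod_cast h1

theorem I_le : O.I ≤ g.p := fun a ha => by
  have h : O.inc.φ a = 0 :=
    Ideal.Quotient.eq_zero_iff_mem.2 fun z hz => (O.mem z).1 hz a ha
  exact (congrArg g.i.φ h).trans (map_zero _)

theorem Jw_le : Jw d c.w ≤ g.p := Ideal.span_le.2 (by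
  rintro _ ⟨a, ha, rfl⟩
  exact g.fix a ha)

theorem exists_orb (z : (g.F.prod ptT).Pt) :
    ∃ x, (Amb ι d).Orb (g.e.onPt z) ((O.inc.comp c.j).onPt x) := by
  obtain ⟨x, k, hk⟩ := g.surj ((Mor.fst _ _).onPt z)
  refine ⟨up x, ?_⟩
  have h1 : (g.F.prod ptT).Orb ((g.j0.map (Mor.id ptT)).onPt (up x)) z := by
    refine ⟨Sum.elim k 1, pt_ext fun a => ?_⟩
    refine (DFunLike.congr_fun hk a).trans ?_
    refine (up_left x _).symm.trans (congrArg (up x).1 ?_)
    have h2 : (g.F.prod ptT).act (Sum.elim k 1) ((Mor.fst g.F ptT).φ a) =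
        (Mor.fst g.F ptT).φ (g.F.act k a) :=
      congrArg (fun t : ℂ => g.F.act k a ⊗ₜ[ℂ] t) (map_one (AlgHom.id ℂ ℂ))
    refine Eq.trans ?_ (congrArg (g.j0.map (Mor.id ptT)).φ h2.symm)
    exact (congrArg (fun f : Mor (c.X.prod ptT) g.F => f.φ (g.F.act k a))
      (Mor.fst_map g.j0 (Mor.id ptT))).symm
  rw [g.fac]
  exact (g.e.orb h1).symm

theorem act_x (h : (Amb ι d).J → ℂˣ) (a : ι) : (Amb ι d).act h (Amb.x d a) =
    chr (fun o => o.elim 1 fun _ => d a) h • Amb.x d a :=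
  Spc.mem_wt.1 (Spc.X_mem ptT ι (fun a _ => d a) a) _

theorem tan (z : (g.F.prod ptT).Pt) (V : Submodule ℂ ((Amb ι d).R →ₗ[ℂ] ℂ))
    (hV : ∀ D ∈ V, D ∈ Tan (g.e.onPt z).1 ∧ (∀ a ∈ O.I, D a = 0) ∧
      ∀ a, d a ≠ c.w → D (Amb.x d a) = 0) : Module.finrank ℂ V ≤ c.e + 1 := by
  obtain ⟨x, h, hx⟩ := g.exists_orb z
  let L : ((Amb ι d).R →ₗ[ℂ] ℂ) →ₗ[ℂ] (Amb ι d).R →ₗ[ℂ] ℂ :=
    LinearMap.lcomp ℂ ℂ ((Amb ι d).act h).toLinearMap
  have hL : ∀ D r, L D r = D ((Amb ι d).act h r) := fun _ _ => rfl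
  have hi : Function.Injective L := fun D D' o => LinearMap.ext fun r => by
    rw [← (Amb ι d).act_act_inv h r, ← hL, o, hL]
  rw [(Submodule.equivMapOfInjective L hi V).finrank_eq]
  refine c.tan x _ ?_
  rintro _ ⟨D, hD, rfl⟩
  obtain ⟨h1, h2, h3⟩ := hV D hD
  refine ⟨fun a b => ?_, fun a ha => h2 _ (O.stab h a ha), fun a ha => ?_⟩
  · rw [hL, hL, hL, map_mul, h1, hx]
    rfl
  · rw [hL, act_x, map_smul, h3 a ha, smul_zero]

/-- the local equations -/
theorem loc (z : (g.F.prod ptT).Pt) : ∃ (n : ℕ) (f : Fin n → (Amb ι d).R) (a : Fin n → ι)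
    (r : (Amb ι d).R), n + (c.e + 1) = (Finset.univ.filter fun a => d a = c.w).card ∧
      (∀ j, f j ∈ O.I) ∧ (∀ i, d (a i) = c.w) ∧
      (∀ i j, z.1 (g.e.φ (Amb.pd d (a i) (f j))) = if i = j then 1 else 0) ∧
      z.1 (g.e.φ r) ≠ 0 ∧ ∀ x ∈ g.p, r * x ∈ Ideal.span (Set.range f) ⊔ Jw d c.w := by
  obtain ⟨n, f, a, r, h1, h2⟩ := Rg.reg_one {a | d a = c.w} O.I g.p (hp := g.p_prime) g.I_le
    g.Jw_le (g.e.onPt z).1
    (fun x hx => (congrArg z.1 hx).trans (map_zero _))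
    (fun V hV => (g.tan z V hV).trans g.td_p.ge)
  refine ⟨n, f, a, r, ?_, h2⟩
  rw [← g.td_p, ← Set.ncard_coe_finset, Finset.coe_filter_univ]
  exact h1

theorem free : ∃ n, n + (c.e + 1) = (Finset.univ.filter fun a => d a = c.w).card ∧
    ∀ k, (g.gr k).IsBun (n.multichoose k) := by
  obtain ⟨z⟩ := g.var.ne
  obtain ⟨n, -, -, -, h0, -⟩ := g.loc (up z)
  refine ⟨n, h0, fun k z => ?_⟩
  obtain ⟨m, f, a, r, h1, h2, h3, h4, h5, h6⟩ := g.loc z
  obtain rfl : m = n := by omega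
  have := g.dom
  have : IsNoetherianRing g.e.Src := inferInstanceAs (IsNoetherianRing (g.F.prod ptT).R)
  refine Rg.free_gr (P := (Amb ι d).R) (T := g.e.Src) g.e_surj z.1 (p := g.p) (J := Jw d c.w) rfl
    (fun i => g.I_le (h2 i)) h5 h6 k fun Φ h7 h8 s => ?_
  refine Rg.qreg_det {a | d a = c.w} g.p_prime g.Jw_le (fun i => g.I_le (h2 i)) h3
    (fun o => ?_) k h7 h8 s
  have h9 : (g.e.onPt z).1.mapMatrix (Matrix.of fun i j => Amb.pd d (a i) (f j)) = 1 := by
    ext i j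
    rw [Matrix.one_apply]
    exact h4 i j
  have h10 := (g.e.onPt z).1.map_det (Matrix.of fun i j => Amb.pd d (a i) (f j))
  rw [h9, Matrix.det_one] at h10
  exact one_ne_zero (h10.symm.trans ((congrArg z.1 o).trans (map_zero _)))

theorem dinj (z : (g.F.prod ptT).Pt) (x : (Amb ι d).R) (hx : x ∈ g.p)
    (h : ∀ b, d b = c.w → z.1 (g.e.φ (Amb.pd d b x)) = 0) :
    ∃ r, z.1 (g.e.φ r) ≠ 0 ∧ r * x ∈ (RingHom.ker z.1).comap g.e.φ * g.p ⊔ Jw d c.w := by
  obtain ⟨n, f, a, r, -, h2, h3, h4, h5, h6⟩ := g.loc z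
  refine ⟨r, h5, ?_⟩
  obtain ⟨u, hu, v, hv, e⟩ := Submodule.mem_sup.1 (h6 x hx)
  obtain ⟨t, rfl⟩ := Ideal.mem_span_range_iff_exists_fun.1 hu
  rw [← e]
  refine Submodule.add_mem_sup (Ideal.sum_mem _ fun i _ =>
    Ideal.mul_mem_mul ?_ (g.I_le (h2 i))) hv
  let y : MvPolynomial ι ℂ →ₐ[ℂ] ℂ := (g.e.onPt z).1
  have h0 : ∀ s ∈ g.p, y s = 0 := fun s hs => (congrArg z.1 hs).trans (map_zero _)
  exact Rg.coef_zero y (a i) i (fun j => h0 _ (g.I_le (h2 j))) (h4 i) (h0 x hx) (h _ (h3 i))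
    (h0 _ (g.Jw_le (Rg.pderiv_mem_Jw (w := {a | d a = c.w}) (h3 i) hv))) e

theorem wt0 (k : ℕ) (γ : (g.F.prod ptT).J → ℤ) (m : (g.gr k).M) (hm : m ∈ (g.gr k).wt γ)
    (hγ : γ (.inr ()) ≠ 0) : m = 0 := by
  let u : ℂˣ := Units.mk0 2 two_ne_zero
  let τ : (g.F.prod ptT).J → ℂˣ := Sum.elim 1 fun _ => u
  have h1 : (g.F.prod ptT).act τ = AlgHom.id ℂ _ := pt_ext fun a =>
    congrArg₂ (fun (s : g.F.R) (t : ℂ) => s ⊗ₜ[ℂ] t) (g.F.act_one a) (map_one (AlgHom.id ℂ ℂ))
  have h2 := act_x (d := d) (tor g.e.ρ τ)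
  have h3 : chr (fun o : (Amb ι d).J => o.elim 1 fun _ => c.w) (tor g.e.ρ τ) = 1 := by
    obtain ⟨z⟩ := g.var.ne
    obtain ⟨a, ha⟩ := ((Spc.adj_pt ptT ι _ _).1 (g.e.onPt (up z)).2).2
    have h4 : d a = c.w := by
      by_contra o
      exact ha ((congrArg (up z).1 (g.fix a o)).trans (map_zero _))
    have h5 := congrArg (up z).1 (g.e.act_map τ (Amb.x d a))
    rw [h2, h1, h4, map_smul, map_smul, smul_eq_mul] at h5
    exact (mul_eq_right₀ ha).1 h5
  have h4 : (Ideal.Quotient.mkₐ ℂ (Jw d c.w)).comp ((Amb ι d).act (tor g.e.ρ τ)) =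
      Ideal.Quotient.mkₐ ℂ (Jw d c.w) := MvPolynomial.algHom_ext fun a => by
    refine (congrArg (Ideal.Quotient.mkₐ ℂ (Jw d c.w)) (h2 a)).trans ?_
    by_cases o : d a = c.w
    · rw [o, h3, one_smul]
      rfl
    · have h5 : Ideal.Quotient.mkₐ ℂ (Jw d c.w) (Amb.x d a) = 0 :=
        Ideal.Quotient.eq_zero_iff_mem.2 (Ideal.subset_span ⟨a, o, rfl⟩)
      rw [map_smul, h5, smul_zero]
      exact h5.symm
  have h5 : ∀ x, (g.gr k).act τ x = x := fun x => by
    refine g.e.pull_induction _ (P := fun x => (g.gr k).act τ x = x) (map_zero _) (fun a n => ?_)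
      (fun a b ha hb => (map_add ((g.gr k).act τ) a b).trans (congrArg₂ _ ha hb)) x
    refine (g.e.act_tm _ τ a n).trans ?_
    rw [h1]
    refine congrArg (g.e.tm _ a) (Subtype.ext ?_)
    obtain ⟨n, hn⟩ := n
    obtain ⟨n, rfl⟩ := Ideal.Quotient.mk_surjective (I := Jw d c.w) n
    exact DFunLike.congr_fun h4 n
  have h6 : chr γ τ = 2 ^ γ (.inr ()) := by
    refine (chr_sum_type γ τ).trans ?_
    rw [show (fun j => τ (.inl j)) = 1 from rfl, chr_one, one_mul, chr_eq_prod]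
    exact Fintype.prod_unique (ι := Unit) _
  have h7 : (chr γ τ - 1) • m = 0 := by rw [sub_smul, one_smul, ← hm τ, h5, sub_self]
  refine (smul_eq_zero.1 h7).resolve_left fun o => hγ ?_
  rw [h6, sub_eq_zero] at o
  have h8 := congrArg norm o
  rw [norm_zpow, Complex.norm_two, norm_one] at h8
  exact (zpow_eq_one_iff_right₀ (by norm_num) (by norm_num)).1 h8

end Img

/-- regularity along a fixed component -/
theorem reg : REG := fun _ _ _ _ _ _ g =>
  { gen := fun z => by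
      obtain ⟨n, f, a, r, -, h2, -, -, h5, h6⟩ := g.loc z
      exact ⟨r, h5, fun x hx => sup_le_sup_right
        (Ideal.span_le.2 (Set.range_subset_iff.2 h2)) _ (h6 x hx)⟩
    free := g.free
    wt0 := g.wt0
    dinj := g.dinj }

end Lc

end Vale.Agent.P297Z
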