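import Vale.Agent.P297Z.Loc.Defs
import Vale.Agent.P297Z.K.AK3
import Vale.Agent.P297Z.K.AG
import Vale.Agent.P297Z.K.PartT
import Vale.Agent.P297Z.K.Prj
import Vale.Agent.P297Z.K.AP

/-!
# P297: base change for a fixed component, and transfer along a map of varieties
-/

set_option linter.all false

noncomputable section

namespace Vale.Agent.P297Z

namespace Lc

section iso

variable {W X Y : Spc} {r : Mor W X} {s : Mor X W}

theorem iso_flat (h1 : r.comp s = Mor.id X) (h2 : s.comp r = Mor.id W) : r.Flat := by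
  have a1 : ∀ x, s.φ (r.φ x) = x := fun x => congrArg (fun u => u.φ x) h1
  have a2 : ∀ w, r.φ (s.φ w) = w := fun w => congrArg (fun u => u.φ w) h2
  exact flat_of_module r (Module.Flat.of_linearEquiv (LinearEquiv.ofBijective
    (Algebra.linearMap X.R r.Src) ⟨Function.LeftInverse.injective a1,
      Function.RightInverse.surjective a2⟩).symm)

/-- the projective structure of an isomorphism -/
def isoPrj (h1 : r.comp s = Mor.id X) (h2 : s.comp r = Mor.id W) : Prj r :=
  Prj.ofFinite r s.ρ (fun γ => congrArg (fun u => u.ρ γ) h1) (fun γ => congrArg (fun u => u.ρ γ) h2)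
    (fun w => int_of_mem ⟨s.φ w, congrArg (fun u => u.φ w) h2⟩) fun z hz => by
      obtain ⟨a, ha, h0⟩ := s.pt_map ⟨z.comp r.φ, hz⟩
      exact ⟨a, ha, fun e => h0 ((congrArg z (congrArg (fun u => u.φ a) h2)).trans e)⟩

theorem mem_wt_empty {f : Mor X Y} (P : Prj f) [IsEmpty P.E] (M : GMod X) (m : M.M) :
    m ∈ wt (P.actE M) 0 := fun t => by
  obtain rfl : t = 1 := Subsingleton.elim _ _
  show M.act (tor P.π 1) m = _
  rw [tor_one, M.act_one, chr_zero, one_smul]

theorem push_iso (h1 : r.comp s = Mor.id X) (h2 : s.comp r = Mor.id W) {f : Mor X Y} (P : Prj f)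
    (P' : Prj (f.comp r)) [IsEmpty P.E] [IsEmpty P'.E] (x : G X) :
    push P' (pullG r x) = push P x := by
  have a1 : ∀ x, s.φ (r.φ x) = x := fun x => congrArg (fun u => u.φ x) h1
  have a2 : ∀ w, r.φ (s.φ w) = w := fun w => congrArg (fun u => u.φ w) h2
  refine DFunLike.congr_fun (G_ext (ψ := (push P').comp (pullG r)) (ψ' := push P) fun M => ?_) x
  rw [AddMonoidHom.comp_apply, pullG_cls (iso_flat h1 h2), push_empty, push_empty]
  let u : (P.part 0 M).M →ₗ[Y.R] (P'.part 0 (r.pull M)).M :=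
    { toFun := fun m => P'.el (r.tm M 1 (P.val m)) (mem_wt_empty P' _ _)
      map_add' := fun a b => P'.val_inj (by simp only [map_add, Prj.val_el, Mor.tm_add])
      map_smul' := fun y a => P'.val_inj (by
        rw [Prj.val_el, RingHom.id_apply, P'.val_smul, Prj.val_el, P.val_smul, Mor.tm_smul,
          Mor.smul_tm]
        rfl) }
  have hu : ∀ m, P'.val (u m) = r.tm M 1 (P.val m) := fun _ => rfl
  let v : (r.pull M).M →+ M.M := r.pullLift M
    (AddMonoidHom.mk' (fun a => DistribSMul.toAddMonoidHom M.M (s.φ a)) fun a b =>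
      AddMonoidHom.ext fun n => by simp [add_smul]) fun y a n => by
    show s.φ (r.φ y * a) • n = s.φ a • y • n
    rw [map_mul, a1, mul_comm, mul_smul]
  have hv : ∀ a n, v (r.tm M a n) = s.φ a • n := fun a n => r.pullLift_tm M _ _ a n
  refine (cls_bij (f := u) (GMod.isHom_of_wt fun γ m hm => ?_) ⟨fun a b e => ?_, fun b => ?_⟩).symm
  · rw [Prj.mem_part_wt', map_zero, add_zero] at hm
    rw [Prj.mem_part_wt', map_zero, add_zero, hu]
    have := r.tm_mem_wt M W.one_mem hm
    rwa [zero_add] at this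
  · have := congrArg (fun t => v (P'.val t)) e
    simp only [hu, hv, map_one, one_smul] at this
    exact P.val_inj this
  · have : ∀ t : (r.pull M).M, ∃ m, r.tm M 1 m = t := fun t => by
      induction t using r.pull_induction M with
      | h0 => exact ⟨0, r.tm_zero M 1⟩
      | ht a n => exact ⟨s.φ a • n, by rw [Mor.tm_smul, a2, mul_one]⟩
      | ha x y hx hy =>
        obtain ⟨m, rfl⟩ := hx
        obtain ⟨n, rfl⟩ := hy
        exact ⟨m + n, r.tm_add M 1 m n⟩
    obtain ⟨m, hm⟩ := this (P'.val b)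
    exact ⟨P.el m (mem_wt_empty P M m), P'.val_inj hm⟩

end iso

theorem mid_eq {X Q : Spc} (j : Mor (X.prod ptT) Q) (W : Spc) :
    j.mid W = (j.map (Mor.id W)).comp (Mor.rot X W ptT) := by
  rw [Mor.rot, Mor.map_lift, Mor.id_comp, Mor.mid]

theorem bci (h : Api) : BCI := by
  intro ι _ _ d O c g W
  have e : (Mor.fst g.F W).map (Mor.id ptT) = (Mor.fst _ W).comp (Mor.rot g.F W ptT) := by
    rw [Mor.rot, Mor.fst_lift]
  have hr : (Mor.rot g.F W ptT).Flat := iso_flat Mor.rot_rot Mor.rot_rot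
  refine ⟨e ▸ (flat_fst _ _).comp hr, ?_, ?_⟩
  · have k1 : ∀ γ : Unit → ℤ, (fun o : Option Unit => o.elim 0 fun _ => γ ()) =
        γ () • (Pi.single (some ()) 1 : Option Unit → ℤ) := fun γ =>
      funext fun o => by rcases o with _ | ⟨⟨⟩⟩ <;> simp
    have k2 : ∀ γ : Unit → ℤ, γ () • (Pi.single (.inr ()) 1 : g.F.J ⊕ Unit → ℤ) =
        Sum.elim (0 : g.F.J → ℤ) γ := fun γ => funext fun o => by rcases o with _ | ⟨⟨⟩⟩ <;> simp
    have e' : ∀ ρ : (Unit → ℤ) →+ (O.Q.J → ℤ), (∀ γ, ρ γ = γ () • Pi.single (some ()) 1) →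
        (Mor.toPt O.Q Unit ρ).comp g.i = Mor.snd g.F ptT := fun ρ hρ =>
      Mor.eq_of (fun r => DFunLike.congr_fun (Subsingleton.elim (α := ℂ →ₐ[ℂ] (g.F.prod ptT).R)
        _ _) r) fun γ => (congrArg g.i.ρ (hρ γ)).trans ((map_zsmul g.i.ρ _ _).trans
          ((congrArg (γ () • ·) g.it).trans (k2 γ)))
    rw [piW, Mor.lift_comp, Mor.mid, Mor.snd_lift, Mor.comp_assoc, Mor.fst_lift, ← Mor.comp_assoc,
      e', Mor.snd_map, Mor.map]
    exact k1
  · haveI := g.emp
    haveI : IsEmpty (g.P.mapId W).E := g.emp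
    rw [mid_eq, e]
    let P' := (g.P.mapId W).comp (isoPrj (r := Mor.rot g.F W ptT) Mor.rot_rot Mor.rot_rot)
      fun e => e.elim
    haveI : IsEmpty P'.E := inferInstanceAs (IsEmpty (Empty ⊕ g.P.E))
    refine ⟨P', fun x => ?_⟩
    rw [pullG_comp (flat_fst _ _) hr, push_iso Mor.rot_rot Mor.rot_rot (g.P.mapId W), h.push_bc]

theorem pullK_tK {U V : Spc} (f : Mor U V) (k : ℤ) :
    pullK (f.map (Mor.id ptT)) (tK V k) = tK U k := by
  rw [tK, ← pullK_comp, Mor.snd_map, Mor.id_comp, tK]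

theorem push_tK {U V : Spc} {f : Mor U V} (P : Prj (f.map (Mor.id ptT))) (k : ℤ) (a) (u) :
    push P (kact _ (tK U k * a) u) = kact _ (tK V k) (push P (kact _ a u)) := by
  rw [kact_mul, ← pullK_tK f, push_proj]

theorem push_fst (h : Api) {X W : Spc} {e n : ℕ} (hX : X.IsVar e) (hW : W.IsVar n)
    (P : Prj ((Mor.snd X W).map (Mor.id ptT))) (v : G (X.prod W)) :
    push P (pullG (Mor.fst _ ptT) v) = pullG (Mor.fst W ptT) (fstar (Mor.snd X W) v) := by
  obtain ⟨Q⟩ := h.prj_snd W hX.proj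
  rw [h.fstar_push (h.var_prod hX hW).proj hW.proj Q, h.push_bc Q]

theorem tr (h : Api) (hk : KDEC) : TR := by
  intro X F W e nW hX hF hW j0 PX PF x
  refine ⟨fun a => ?_, fun k a u v => ⟨push_tK PX k a u, push_fst h hX hW PX v⟩⟩
  have pX := (h.var_prod hX hW).proj
  have pF := (h.var_prod hF hW).proj
  induction hk _ _ (h.var_prod hF hW) a using AddSubgroup.closure_induction with
  | mem a ha =>
    obtain ⟨k, b, rfl⟩ := ha
    rw [map_mul (pullK _), pullK_tK, ← pullK_comp, Mor.fst_map, pullK_comp, push_tK, push_tK,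
      ← pullG_kact (flat_fst _ _), ← pullG_kact (flat_fst _ _), push_fst h hF hW, push_fst h hX hW,
      ← h.fstar_bc j0 W hX.proj hF.proj hW.proj, ← h.fstar_proj _ pX pF,
      ← h.fstar_comp _ _ pX pF hW.proj, Mor.snd_map, Mor.id_comp]
  | zero => simp only [map_zero, AddMonoidHom.zero_apply]
  | add a b _ _ ha hb => simp only [map_add, AddMonoidHom.add_apply, ha, hb]
  | neg a _ ha => simp only [map_neg, AddMonoidHom.neg_apply, ha]

end Lc

end Vale.Agent.P297Z
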