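import Vale.Agent.P297Z.Loc.ApiA
import Vale.Agent.P297Z.Loc.Main
import Vale.Agent.P297Z.Loc.Pf
import Vale.Agent.P297Z.Loc.Tr
import Vale.Agent.P297Z.Loc.RegF
import Vale.Agent.P297Z.Loc.Fix2
import Vale.Agent.P297Z.Loc.Fix3
import Vale.Agent.P297Z.Loc.Lead
import Vale.Agent.P297Z.Loc.Key
import Vale.Agent.P297Z.Loc.Geo
import Vale.Agent.P297Z.Loc.Ob

/-!
# P297: the localisation theorem from the remaining geometric pieces
-/

namespace Vale.Agent.P297Z.Lc

theorem loc_of' (h : Api) (h1 : DIMJ) (h2 : SURJF) : LOC :=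
  loc_of h api2 (geo h h1) prw (bci h) reg (ob h) (fix2 h) (fix3 h) pf1 pf2 h2 (tr h kdec) tf
    (lmul h kdec) (key h (lmul h kdec)) (res h)

end Vale.Agent.P297Z.Lc
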