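import Vale.Agent.P297Z.Loc.Defs
import Vale.Agent.P297Z.Dim.Irr

/-!
# P297: maps which are bijective on orbits
-/

set_option linter.all false

namespace Vale.Agent.P297Z.Lc

open Dim

theorem dimj : DIMJ := fun _ _ _ hX hY hi hs =>
  ⟨fun _ => hasDim_iff hX.free hY.free hi hs, irr_of_surj hs⟩

theorem fd_succ (X : Spc) (d : ℕ) : Fd X d ≤ Fd X (d + 1) :=
  AddSubgroup.closure_mono fun _ ⟨M, h, e⟩ => ⟨M, h.trans_le (Nat.cast_le.2 (by omega)), e⟩

theorem oG_mem {X : Spc} {d : ℕ} (h : X.HasDim d) : oG X ∈ Fd X (d + 1) :=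
  AddSubgroup.subset_closure ⟨_, (ringKrullDim_quotient_le _).trans_lt
    (h.trans_lt (Nat.cast_lt.2 (by omega))), rfl⟩

theorem surjf (h : Api) (hd : DIMJ) : SURJF := by
  intro X Y f hX hY hi hs d
  change Fd Y d ≤ (Fd X d).map (fstar f)
  induction d with
  | zero => rw [h.Fd_zero hY]; exact bot_le
  | succ d ih =>
    have ih' := ih.trans (AddSubgroup.map_mono (fd_succ X d))
    refine (h.Fd_gen hY d).trans (sup_le ih' ((AddSubgroup.closure_le _).2 ?_))
    rintro _ ⟨S, hS, hc, hv, rfl⟩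
    have hS' := stab_preimage f hS
    have hX' := h.proj_sub _ hS' hX
    let f' := (f.comp (Mor.incl X _ hS')).toSub S hS (Mor.incl_mem hS' (clo_preimage f hc))
    have hi' : f'.Inj := fun z z' e =>
      (Spc.orb_sub _ hS' _ _).2 (hi _ _ ((Mor.incl Y S hS).orb e))
    have hs' : f'.Surj := fun y => by
      obtain ⟨x, hx⟩ := hs ((Mor.incl Y S hS).onPt y)
      obtain ⟨x, rfl⟩ := exists_incl hS' (hS _ (Mor.incl_mem hS hc y) _ hx.symm)
      exact ⟨x, (Spc.orb_sub _ hS _ _).2 hx⟩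
    have h1 := ((hd _ _ f' hX' hv.proj hi' hs').1 d).2 hv.dim
    obtain ⟨c, -, h2, h3⟩ := h.deg _ _ f' d hX' hv.proj ⟨hv.dom, hv.ne⟩ h1 hv.dim hs'
    rw [h3 hi', one_smul] at h2
    have h4 := ih' (h.fstar_Fd (Mor.incl Y S hS) hv.proj hY d _ h2)
    rw [map_sub, ← h.fstar_comp f' _ hX' hv.proj hY,
      show (Mor.incl Y S hS).comp f' = _ from incl_toSub _ _ _, h.fstar_comp _ f hX' hX hY] at h4
    have h5 := sub_mem (AddSubgroup.mem_map_of_mem (fstar f)
      (h.fstar_Fd (Mor.incl X _ hS') hX' hX _ _ (oG_mem h1))) h4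
    rwa [sub_sub_cancel] at h5

end Vale.Agent.P297Z.Lc
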