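import Vale.Agent.P297Z.Loc.Api
import Vale.Agent.P297Z.Loc.FinA
import Vale.Agent.P297Z.Loc.Surj

/-!
# P297: the localisation theorem
-/

namespace Vale.Agent.P297Z

theorem loc : LOC := Lc.loc_of' Lc.api Lc.dimj (Lc.surjf Lc.api Lc.dimj)

end Vale.Agent.P297Z
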