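import Vale.Agent.P297Z.Loc.FG

/-!
# P297: the Koszul complex of a graded module
-/

set_option linter.all false

open scoped TensorProduct

noncomputable section

namespace Vale.Agent.P297Z.Sg

open exteriorPower Submodule

variable {A C N N' N'' : Type} [CommRing A] [AddCommGroup C] [Module A C] [AddCommGroup N]
  [Module A N] [AddCommGroup N'] [Module A N'] [AddCommGroup N''] [Module A N'']

variable (A) in
/-- the exterior power -/
def Ex (i : ℕ) (C : Type) [AddCommGroup C] [Module A C] : Type := ⋀[A]^i C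

instance (i : ℕ) : AddCommGroup (Ex A i C) := inferInstanceAs (AddCommGroup (⋀[A]^i C))
instance (i : ℕ) : Module A (Ex A i C) := inferInstanceAs (Module A (⋀[A]^i C))
instance (i : ℕ) [Module.Finite A C] : Module.Finite A (Ex A i C) :=
  inferInstanceAs (Module.Finite A (⋀[A]^i C))

variable (A) in
/-- the product of vectors -/
def im (i : ℕ) : C [⋀^Fin i]→ₗ[A] Ex A i C := ιMulti A i

/-- the universal property -/
def exl {i : ℕ} (f : C [⋀^Fin i]→ₗ[A] N) : Ex A i C →ₗ[A] N := alternatingMapLinearEquiv f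

theorem exl_im {i : ℕ} (f : C [⋀^Fin i]→ₗ[A] N) (v : Fin i → C) : exl f (im A i v) = f v :=
  alternatingMapLinearEquiv_apply_ιMulti f v

/-- one term of the differential -/
def kf (i : ℕ) (μ : C →ₗ[A] N →ₗ[A] N') :
    C →ₗ[A] C [⋀^Fin i]→ₗ[A] (N →ₗ[A] Ex A i C ⊗[A] N') where
  toFun c := ((TensorProduct.mk A (Ex A i C) N').compl₂ (μ c)).compAlternatingMap (im A i)
  map_add' c c' := by ext v n; simp [TensorProduct.tmul_add]
  map_smul' r c := by ext v n; simp

/-- the differential -/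
def kd (i : ℕ) (μ : C →ₗ[A] N →ₗ[A] N') : Ex A (i + 1) C ⊗[A] N →ₗ[A] Ex A i C ⊗[A] N' :=
  TensorProduct.lift (exl (N := N →ₗ[A] Ex A i C ⊗[A] N')
    (AlternatingMap.alternatizeUncurryFin (kf i μ)))

theorem kd_tmul (i : ℕ) (μ : C →ₗ[A] N →ₗ[A] N') (v : Fin (i + 1) → C) (n : N) :
    kd i μ (im A (i + 1) v ⊗ₜ n) =
      ∑ j : Fin (i + 1), (-1 : ℤ) ^ (j : ℕ) • im A i (j.removeNth v) ⊗ₜ μ (v j) n := by
  rw [kd, TensorProduct.lift.tmul, exl_im,
    AlternatingMap.alternatizeUncurryFin_apply, LinearMap.sum_apply]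
  rfl

/-- the exterior product with a vector -/
def wedge (i : ℕ) (c : C) : Ex A i C →ₗ[A] Ex A (i + 1) C :=
  exl ((im A (i + 1)).curryLeft c)

theorem wedge_im (i : ℕ) (c : C) (v : Fin i → C) :
    wedge i c (im A i v) = im A (i + 1) (Fin.cons c v) := by
  rw [wedge, exl_im]
  rfl

theorem ind_ext {i : ℕ} {P : Ex A i C → Prop} (h0 : P 0) (ha : ∀ x y, P x → P y → P (x + y))
    (hs : ∀ (a : A) x, P x → P (a • x)) (h : ∀ v, P (im A i v)) (x : Ex A i C) : P x := by
  have hx : x ∈ span A (Set.range (im A i (C := C))) :=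
    (ιMulti_span A i C).ge mem_top
  induction hx using span_induction with
  | mem y hy => obtain ⟨v, rfl⟩ := hy; exact h v
  | zero => exact h0
  | add y y' _ _ h h' => exact ha _ _ h h'
  | smul a y _ h => exact hs _ _ h

theorem ind_ten {i : ℕ} {P : Ex A i C ⊗[A] N → Prop} (h0 : P 0) (ha : ∀ x y, P x → P y → P (x + y))
    (h : ∀ v n, P (im A i v ⊗ₜ n)) (x : Ex A i C ⊗[A] N) : P x := by
  induction x with
  | zero => exact h0
  | add x y hx hy => exact ha x y hx hy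
  | tmul y n =>
    induction y using ind_ext generalizing n with
    | h0 => rwa [TensorProduct.zero_tmul]
    | ha x y hx hy => rw [TensorProduct.add_tmul]; exact ha _ _ (hx n) (hy n)
    | hs a x hx => rw [TensorProduct.smul_tmul]; exact hx _
    | h v => exact h v n

theorem homot0 (μ : C →ₗ[A] N →ₗ[A] N') (c : C) (x : Ex A 0 C ⊗[A] N) :
    kd 0 μ ((wedge 0 c).rTensor N x) = (μ c).lTensor _ x := by
  induction x using ind_ten with
  | h0 => simp only [map_zero]
  | ha x y hx hy => simp only [map_add, hx, hy]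
  | h v n =>
    rw [LinearMap.rTensor_tmul, wedge_im, kd_tmul, LinearMap.lTensor_tmul, Fin.sum_univ_succ]
    simp

theorem homot (i : ℕ) (μ : C →ₗ[A] N →ₗ[A] N') (c : C) (x : Ex A (i + 1) C ⊗[A] N) :
    kd (i + 1) μ ((wedge (i + 1) c).rTensor N x) =
      (μ c).lTensor _ x - (wedge i c).rTensor N' (kd i μ x) := by
  induction x using ind_ten with
  | h0 => simp only [map_zero, sub_zero]
  | ha x y hx hy => simp only [map_add, hx, hy]; abel
  | h v n =>
    rw [LinearMap.rTensor_tmul, wedge_im, kd_tmul, LinearMap.lTensor_tmul, kd_tmul,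
      Fin.sum_univ_succ, map_sum, sub_eq_add_neg, ← Finset.sum_neg_distrib]
    congr 1
    · simp
    · refine Finset.sum_congr rfl fun j _ => ?_
      have e : j.succ.removeNth (Fin.cons c v : Fin (i + 2) → C) = Fin.cons c (j.removeNth v) := by
        funext k
        refine Fin.cases ?_ (fun k => ?_) k <;> simp [Fin.removeNth]
      rw [map_zsmul, LinearMap.rTensor_tmul, wedge_im, e, Fin.val_succ, pow_succ, mul_neg_one,
        neg_smul, Fin.cons_succ]

variable {μ : C →ₗ[A] N →ₗ[A] N'} {μ' : C →ₗ[A] N' →ₗ[A] N''}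

theorem kd_comm (comm : ∀ c c' x, μ' c (μ c' x) = μ' c' (μ c x)) (i : ℕ) (c : C)
    (x : Ex A (i + 1) C ⊗[A] N) :
    kd i μ' ((μ c).lTensor _ x) = (μ' c).lTensor _ (kd i μ x) := by
  induction x using ind_ten with
  | h0 => simp only [map_zero]
  | ha x y hx hy => simp only [map_add, hx, hy]
  | h v n => simp only [LinearMap.lTensor_tmul, kd_tmul, map_sum, map_zsmul, comm c]

theorem kd_kd (comm : ∀ c c' x, μ' c (μ c' x) = μ' c' (μ c x)) (i : ℕ)
    (x : Ex A (i + 1 + 1) C ⊗[A] N) : kd i μ' (kd (i + 1) μ x) = 0 := by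
  induction i with
  | zero =>
    induction x using ind_ten with
    | h0 => simp only [map_zero]
    | ha x y hx hy => simp only [map_add, hx, hy, add_zero]
    | h v n =>
      rw [← Fin.cons_self_tail v, ← wedge_im, ← LinearMap.rTensor_tmul, homot, map_sub,
        kd_comm comm, homot0, sub_self]
  | succ i ih =>
    induction x using ind_ten with
    | h0 => simp only [map_zero]
    | ha x y hx hy => simp only [map_add, hx, hy, add_zero]
    | h v n =>
      rw [← Fin.cons_self_tail v, ← wedge_im, ← LinearMap.rTensor_tmul, homot, map_sub,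
        kd_comm comm, homot, ih, map_zero, sub_zero, sub_self]

theorem surj_ten (E : Type) [AddCommGroup E] [Module A E] {T : Submonoid A}
    (h : ∀ x : N', ∃ r ∈ T, r • x ∈ map₂ μ ⊤ ⊤) (x : E ⊗[A] N') :
    ∃ r ∈ T, r • x ∈ map₂ (LinearMap.lTensorHom E ∘ₗ μ) ⊤ ⊤ := by
  induction x with
  | zero => exact ⟨1, T.one_mem, by simp⟩
  | add x y hx hy =>
    obtain ⟨r, hr, hx⟩ := hx
    obtain ⟨s, hs, hy⟩ := hy
    refine ⟨r * s, T.mul_mem hr hs, ?_⟩
    rw [smul_add]
    exact add_mem (by rw [mul_comm, mul_smul]; exact smul_mem _ _ hx)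
      (by rw [mul_smul]; exact smul_mem _ _ hy)
  | tmul e n =>
    obtain ⟨r, hr, hn⟩ := h n
    refine ⟨r, hr, ?_⟩
    rw [← TensorProduct.tmul_smul]
    have k : map₂ μ ⊤ ⊤ ≤ (map₂ (LinearMap.lTensorHom E ∘ₗ μ) ⊤ ⊤).comap
        (TensorProduct.mk A E N' e) := map₂_le.2 fun c _ y _ =>
      apply_mem_map₂ (LinearMap.lTensorHom E ∘ₗ μ) (m := c) (n := e ⊗ₜ y) mem_top mem_top
    exact k hn

theorem kd_surj {T : Submonoid A} (h : ∀ x : N', ∃ r ∈ T, r • x ∈ map₂ μ ⊤ ⊤)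
    (x : Ex A 0 C ⊗[A] N') : ∃ r ∈ T, r • x ∈ LinearMap.range (kd 0 μ) := by
  have k : map₂ (LinearMap.lTensorHom (Ex A 0 C) ∘ₗ μ) ⊤ ⊤ ≤ LinearMap.range (kd 0 μ) :=
    map₂_le.2 fun c _ y _ => ⟨_, homot0 μ c y⟩
  exact (surj_ten _ h x).imp fun r hr => ⟨hr.1, k hr.2⟩

theorem kd_exact [IsNoetherianRing A] [Module.Finite A C] {P : ℤ → Type} [∀ l, AddCommGroup (P l)]
    [∀ l, Module A (P l)] [∀ l, Module.Finite A (P l)] {ω : ℤ} (hω : 0 < ω)
    (ν : ∀ l, C →ₗ[A] P l →ₗ[A] P (l + ω))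
    (comm : ∀ l c c' x, ν (l + ω) c (ν l c' x) = ν (l + ω) c' (ν l c x)) (l₀ : ℤ) (i : ℕ) :
    ∃ l₁, ∀ T : Submonoid A, (∀ l ≥ l₀, ∀ x : P (l + ω), ∃ r ∈ T, r • x ∈ map₂ (ν l) ⊤ ⊤) →
      ∀ l ≥ l₁, ∀ x, kd i (ν (l + ω)) x = 0 →
        ∃ r ∈ T, r • x ∈ LinearMap.range (kd (i + 1) (ν l)) := by
  obtain ⟨l₁, h⟩ := fg (P := fun l => Ex A (i + 1) C ⊗[A] P l)
    (fun l => LinearMap.lTensorHom _ ∘ₗ ν l) hω (fun l c c' x => by
      change ((ν _ c).lTensor _ ∘ₗ (ν l c').lTensor _) x = ((ν _ c').lTensor _ ∘ₗ (ν l c).lTensor _) x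
      rw [← LinearMap.lTensor_comp, ← LinearMap.lTensor_comp]
      congr 2
      exact LinearMap.ext (comm l c c'))
    (fun l => LinearMap.ker (kd i (ν l))) (fun l c x hx => by
      change kd i _ ((ν l c).lTensor _ x) = 0
      rw [kd_comm (comm l), LinearMap.mem_ker.1 hx, map_zero]) l₀
  have k : ∀ l, map₂ (LinearMap.lTensorHom (Ex A (i + 1) C) ∘ₗ ν l) ⊤
      (LinearMap.ker (kd i (ν l))) ≤ LinearMap.range (kd (i + 1) (ν l)) := fun l =>
    map₂_le.2 fun c _ y hy => ⟨(wedge (i + 1) c).rTensor _ y, by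
      rw [homot, LinearMap.mem_ker.1 hy, map_zero, sub_zero]
      rfl⟩
  exact ⟨l₁, fun T hT l hl x hx => (h T (fun l hl => surj_ten _ (hT l hl)) l hl x hx).imp
    fun r hr => ⟨hr.1, k l hr.2⟩⟩

end Vale.Agent.P297Z.Sg
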