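import Vale.Agent.P297Z.K.Fib
import Vale.Agent.P297Z.K.AK1
import Vale.Agent.P297Z.Top.Loc

/-!
# P297: the coefficients of a module on `X × ptT`
-/

set_option linter.all false

open scoped TensorProduct

noncomputable section

namespace Vale.Agent.P297Z

variable {W X : Spc}

/-- the ring of `X × ptT` is the ring of `X` -/
def ridT (X : Spc) : (X.prod ptT).R ≃ₐ[ℂ] X.R := Algebra.TensorProduct.rid ℂ ℂ X.R

theorem ridT_fst (r : X.R) : ridT X ((Mor.fst X ptT).φ r) = r :=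
  (Algebra.TensorProduct.rid_tmul ℂ (1 : ℂ) r).trans (one_smul ℂ r)

theorem fst_ridT (s : (X.prod ptT).R) : (Mor.fst X ptT).φ (ridT X s) = s :=
  (ridT X).injective (ridT_fst _)

theorem exists_fstT (s : (X.prod ptT).R) : ∃ r, (Mor.fst X ptT).φ r = s := ⟨_, fst_ridT s⟩

theorem tor_fstT (g : (X.prod ptT).J → ℂˣ) : tor (Mor.fst X ptT).ρ g = fun j => g (.inl j) :=
  chr_ext fun γ => by
    rw [chr_tor]
    exact (chr_sum_type _ _).trans (by
      show chr γ _ * chr 0 _ = _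
      rw [chr_zero, mul_one])

theorem act_fstT (g : (X.prod ptT).J → ℂˣ) (r : X.R) :
    (X.prod ptT).act g ((Mor.fst X ptT).φ r) =
      (Mor.fst X ptT).φ (X.act (fun j => g (.inl j)) r) := by
  rw [← Mor.act_map, tor_fstT]

/-- the torus of `X` inside the torus of `X × ptT` -/
def gL (g : X.J → ℂˣ) : (X.prod ptT).J → ℂˣ := Sum.elim g 1

/-- the last factor of the torus of `X × ptT` -/
def gR (X : Spc) (h : Unit → ℂˣ) : (X.prod ptT).J → ℂˣ := Sum.elim 1 h

theorem act_gR (h : Unit → ℂˣ) (s : (X.prod ptT).R) : (X.prod ptT).act (gR X h) s = s := by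
  obtain ⟨r, rfl⟩ := exists_fstT s
  rw [act_fstT]
  exact congrArg _ (X.act_one r)

theorem eq_gL_mul (g : (X.prod ptT).J → ℂˣ) :
    g = gL (fun j => g (.inl j)) * gR X fun j => g (.inr j) :=
  funext fun j => by
    cases j
    · exact (mul_one _).symm
    · exact (one_mul _).symm

theorem chr_gL (δ : (X.prod ptT).J → ℤ) (g : X.J → ℂˣ) :
    chr δ (gL g) = chr (fun j => δ (.inl j)) g :=
  (chr_sum_type _ _).trans ((congrArg (_ * ·) (chr_one _)).trans (mul_one _))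

theorem chr_gR (δ : (X.prod ptT).J → ℤ) (h : Unit → ℂˣ) :
    chr δ (gR X h) = chr (fun u : Unit => δ (.inr u)) h :=
  (chr_sum_type _ _).trans ((congrArg (· * _) (chr_one _)).trans (one_mul _))

/-- the point of `X × ptT` over a point of `X` -/
def ptOf (x : X.Pt) : (X.prod ptT).Pt :=
  ⟨x.1.comp (ridT X : (X.prod ptT).R →ₐ[ℂ] X.R), (Spc.prod_pt X ptT _).2
    ⟨x.2.imp fun f h => ⟨h.1, fun e => h.2 ((congrArg x.1 (ridT_fst f)).symm.trans e)⟩,
      (1 : ℂ), trivial, fun e => one_ne_zero ((map_one _).symm.trans e)⟩⟩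

theorem ptOf_apply (x : X.Pt) (s : (X.prod ptT).R) : (ptOf x).1 s = x.1 (ridT X s) := rfl

theorem ptOf_fst (x : X.Pt) (r : X.R) : (ptOf x).1 ((Mor.fst X ptT).φ r) = x.1 r :=
  congrArg x.1 (ridT_fst r)

theorem onPt_ptOf (x : X.Pt) : (Mor.fst X ptT).onPt (ptOf x) = x :=
  Subtype.ext (AlgHom.ext (ptOf_fst x))

theorem ptOf_onPt (z : (X.prod ptT).Pt) : ptOf ((Mor.fst X ptT).onPt z) = z :=
  Subtype.ext (AlgHom.ext fun s => congrArg z.1 (fst_ridT s))

theorem exists_ptOf (z : (X.prod ptT).Pt) : ∃ x, ptOf x = z := ⟨_, ptOf_onPt z⟩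

theorem nonempty_pt_of_nontrivial (X : Spc) [Nontrivial X.R] : Nonempty X.Pt := by
  by_contra h
  exact one_ne_zero (X.sep 1 fun z hz => (h ⟨⟨z, hz⟩⟩).elim)

/-- the degree of `t ^ k` -/
def tdeg (X : Spc) (k : ℤ) : (X.prod ptT).J → ℤ := Sum.elim 0 fun _ => k

/-- the action of the last factor of the torus -/
def actT (M : GMod (X.prod ptT)) : (Unit → ℂˣ) → M.M →ₗ[ℂ] M.M := fun h => M.act (gR X h)

variable {M A B C : GMod (X.prod ptT)} {k : ℤ}

theorem mem_wtT {δ : (X.prod ptT).J → ℤ} {m : M.M} (hm : m ∈ M.wt δ) :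
    m ∈ wt (actT M) fun u => δ (.inr u) := fun h => by
  show M.act (gR X h) m = _
  rw [M.mem_wt.1 hm, chr_gR]

theorem spanT (M : GMod (X.prod ptT)) : ⨆ k, wt (actT M) k = ⊤ :=
  iSup_wt_eq_top fun m => M.induction (P := fun m => m ∈ ⨆ k, wt (actT M) k)
    (Submodule.zero_mem _) (fun _ _ hm => mem_iSup_wt (mem_wtT hm))
    (fun _ _ hx hy => Submodule.add_mem _ hx hy) m

theorem smul_mem_wtT {κ : Unit → ℤ} (s : (X.prod ptT).R) {m : M.M} (hm : m ∈ wt (actT M) κ) :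
    s • m ∈ wt (actT M) κ := fun h => by
  have e : M.act (gR X h) m = chr κ h • m := hm h
  show M.act (gR X h) (s • m) = _
  rw [M.act_smul, act_gR, e, smul_comm]

theorem act_mem_wtT {κ : Unit → ℤ} (g : (X.prod ptT).J → ℂˣ) {m : M.M}
    (hm : m ∈ wt (actT M) κ) : M.act g m ∈ wt (actT M) κ := fun h => by
  have e : M.act (gR X h) m = chr κ h • m := hm h
  show M.act (gR X h) (M.act g m) = _
  rw [← M.act_mul, mul_comm, M.act_mul, e, map_smul]

theorem map_mem_wtT {u : A.M →ₗ[(X.prod ptT).R] B.M} (hu : A.IsHom B u) {κ : Unit → ℤ} {m : A.M}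
    (hm : m ∈ wt (actT A) κ) : u m ∈ wt (actT B) κ := fun h => by
  have e : A.act (gR X h) m = chr κ h • m := hm h
  show B.act (gR X h) (u m) = _
  rw [← hu, e, LinearMap.map_smul_of_tower]

/-- the projection to the coefficient of `t ^ k` -/
def cmpT (k : ℤ) (M : GMod (X.prod ptT)) : M.M →ₗ[(X.prod ptT).R] M.M where
  toFun := cmp (spanT M) fun _ => -k
  map_add' := map_add _
  map_smul' := fun s m =>
    (map_cmp (spanT M) (spanT M) (DistribSMul.toAddMonoidHom M.M s) (fun k => k)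
      Function.injective_id (fun _ _ hv => smul_mem_wtT s hv) _ m).symm

theorem cmpT_mem (k : ℤ) (m : M.M) : cmpT k M m ∈ wt (actT M) fun _ => -k := cmp_mem (spanT M) _ _

theorem cmpT_of_mem {m : M.M} (h : m ∈ wt (actT M) fun _ => -k) : cmpT k M m = m :=
  cmp_of_mem (spanT M) h

theorem cmpT_of_ne {l : ℤ} (hne : l ≠ k) {m : M.M} (h : m ∈ wt (actT M) fun _ => -l) :
    cmpT k M m = 0 := cmp_of_ne (spanT M) (fun e => hne (neg_injective (congrFun e ()))) h

theorem map_cmpT {u : A.M →ₗ[(X.prod ptT).R] B.M} (hu : A.IsHom B u) (k : ℤ) (m : A.M) :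
    u (cmpT k A m) = cmpT k B (u m) :=
  map_cmp (spanT A) (spanT B) u.toAddMonoidHom (fun k => k) Function.injective_id
    (fun _ _ hv => map_mem_wtT hu hv) _ m

theorem cmpT_fin (M : GMod (X.prod ptT)) : ∃ s : Finset ℤ, (∀ k ∉ s, ∀ m, cmpT k M m = 0) ∧
    ∀ m, ∑ k ∈ s, cmpT k M m = m := by
  classical
  obtain ⟨T, w, hw, hT⟩ := M.exists_gens (X.prod ptT).R
  have h : ∀ t ∈ T, t ∈ wt (actT M) fun _ => - -w t (.inr ()) := fun t ht => by
    rw [neg_neg]; exact mem_wtT (hw t ht)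
  refine ⟨T.image fun t => -w t (.inr ()), fun k hk m => ?_, fun m => ?_⟩
  · refine (LinearMap.ext_on hT (g := 0) fun t ht => ?_ : cmpT k M = 0) ▸ rfl
    exact cmpT_of_ne (fun e => hk (Finset.mem_image.2 ⟨t, ht, e⟩)) (h t ht)
  · rw [← LinearMap.sum_apply]
    refine LinearMap.congr_fun (LinearMap.ext_on hT (g := LinearMap.id) fun t ht => ?_) m
    rw [LinearMap.sum_apply, Finset.sum_eq_single (-w t (.inr ())), cmpT_of_mem (h t ht)]
    · rfl
    · exact fun l _ hl => cmpT_of_ne hl.symm (h t ht)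
    · exact fun hn => (hn (Finset.mem_image.2 ⟨t, ht, rfl⟩)).elim

theorem sum_cmpT {s : Finset ℤ} (hs : ∀ k ∉ s, ∀ m, cmpT k M m = 0) (m : M.M) :
    ∑ k ∈ s, cmpT k M m = m := by
  classical
  obtain ⟨t, h1, h2⟩ := cmpT_fin M
  rw [Finset.sum_subset (Finset.subset_union_left (s₂ := t)) fun k _ hk => hs k hk m,
    ← Finset.sum_subset (Finset.subset_union_right (s₁ := s)) fun k _ hk => h1 k hk m, h2]

instance (M : GMod (X.prod ptT)) : Module.Finite X.R ((Mor.fst X ptT).Res M) := by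
  obtain ⟨s, hs⟩ : (⊤ : Submodule (X.prod ptT).R M.M).FG := Module.Finite.fg_top
  refine ⟨s, eq_top_iff.2 fun x _ => ?_⟩
  have hx : ((Mor.fst X ptT).toRes M).symm x ∈ Submodule.span (X.prod ptT).R (s : Set M.M) :=
    hs ▸ Submodule.mem_top
  refine Submodule.span_induction (p := fun (m : M.M) _ => (Mor.fst X ptT).toRes M m ∈
    Submodule.span X.R (show Set ((Mor.fst X ptT).Res M) from (s : Set M.M)))
    (fun _ h => Submodule.subset_span h) (Submodule.zero_mem _)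
    (fun _ _ _ _ h h' => Submodule.add_mem _ h h') (fun r m _ h => ?_) hx
  obtain ⟨r, rfl⟩ := exists_fstT r
  exact Submodule.smul_mem _ r h

/-- the coefficient of `t ^ k`, as a submodule -/
def tpS (k : ℤ) (M : GMod (X.prod ptT)) : Submodule X.R ((Mor.fst X ptT).Res M) where
  carrier := {m | ((Mor.fst X ptT).toRes M).symm m ∈ wt (actT M) fun _ => -k}
  add_mem' := fun ha hb => Submodule.add_mem (wt (actT M) fun _ => -k) ha hb
  zero_mem' := Submodule.zero_mem (wt (actT M) fun _ => -k)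
  smul_mem' := fun r _ hm => smul_mem_wtT ((Mor.fst X ptT).φ r) hm

theorem mem_wt_elim {γ : X.J → ℤ} {κ : Unit → ℤ} {m : M.M} (hm : m ∈ wt (actT M) κ) :
    (∀ g, M.act (gL g) m = chr γ g • m) ↔ m ∈ M.wt (Sum.elim γ κ) := by
  refine ⟨fun h g => ?_, fun h g => (h (gL g)).trans (congrArg (· • m) (chr_gL _ g))⟩
  have e : M.act (gR X fun j => g (.inr j)) m = _ := hm _
  conv_lhs => rw [eq_gL_mul g, M.act_mul, e, map_smul, h, smul_smul, mul_comm]
  exact congrArg (· • m) (chr_sum_type (Sum.elim γ κ) g).symm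

/-- the coefficient of `t ^ k` -/
def tp (k : ℤ) (M : GMod (X.prod ptT)) : GMod X where
  M := tpS k M
  fin := inferInstance
  act := fun h =>
    { toFun := fun m => ⟨M.act (gL h) m.1, act_mem_wtT _ m.2⟩
      map_add' := fun a b => Subtype.ext (map_add (M.act (gL h)) a.1 b.1)
      map_smul' := fun c a => Subtype.ext (map_smul (M.act (gL h)) c a.1) }
  act_smul := fun h r m => Subtype.ext (by
    show M.act (gL h) ((Mor.fst X ptT).φ r • ((Mor.fst X ptT).toRes M).symm m.1) =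
      (Mor.fst X ptT).φ (X.act h r) • M.act (gL h) (((Mor.fst X ptT).toRes M).symm m.1)
    rw [M.act_smul, act_fstT]
    rfl)
  span := iSup_wt_eq_top fun m => by
    obtain ⟨m, hm⟩ := m
    obtain ⟨s, e, -⟩ := M.exists_sum_cmp m
    have hc : ∀ δ, M.cmp δ m ∈ wt (actT M) fun _ => -k :=
      cmp_mem_stab M.span _ (fun g v hv => act_mem_wtT g hv) hm
    have e' : (⟨m, hm⟩ : tpS k M) = ∑ δ ∈ s, (⟨M.cmp δ m, hc δ⟩ : tpS k M) :=
      Subtype.ext (e.symm.trans (Submodule.coe_sum (tpS k M) (fun δ => ⟨M.cmp δ m, hc δ⟩) s).symm)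
    rw [e']
    refine Submodule.sum_mem _ fun δ _ => mem_iSup_wt (γ := fun j => δ (.inl j)) fun g =>
      Subtype.ext ?_
    show M.act (gL g) (M.cmp δ m) = chr _ g • M.cmp δ m
    rw [M.mem_wt.1 (M.cmp_mem δ m), chr_gL]

/-- the element of `M` -/
def tpVal {k : ℤ} {M : GMod (X.prod ptT)} (m : (tp k M).M) : M.M :=
  ((Mor.fst X ptT).toRes M).symm m.1

theorem tpVal_mem (m : (tp k M).M) : tpVal m ∈ wt (actT M) fun _ => -k := m.2

theorem tpVal_inj {m m' : (tp k M).M} (h : tpVal m = tpVal m') : m = m' := Subtype.ext h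

theorem tpVal_add (m m' : (tp k M).M) : tpVal (m + m') = tpVal m + tpVal m' := rfl

theorem tpVal_zero : tpVal (0 : (tp k M).M) = 0 := rfl

theorem tpVal_smul (r : X.R) (m : (tp k M).M) :
    tpVal (r • m) = (Mor.fst X ptT).φ r • tpVal m := rfl

theorem tpVal_smul' (s : (X.prod ptT).R) (m : (tp k M).M) :
    tpVal (ridT X s • m) = s • tpVal m := by rw [tpVal_smul, fst_ridT]

theorem tpVal_act (g : X.J → ℂˣ) (m : (tp k M).M) :
    tpVal ((tp k M).act g m) = M.act (gL g) (tpVal m) := rfl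

/-- the element of the coefficient -/
def tpMk (m : M.M) (h : m ∈ wt (actT M) fun _ => -k) : (tp k M).M := ⟨m, h⟩

theorem tpVal_mk (m : M.M) (h : m ∈ wt (actT M) fun _ => -k) : tpVal (tpMk m h) = m := rfl

/-- the projection to the coefficient -/
def tpPr (k : ℤ) (M : GMod (X.prod ptT)) (m : M.M) : (tp k M).M := tpMk _ (cmpT_mem k m)

theorem tpVal_pr (m : M.M) : tpVal (tpPr k M m) = cmpT k M m := rfl

theorem tpPr_val (m : (tp k M).M) : tpPr k M (tpVal m) = m := tpVal_inj (cmpT_of_mem m.2)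

theorem tpPr_add (m m' : M.M) : tpPr k M (m + m') = tpPr k M m + tpPr k M m' :=
  tpVal_inj (map_add (cmpT k M) m m')

theorem tpPr_smul (s : (X.prod ptT).R) (m : M.M) : tpPr k M (s • m) = ridT X s • tpPr k M m :=
  tpVal_inj ((map_smul (cmpT k M) s m).trans (tpVal_smul' s (tpPr k M m)).symm)

theorem mem_tp_wt {k : ℤ} {M : GMod (X.prod ptT)} {γ : X.J → ℤ} {m : (tp k M).M} :
    m ∈ (tp k M).wt γ ↔ tpVal m ∈ M.wt (Sum.elim γ fun _ => -k) :=
  Iff.trans ⟨fun h g => congrArg tpVal (h g), fun h g => tpVal_inj (h g)⟩ (mem_wt_elim m.2)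

/-- the map induced on the coefficients -/
def tpMap (k : ℤ) {A B : GMod (X.prod ptT)} (u : A.M →ₗ[(X.prod ptT).R] B.M) (hu : A.IsHom B u) :
    (tp k A).M →ₗ[X.R] (tp k B).M where
  toFun := fun m => ⟨(Mor.fst X ptT).toRes B (u (tpVal m)), map_mem_wtT hu m.2⟩
  map_add' := fun a b => tpVal_inj (map_add u (tpVal a) (tpVal b))
  map_smul' := fun r a => tpVal_inj (map_smul u ((Mor.fst X ptT).φ r) (tpVal a))

theorem tpVal_map {u : A.M →ₗ[(X.prod ptT).R] B.M} (hu : A.IsHom B u) (m : (tp k A).M) :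
    tpVal (tpMap k u hu m) = u (tpVal m) := rfl

theorem tpMap_pr {u : A.M →ₗ[(X.prod ptT).R] B.M} (hu : A.IsHom B u) (m : A.M) :
    tpMap k u hu (tpPr k A m) = tpPr k B (u m) := tpVal_inj (map_cmpT hu k m)

theorem tpMap_isHom (k : ℤ) {A B : GMod (X.prod ptT)} (u : A.M →ₗ[(X.prod ptT).R] B.M)
    (hu : A.IsHom B u) : (tp k A).IsHom (tp k B) (tpMap k u hu) := fun g m =>
  tpVal_inj (hu _ (tpVal m))

section At

variable {f : A.M →ₗ[(X.prod ptT).R] B.M} {g : B.M →ₗ[(X.prod ptT).R] C.M} {x : X.Pt}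

theorem InjAt.tp (hf : A.IsHom B f) (h : InjAt (ptOf x).1 f) : InjAt x.1 (tpMap k f hf) :=
  fun a ha => by
    obtain ⟨r, h1, h2⟩ := h (tpVal a) (congrArg tpVal ha)
    exact ⟨ridT X r, h1, tpVal_inj ((tpVal_smul' r a).trans h2)⟩

theorem SurjAt.tp (hf : A.IsHom B f) (h : SurjAt (ptOf x).1 f) : SurjAt x.1 (tpMap k f hf) :=
  fun b => by
    obtain ⟨r, a, h1, h2⟩ := h (tpVal b)
    exact ⟨ridT X r, tpPr k A a, h1, by rw [tpMap_pr, h2, tpPr_smul, tpPr_val]⟩

theorem ExAt.tp (hf : A.IsHom B f) (hg : B.IsHom C g) (h : ExAt (ptOf x).1 f g) :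
    ExAt x.1 (tpMap k f hf) (tpMap k g hg) := fun b hb => by
  obtain ⟨r, a, h1, h2⟩ := h (tpVal b) (congrArg tpVal hb)
  exact ⟨ridT X r, tpPr k A a, h1, by rw [tpMap_pr, h2, tpPr_smul, tpPr_val]⟩

theorem IsoAt.tp (hf : A.IsHom B f) (h : IsoAt (ptOf x).1 f) : IsoAt x.1 (tpMap k f hf) :=
  isoAt_of (h.injAt.tp hf) (h.surjAt.tp hf)

end At

theorem tp_ses (k : ℤ) {A B C : GMod (X.prod ptT)} {f : A.M →ₗ[(X.prod ptT).R] B.M}
    {g : B.M →ₗ[(X.prod ptT).R] C.M} (h : GMod.SES A B C f g) :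
    GMod.SES (tp k A) (tp k B) (tp k C) (tpMap k f h.1) (tpMap k g h.2.1) :=
  ⟨tpMap_isHom _ _ _, tpMap_isHom _ _ _, fun a => tpVal_inj (h.2.2.1 (tpVal a)), fun x =>
    ⟨(h.2.2.2 (ptOf x)).1.tp _, (h.2.2.2 (ptOf x)).2.1.tp _ _, (h.2.2.2 (ptOf x)).2.2.tp _⟩⟩

theorem tp_qis (k : ℤ) {A B : GMod (X.prod ptT)} {f : A.M →ₗ[(X.prod ptT).R] B.M}
    (h : GMod.Qis A B f) : GMod.Qis (tp k A) (tp k B) (tpMap k f h.1) :=
  ⟨tpMap_isHom _ _ _, fun x => (h.2 (ptOf x)).tp _⟩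

theorem tp_subsingleton (h : ∀ m, cmpT k M m = 0) : Subsingleton (tp k M).M :=
  subsingleton_of_forall_eq 0 fun m => tpVal_inj ((cmpT_of_mem m.2).symm.trans (h _))

theorem cmpT_eq_zero [Subsingleton (tp k M).M] (m : M.M) : cmpT k M m = 0 :=
  congrArg tpVal (Subsingleton.elim (tpPr k M m) 0)

theorem tp_fin (M : GMod (X.prod ptT)) : ∃ s : Finset ℤ, ∀ k ∉ s, Subsingleton (tp k M).M :=
  (cmpT_fin M).imp fun _ h k hk => tp_subsingleton (h.1 k hk)

theorem freeAt_res {x : X.Pt} {r : ℕ} (h : FreeAt (ptOf x).1 M.M r) :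
    FreeAt x.1 ((Mor.fst X ptT).Res M) r := by
  obtain ⟨e, s, g, h1, h2, h3⟩ := h
  refine ⟨{ toFun := fun v => (Mor.fst X ptT).toRes M (e fun i => (Mor.fst X ptT).φ (v i))
            map_add' := fun v w => ?_
            map_smul' := fun c v => ?_ }, ridT X s,
    { toFun := fun m i => ridT X (g (((Mor.fst X ptT).toRes M).symm m) i)
      map_add' := fun v w => funext fun i => ?_
      map_smul' := fun c v => funext fun i => ?_ }, h1, fun v => funext fun i => ?_, fun m => ?_⟩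
  · rw [← map_add, ← map_add]
    exact congrArg _ (congrArg e (funext fun i => map_add _ _ _))
  · rw [RingHom.id_apply, Mor.smul_toRes, ← map_smul]
    exact congrArg _ (congrArg e (funext fun i => map_mul _ _ _))
  · rw [map_add, map_add, Pi.add_apply, map_add, Pi.add_apply]
  · rw [Mor.toRes_symm_smul, map_smul, Pi.smul_apply, smul_eq_mul, map_mul, ridT_fst]
    rfl
  · show ridT X (g (e fun i => (Mor.fst X ptT).φ (v i)) i) = ridT X s * v i
    rw [h2, Pi.smul_apply, smul_eq_mul, map_mul, ridT_fst]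
  · show e (fun i => (Mor.fst X ptT).φ (ridT X (g (((Mor.fst X ptT).toRes M).symm m) i))) =
      (Mor.fst X ptT).φ (ridT X s) • ((Mor.fst X ptT).toRes M).symm m
    simp only [fst_ridT]
    exact h3 _

theorem freeAt_tp {x : X.Pt} {r : ℕ} (h : FreeAt (ptOf x).1 M.M r) (k : ℤ) :
    FreeAt x.1 (tp k M).M (fdim x.1 (tp k M).M) :=
  (freeAt_res h).of_summand (s := (tpS k M).subtype)
    (g := { toFun := fun m => tpPr k M (((Mor.fst X ptT).toRes M).symm m)
            map_add' := fun a b => tpPr_add _ _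
            map_smul' := fun c a => by
              rw [Mor.toRes_symm_smul, tpPr_smul, ridT_fst, RingHom.id_apply] })
    ev_one fun c => (tpPr_val c).trans (one_smul _ _).symm

theorem isBun_of_freeAt [IsDomain X.R] {N : GMod X} (h : ∀ x : X.Pt, ∃ n, FreeAt x.1 N.M n) :
    ∃ n, N.IsBun n := by
  obtain ⟨x₀⟩ := nonempty_pt_of_nontrivial X
  obtain ⟨n, hn⟩ := h x₀
  refine ⟨n, fun x => ?_⟩
  obtain ⟨m, hm⟩ := h x
  exact le_antisymm (hm.rank_le hn) (hn.rank_le hm) ▸ hm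

theorem tp_isBun [IsDomain X.R] {M : GMod (X.prod ptT)} {r : ℕ} (h : M.IsBun r) (k : ℤ) :
    ∃ n, (tp k M).IsBun n := isBun_of_freeAt fun x => ⟨_, freeAt_tp (h (ptOf x)) k⟩

end Vale.Agent.P297Z
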