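import Vale.Agent.P297Z.Loc.ApiA
import Vale.Agent.P297Z.K.Flt

/-!
# P297: the facts used by the localisation theorem
-/

namespace Vale.Agent.P297Z.Lc

theorem api : Api :=
  api_of (fun a _ _ h => Flt.kact_Fl a h) (fun hW _ _ h => Flt.pullG_fst_Fd hW h)
    fun f hX hY _ _ h => Flt.fstar_Fd hX hY f h

end Vale.Agent.P297Z.Lc
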