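import Vale.Agent.P297Z.Loc.ObkA
import Vale.Agent.P297Z.Loc.Ob
import Vale.Agent.P297Z.Top.Var

/-!
# P297: the obstruction bundle of a fixed component
-/

set_option linter.all false

open scoped TensorProduct

noncomputable section

namespace Vale.Agent.P297Z

open GMod AK

namespace Obk

section tp

variable {X : Spc}

theorem actT_mem {M : GMod (X.prod ptT)} {γ : (X.prod ptT).J → ℤ} {m : M.M} (h : m ∈ M.wt γ) :
    m ∈ wt (actT M) fun _ => γ (.inr ()) := fun t => by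
  have h2 : chr γ (Sum.elim 1 t) = chr (fun j : Unit => γ (.inr j)) t :=
    (chr_sum_type γ _).trans ((congrArg (· * _) (chr_one _)).trans (one_mul _))
  exact (M.mem_wt.1 h _).trans (congrArg (· • m) h2)

theorem spanT (M : GMod (X.prod ptT)) : ⨆ γ, wt (actT M) γ = ⊤ :=
  iSup_wt_eq_top fun m => M.induction (P := fun m => m ∈ ⨆ γ, wt (actT M) γ)
    (Submodule.zero_mem _) (fun _ _ hm => mem_iSup_wt (actT_mem hm))
    (fun _ _ hx hy => Submodule.add_mem _ hx hy) m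

theorem fst_surj (r : (X.prod ptT).R) : ∃ s, (Mor.fst X ptT).φ s = r := by
  refine TensorProduct.induction_on (motive := fun r : X.R ⊗[ℂ] ℂ =>
    ∃ s, (Mor.fst X ptT).φ s = r) r ⟨0, map_zero _⟩ (fun x c => ⟨c • x, ?_⟩) ?_
  · show (c • x) ⊗ₜ[ℂ] (1 : ℂ) = _
    rw [TensorProduct.smul_tmul, smul_eq_mul, mul_one]
  · rintro _ _ ⟨x, rfl⟩ ⟨y, rfl⟩
    exact ⟨x + y, map_add _ _ _⟩

theorem tpInc_fib (k : ℤ) (M : GMod (X.prod ptT)) (z : (X.prod ptT).Pt) :
    Function.Injective (fibMap z.1 (tpInc k M)) := by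
  let p : M.M →+ (tp k M).M := AddMonoidHom.mk'
    (fun m => ⟨(Mor.fst X ptT).toRes M (cmp (spanT M) (fun _ => -k) m), cmp_mem (spanT M) _ m⟩)
    fun x y => Subtype.ext (map_add (cmp (spanT M) fun _ => -k) x y)
  have hp : ∀ s m, p ((Mor.fst X ptT).φ s • m) = s • p m := fun s m => Subtype.ext
    (map_cmp (spanT M) (spanT M) (DistribSMul.toAddMonoidHom M.M ((Mor.fst X ptT).φ s))
      (fun k => k) Function.injective_id (fun l v hv => by
        have e : (fun _ : Unit => - -l ()) = l := funext fun _ => neg_neg _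
        rw [← e] at hv ⊢
        exact (tpS (-l ()) M).smul_mem s (x := (Mor.fst X ptT).toRes M v) hv) _ m).symm
  let L : M.M →ₗ[(X.prod ptT).R] ((Mor.fst X ptT).pull (tp k M)).M :=
    { toFun := fun m => pu _ _ (p m)
      map_add' := fun x y => by rw [map_add, map_add]
      map_smul' := fun r m => by
        obtain ⟨s, rfl⟩ := fst_surj r
        rw [hp, pu_smul, RingHom.id_apply] }
  refine fib_inj_of_left (t := L) (r := 1) one_ne fun x => ?_
  rw [one_smul]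
  refine pu_ext (F := L ∘ₗ tpInc k M) (F' := LinearMap.id) (fun m => ?_) x
  refine (congrArg L (tpInc_tmul k M m)).trans (congrArg (pu _ _) (Subtype.ext ?_))
  exact cmp_of_mem (spanT M) m.2

theorem tpInc_hom (M : GMod (X.prod ptT)) :
    ((Mor.fst X ptT).pull (tp 0 M)).IsHom M (tpInc 0 M) := fun g m => by
  have e : tdeg X 0 = 0 := funext fun o => by cases o <;> rfl
  have h : tpInc 0 M (chr (-tdeg X 0) g • ((Mor.fst X ptT).pull (tp 0 M)).act g m) = _ :=
    tpInc_isHom 0 M g m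
  rwa [e, neg_zero, chr_zero, one_smul] at h

theorem hom_zero {B : GMod X} {δ : (X.prod ptT).J → ℤ} (hδ : δ (.inr ()) ≠ 0)
    {f : ((Mor.fst X ptT).pull B).M →ₗ[(X.prod ptT).R] (X.prod ptT).R}
    (hf : ((Mor.fst X ptT).pull B).IsHom ((one _).shift δ) f) (x) : f x = 0 := by
  refine pu_ext (F := f) (F' := 0) (fun m => ?_) x
  induction m using B.induction with
  | h0 => rw [map_zero, map_zero, map_zero]
  | ha x y hx hy => rw [map_add, map_add, map_add, hx, hy]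
  | hw γ m hm =>
    by_contra h
    exact hδ ((zero_add _).symm.trans
      (Lc.ObA.wt_zero (mem_shift_wt.1 (hf.map_wt (pu_wt _ hm))) h))

end tp

open Lc.ObA

variable {ι : Type} [Fintype ι] [Nonempty ι] {d : ι → ℤ}

theorem pd_x [DecidableEq ι] (a b : ι) : Amb.pd d a (Amb.x d b) = if b = a then 1 else 0 :=
  (MvPolynomial.pderiv_X (R := ℂ) a b).trans (Pi.single_apply _ _ _)

theorem pd_smul (a : ι) (c : ℂ) (f : (Amb ι d).R) : Amb.pd d a (c • f) = c • Amb.pd d a f :=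
  (MvPolynomial.pderiv (R := ℂ) a).map_smul c f

theorem pd_act (a : ι) (g : (Amb ι d).J → ℂˣ) (f : (Amb ι d).R) :
    Amb.pd d a ((Amb ι d).act g f) = chr (Amb.deg d a) g • (Amb ι d).act g (Amb.pd d a f) := by
  classical
  refine MvPolynomial.induction_on (R := ℂ) (σ := ι) (motive := fun f : (Amb ι d).R =>
    Amb.pd d a ((Amb ι d).act g f) = chr (Amb.deg d a) g • (Amb ι d).act g (Amb.pd d a f)) f
    (fun c => ?_) (fun p q hp hq => ?_) fun p b hp => ?_
  · have e : Amb.pd d a (algebraMap ℂ _ c) = 0 := MvPolynomial.pderiv_C (R := ℂ)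
    show Amb.pd d a ((Amb ι d).act g (algebraMap ℂ _ c)) =
      _ • (Amb ι d).act g (Amb.pd d a (algebraMap ℂ _ c))
    rw [AlgHom.commutes, e, map_zero, smul_zero]
  · have e : ∀ p q : (Amb ι d).R, Amb.pd d a ((Amb ι d).act g p) =
        chr (Amb.deg d a) g • (Amb ι d).act g (Amb.pd d a p) → Amb.pd d a ((Amb ι d).act g q) =
        chr (Amb.deg d a) g • (Amb ι d).act g (Amb.pd d a q) → Amb.pd d a ((Amb ι d).act g (p + q)) =
        chr (Amb.deg d a) g • (Amb ι d).act g (Amb.pd d a (p + q)) := fun p q hp hq => by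
      rw [map_add, pd_add, pd_add, map_add, smul_add, hp, hq]
    exact e p q hp hq
  · revert p
    intro (p : (Amb ι d).R) hp
    have e : (Amb ι d).act g (Amb.x d b) = chr (Amb.deg d b) g • Amb.x d b :=
      Spc.mem_wt.1 (Spc.X_mem ptT ι (fun a _ => d a) b) g
    show Amb.pd d a ((Amb ι d).act g (p * Amb.x d b)) =
      _ • (Amb ι d).act g (Amb.pd d a (p * Amb.x d b))
    rw [map_mul, pd_mul, pd_mul, hp, map_add, map_mul, map_mul, e, pd_smul, pd_x, smul_add,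
      mul_smul_comm (chr (Amb.deg d a) g)]
    split_ifs with h
    · rw [h, map_one, mul_smul_comm]
    · rw [map_zero, smul_zero, mul_zero, smul_zero]

variable (O : Obs ι d)

theorem exists_psi (a : ι) : ∃ ψ : (O.inc.pull (IM O)).M →ₗ[O.Q.R] O.Q.R,
    (∀ f : O.I, ψ (pu O.inc (IM O) f) = O.inc.φ (Amb.pd d a f)) ∧
      (O.inc.pull (IM O)).IsHom ((one _).shift (-Amb.deg d a)) ψ := by
  obtain ⟨ψ, h⟩ := exists_plift O.inc (IM O) (V := O.Q.R)
    (AddMonoidHom.mk' (fun f : O.I => O.inc.φ (Amb.pd d a f)) fun (x y : O.I) =>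
      (congrArg O.inc.φ (pd_add a x.1 y.1)).trans (map_add _ _ _)) fun s (x : O.I) => by
    show O.inc.φ (Amb.pd d a (s * x)) = O.inc.φ s * O.inc.φ (Amb.pd d a x)
    rw [pd_mul, map_add, map_mul, map_mul, inc_zero (O := O) x.2, zero_mul, add_zero]
  refine ⟨ψ, h, isHom_pu fun t (x : O.I) => (h _).trans ?_⟩
  refine Eq.trans ?_ (congrArg (((one O.Q).shift (-Amb.deg d a)).act t) (h x)).symm
  refine (congrArg O.inc.φ (pd_act a _ x.1)).trans ((map_smul _ _ _).trans ?_)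
  exact congrArg₂ (· • ·) ((chr_tor _ _ _).trans (congrArg (chr · t) (neg_neg _).symm))
    (O.inc.act_map t _)

theorem exists_chi {Y : Spc} (j : Mor Y O.Q) (a : ι)
    {ψ : (O.inc.pull (IM O)).M →ₗ[O.Q.R] O.Q.R}
    (hψ : (O.inc.pull (IM O)).IsHom ((one _).shift (-Amb.deg d a)) ψ) :
    ∃ χ : (j.pull O.C.M).M →ₗ[Y.R] Y.R, (∀ c, χ (pu j O.C.M c) = j.φ (ψ (O.θ c))) ∧
      (j.pull O.C.M).IsHom ((one _).shift (-(O.inc.comp j).ρ (Amb.deg d a))) χ := by
  obtain ⟨χ, h⟩ := exists_plift j O.C.M (V := Y.R)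
    (AddMonoidHom.mk' (fun c => j.φ (ψ (O.θ c))) fun x y => by rw [map_add, map_add, map_add])
    fun s x => by
      show j.φ (ψ (O.θ (s • x))) = j.φ s * j.φ (ψ (O.θ x))
      rw [map_smul, map_smul, smul_eq_mul, map_mul]
  refine ⟨χ, h, isHom_pu fun t x => (h _).trans ?_⟩
  refine Eq.trans ?_
    (congrArg (((one Y).shift (-(O.inc.comp j).ρ (Amb.deg d a))).act t) (h x)).symm
  refine (congrArg j.φ ((hψ.comp O.hom) (tor j.ρ t) x)).trans ((map_smul j.φ _ _).trans ?_)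
  exact congrArg₂ (· • ·) ((chr_tor _ _ _).trans (congrArg (chr · t)
    ((congrArg j.ρ (neg_neg _)).trans (neg_neg _).symm))) (j.act_map t _)

theorem ann_iff {Y : Spc} (j : Mor Y O.Q) {κ : Type} [Fintype κ] (i : κ → ι)
    {ψ : κ → (O.inc.pull (IM O)).M →ₗ[O.Q.R] O.Q.R}
    (hψ : ∀ a, ∀ f : O.I, ψ a (pu O.inc (IM O) f) = O.inc.φ (Amb.pd d (i a) f))
    {χ : κ → (j.pull O.C.M).M →ₗ[Y.R] Y.R}
    (hχ : ∀ a c, χ a (pu j O.C.M c) = j.φ (ψ a (O.θ c))) (z : Y.Pt) (y : κ → ℂ) :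
    (∀ m, ∑ a, y a * z.1 (χ a m) = 0) ↔
      ∀ f ∈ O.I, ∑ a, y a * z.1 ((O.inc.comp j).φ (Amb.pd d (i a) f)) = 0 := by
  have h1 : ∀ s x, ∑ a, y a * z.1 (j.φ (ψ a (s • x))) =
      z.1 (j.φ s) * ∑ a, y a * z.1 (j.φ (ψ a x)) := fun s x => by
    simp only [map_smul, smul_eq_mul, map_mul, Finset.mul_sum, mul_left_comm]
  refine ⟨fun h f hf => ?_, fun h m => ?_⟩
  · obtain ⟨s, c, k1, k2⟩ := O.surj (j.onPt z) (pu O.inc (IM O) (⟨f, hf⟩ : O.I))
    have e := h (pu j O.C.M c)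
    simp only [hχ, k2] at e
    rw [h1] at e
    have e' := (mul_eq_zero.1 e).resolve_left k1
    simp only [hψ] at e'
    exact e'
  · have h2 : ∀ x, ∑ a, y a * z.1 (j.φ (ψ a x)) = 0 := fun x => by
      induction x using pu_ind with
      | h0 => simp
      | h1 x =>
        simp only [hψ _ x]
        exact h x.1 x.2
      | hs s m hm => rw [h1, hm, mul_zero]
      | ha x y hx hy => simp only [map_add, mul_add, Finset.sum_add_distrib, hx, hy, add_zero]
    induction m using pu_ind with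
    | h0 => simp
    | h1 x => simp only [hχ, h2]
    | hs s m hm =>
      simp only [map_smul, smul_eq_mul, map_mul, mul_left_comm (y _), ← Finset.mul_sum, hm,
        mul_zero]
    | ha x y hx hy => simp only [map_add, mul_add, Finset.sum_add_distrib, hx, hy, add_zero]

theorem tan_le {z : (Amb ι d).R →ₐ[ℂ] ℂ} {w : ℤ} {n : ℕ} {I : Ideal (Amb ι d).R}
    (tan : ∀ V : Submodule ℂ ((Amb ι d).R →ₗ[ℂ] ℂ), (∀ D ∈ V, D ∈ Tan z ∧ (∀ a ∈ I, D a = 0) ∧
      ∀ a, d a ≠ w → D (Amb.x d a) = 0) → Module.finrank ℂ V ≤ n)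
    (V : Submodule ℂ ({a // d a = w} → ℂ))
    (h : ∀ y ∈ V, ∀ f ∈ I, ∑ a, y a * z (Amb.pd d a.1 f) = 0) : Module.finrank ℂ V ≤ n := by
  classical
  let D : ({a // d a = w} → ℂ) →ₗ[ℂ] (Amb ι d).R →ₗ[ℂ] ℂ := Fintype.linearCombination ℂ fun a =>
    { toFun := fun f => z (Amb.pd d a.1 f)
      map_add' := fun x y => by rw [pd_add, map_add]
      map_smul' := fun c x => by rw [pd_smul, map_smul, RingHom.id_apply] }
  have h1 : ∀ y f, D y f = ∑ a, y a * z (Amb.pd d a.1 f) := fun y f => by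
    rw [Fintype.linearCombination_apply, LinearMap.sum_apply]
    rfl
  have h2 : Function.Injective D := (injective_iff_map_eq_zero _).2 fun y hy => funext fun b => by
    have e := (h1 y (Amb.x d b.1)).symm.trans (LinearMap.congr_fun hy _)
    simpa [pd_x, apply_ite, Subtype.val_inj] using e
  rw [(Submodule.equivMapOfInjective D h2 V).finrank_eq]
  refine tan _ ?_
  rintro _ ⟨y, hy, rfl⟩
  refine ⟨fun r s => ?_, fun f hf => (h1 y f).trans (h y hy f hf), fun b hb => ?_⟩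
  · simp only [h1, pd_mul, map_add, map_mul, mul_add, Finset.sum_add_distrib, Finset.mul_sum,
      mul_left_comm]
  · rw [h1]
    refine Finset.sum_eq_zero fun a _ => ?_
    rw [pd_x, if_neg fun e => hb ((congrArg d e).trans a.2), map_zero, mul_zero]

end Obk

open Obk Lc.ObA in
theorem Obs.obk {ι : Type} [Fintype ι] [Nonempty ι] {d : ι → ℤ} (O : Obs ι d) {X : Spc} {e : ℕ}
    (var : X.IsVar e) (w : ℤ) (j : Mor (X.prod ptT) O.Q)
    (jt : j.ρ (Pi.single (some ()) 1) = Pi.single (.inr ()) 1)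
    (fix : ∀ a, d a ≠ w → (O.inc.comp j).φ (Amb.x d a) = 0)
    (tan : ∀ (z : (X.prod ptT).Pt) (V : Submodule ℂ ((Amb ι d).R →ₗ[ℂ] ℂ)),
      (∀ D ∈ V, D ∈ Tan ((O.inc.comp j).onPt z).1 ∧ (∀ a ∈ O.I, D a = 0) ∧
        ∀ a, d a ≠ w → D (Amb.x d a) = 0) → Module.finrank ℂ V ≤ e + 1)
    (b0 bp bm : K0 X)
    (hb : pullK j O.C.cls - ∑ a, pullK (O.inc.comp j) (line _ fun o => -o.elim 1 fun _ => d a) + 1 =
      pullK (Mor.fst _ _) b0 + tK X 1 * pullK (Mor.fst _ _) bp +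
        tK X (-1) * pullK (Mor.fst _ _) bm)
    (Tt : Bun X) (hT : Tt.rk = e + 1)
    (τ : ι → ((Mor.fst X ptT).pull Tt.M).M →ₗ[(X.prod ptT).R] (X.prod ptT).R)
    (τhom : ∀ a, ((Mor.fst X ptT).pull Tt.M).IsHom
      ((GMod.one (X.prod ptT)).shift ((O.inc.comp j).ρ (Amb.deg d a))) (τ a))
    (τinj : ∀ (z : (X.prod ptT).Pt) v, (∀ a, z.1 (τ a v) = 0) →
      (Submodule.Quotient.mk v : Fib z.1 _) = 0)
    (τI : ∀ (z : (X.prod ptT).Pt) v, ∀ f ∈ O.I,
      z.1 (∑ a, τ a v * (O.inc.comp j).φ (Amb.pd d a f)) = 0) :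
    ∃ (Ob : Bun X) (u : ((Mor.fst X ptT).pull Ob.M).M →ₗ[(X.prod ptT).R] (j.pull O.C.M).M),
      (Ob.rk : ℤ) = rk X b0 + e ∧ GMod.IsHom _ _ u ∧
      (∀ z : (X.prod ptT).Pt, Function.Injective (fibMap z.1 u)) ∧
      (∀ (a : ι) (ψ : (O.inc.pull ((GMod.one (Amb ι d)).sub O.I O.stab)).M →ₗ[O.Q.R] O.Q.R),
        (∀ f : O.I, ψ ((1 : O.inc.Src) ⊗ₜ f) = O.inc.φ (Amb.pd d a f)) →
        ∀ χ : (j.pull O.C.M).M →ₗ[(X.prod ptT).R] (X.prod ptT).R,
        (∀ c : O.C.M.M, χ ((1 : j.Src) ⊗ₜ c) = j.φ (ψ (O.θ c))) → ∀ o, χ (u o) = 0) ∧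
      Ob.cls = b0 - 1 + dualK X Tt.cls := by
  classical
  haveI := var.dom
  haveI := var.neT
  obtain ⟨γ, hγ⟩ : ∃ γ, ∀ a, -(O.inc.comp j).ρ (Amb.deg d a) = Sum.elim γ fun _ => w - d a := by
    obtain ⟨z⟩ := var.neT
    obtain ⟨b, hb⟩ := ((Spc.adj_pt ptT ι (fun a _ => d a) _).1 ((O.inc.comp j).onPt z).2).2
    have h2 : (O.inc.comp j).φ (Amb.x d b) ≠ 0 := fun e =>
      hb ((congrArg z.1 e).trans (map_zero _))
    have h3 : d b = w := by_contra fun e => h2 (fix b e)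
    have h4 := wt_zero ((O.inc.comp j).wt_map _ _ (Spc.X_mem ptT ι (fun a _ => d a) b)) h2
    subst h3
    exact ⟨_, fun a => (map_neg (O.inc.comp j).ρ _).symm.trans
      (@rho_eq _ O.Q.dJ (X.prod ptT).dJ j.ρ jt _ h4 (d a))⟩
  have hne : ∀ a, d a ≠ w → (-(O.inc.comp j).ρ (Amb.deg d a)) (.inr ()) ≠ 0 := fun a ha e =>
    ha (sub_eq_zero.1 ((congrFun (hγ a) (.inr ())).symm.trans e)).symm
  choose ψ hψ hψ' using Obk.exists_psi O
  choose χ hχ hχ' using fun a => exists_chi O j a (hψ' a)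
  have hF := ann_iff O j (Subtype.val : {a // d a = w} → ι) (fun a => hψ a.1) fun a => hχ a.1
  have τ0 : ∀ a, d a ≠ w → ∀ v, τ a v = 0 := fun a ha =>
    hom_zero (fun e => hne a ha (neg_eq_zero.2 e)) (τhom a)
  obtain ⟨K, hK, k, h1, h2, h3, h4⟩ := Obk.core
    (fun a : {a // d a = w} => (O.inc.comp j).ρ (Amb.deg d a)) (O.C.free.pull j)
    (Tt.free.pull (Mor.fst X ptT)) (fun a => τ a) (fun a => χ a) (fun a => τhom a)
    (fun a => hχ' a) (fun x m => (X.prod ptT).sep _ fun z hz => by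
      rw [map_sum]
      simp only [map_mul]
      refine (hF ⟨z, hz⟩ fun a => z (τ a x)).2 (fun f hf => ?_) m
      have e := τI ⟨z, hz⟩ x f hf
      rw [← Fintype.sum_subtype_add_sum_subtype fun a => d a = w, Finset.sum_eq_zero
        (s := Finset.univ (α := {a // ¬d a = w})) fun a _ => by rw [τ0 a a.2, zero_mul], add_zero,
        map_sum] at e
      simpa only [map_mul] using e)
    (fun z x h => τinj z x fun a => by
      by_cases ha : d a = w
      · exact h ⟨a, ha⟩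
      · rw [τ0 a ha, map_zero])
    fun z V h => hT ▸ tan_le (tan z) V fun y hy => (hF z y).1 (h y hy)
  obtain ⟨n, hn⟩ := tp_isBun h1 0
  have hu := (isHom_subtype _ K hK).comp (tpInc_hom _)
  have h5 : kc (tp 0 ((j.pull O.C.M).sub K hK)) n = b0 - 1 + dualK X Tt.cls := by
    rw [← pullK_cls, ← pullK_cls, ← pullK_dualK] at h4
    have h6 : ∀ a, pullK (O.inc.comp j) (line _ fun o => -o.elim 1 fun _ => d a) =
        line _ (-(O.inc.comp j).ρ (Amb.deg d a)) := fun a =>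
      (pullK_line _ _).trans (congrArg _ (map_neg (O.inc.comp j).ρ _))
    simp only [h6] at hb
    rw [← Fintype.sum_subtype_add_sum_subtype fun a => d a = w] at hb
    have h7 : kc ((j.pull O.C.M).sub K hK) k =
        pullK (Mor.fst X ptT) (b0 - 1 + dualK X Tt.cls) + (tK X 1 * pullK (Mor.fst _ _) bp +
          tK X (-1) * pullK (Mor.fst _ _) bm + ∑ a : {a // ¬d a = w},
            line _ (-(O.inc.comp j).ρ (Amb.deg d a))) := by
      rw [map_add, map_sub, map_one]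
      linear_combination h4 + hb
    rw [← coK_kc 0 h1 hn, h7, map_add, coK_pullK, map_add, map_add, coK_tK_pullK, coK_tK_pullK,
      if_pos rfl, if_neg (by decide), if_neg (by decide), map_sum,
      Finset.sum_eq_zero fun a _ => ?_, add_zero, add_zero, add_zero]
    rw [hγ, line_prod_ptT, coK_tK_pullK, if_neg fun e => a.2 (by omega)]
  refine ⟨⟨_, n, hn⟩, K.subtype ∘ₗ tpInc 0 ((j.pull O.C.M).sub K hK), ?_, hu, fun z x y h =>
    tpInc_fib 0 _ z (h2 z ((fibMap_comp _ _ x).symm.trans (h.trans (fibMap_comp _ _ y)))),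
    fun a ψ' k1 χ' k2 o => ?_, (kc_eq hn).symm.trans h5⟩
  · have h8 := congrArg (rk X) h5
    rw [rk_kc hn, map_add, map_sub, map_one, rk_dualK, rk_cls, hT] at h8
    push_cast at h8 ⊢
    linarith
  · have e1 : ∀ x, ψ' x = ψ a x := pu_ext fun f => (k1 f).trans (hψ a f).symm
    rw [pu_ext (F := χ') (F' := χ a) fun c => (k2 c).trans ((congrArg _ (e1 _)).trans
      (hχ a c).symm)]
    by_cases ha : d a = w
    · exact h3 _ (tpInc 0 ((j.pull O.C.M).sub K hK) o).2 ⟨a, ha⟩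
    · exact hom_zero (hne a ha) ((hχ' a).comp hu) o

end Vale.Agent.P297Z
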