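import Vale.Agent.P297Z.Loc.MainA
import Vale.Agent.P297Z.K.BC
import Vale.Agent.P297Z.Dim.Pt
import Vale.Agent.P297Z.Ch.Split
import Vale.Agent.P297Z.Hb.Deg0
import Vale.Agent.P297Z.Top.Var

/-!
# P297: the facts used by the localisation theorem, first part
-/

set_option linter.all false

noncomputable section

namespace Vale.Agent.P297Z

namespace Lc

namespace Ap

open GMod

variable {X Y : Spc}

theorem finrank_eq {R A : Type} [CommRing R] [IsDomain R] [Algebra ℂ R] [AddCommGroup A]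
    [Module R A] [Module.Finite R A] {z : R →ₐ[ℂ] ℂ} {n : ℕ} (h : FreeAt z A n) :
    Module.finrank R A = n := by
  obtain ⟨e, r, u, h1, h2, h3⟩ := h
  have r0 : r ≠ 0 := fun e => h1 (by rw [e, map_zero])
  have h4 : Function.Injective e := (injective_iff_map_eq_zero _).2 fun v hv =>
    (smul_eq_zero.1 ((h2 v).symm.trans (by rw [hv, map_zero]))).resolve_left r0
  have h5 : Module.finrank R (A ⧸ LinearMap.range e) = 0 :=
    Module.finrank_eq_zero_iff_isTorsion.2 fun x => by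
      obtain ⟨a, rfl⟩ := (LinearMap.range e).mkQ_surjective x
      exact ⟨⟨r, mem_nonZeroDivisors_of_ne_zero r0⟩,
        (Submodule.Quotient.mk_eq_zero _).2 ⟨u a, h3 a⟩⟩
  rw [← Submodule.finrank_quotient_add_finrank (LinearMap.range e), h5, zero_add,
    LinearMap.finrank_range_of_inj h4, Module.finrank_fin_fun]

theorem rank {e : ℕ} (h : X.IsVar e) (M : GMod X) (r : ℕ) (z : X.Pt) (hz : FreeAt z.1 M.M r) :
    cls M - r • oG X ∈ Fd X e := by
  haveI := h.dom
  rw [← finrank_eq hz]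
  exact Hb.Dg.cls_rank h.dim (fun j => (h.proj.exists_single z j).imp fun s hs =>
    ⟨hs.1, fun e => hs.2 (by rw [e, map_zero])⟩) M

theorem oG_Fd {e : ℕ} (h : X.IsVar e) : oG X ∈ Fd X (e + 1) := by
  haveI := h.dom
  refine Rk.cls_mem fun p hp _ => ?_
  have h1 := Dim.td_le_of_surjective (k := ℂ) (Ideal.Quotient.mkₐ ℂ p) Ideal.Quotient.mk_surjective
  have h2 := h.td_eq
  omega

theorem ann_quo {p : Ideal X.R} (hp : (one X).Stab p) (γ : X.J → ℤ) :
    p ≤ Module.annihilator X.R (((one X).quo p hp).shift γ).M := fun r hr =>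
  Module.mem_annihilator.2 fun m => by
    obtain ⟨a, rfl⟩ := p.mkQ_surjective m
    exact (Submodule.Quotient.mk_eq_zero p).2 (p.mul_mem_right a hr)

theorem cls_quo {p q : Ideal X.R} (h : p = q) (hp : (one X).Stab p) (hq : (one X).Stab q) :
    cls ((one X).quo p hp) = cls ((one X).quo q hq) := by subst h; rfl

theorem Fd_gen (hX : X.IsProj) (d : ℕ) : Fd X (d + 1) ≤ Fd X d ⊔ AddSubgroup.closure
    {x | ∃ (S : Set X.Pt) (hS : X.Stab S), X.Clo S ∧ (X.sub S hS).IsVar d ∧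
      x = fstar (Mor.incl X S hS) (oG _)} := by
  refine Rk.Fl_le fun p hp γ z h1 h2 hz => ?_
  have h3 : ∀ n δ, Dim.td ℂ (X.R ⧸ p) < n → cls (((one X).quo p hp).shift δ) ∈ Fl X n :=
    fun n δ hn => Rk.cls_mem fun q hq h =>
      (Dim.td_anti (k := ℂ) ((ann_quo hp δ).trans h)).trans_lt hn
  by_cases h4 : Dim.td ℂ (X.R ⧸ p) < d + Fintype.card X.J
  · exact AddSubgroup.mem_sup_left (h3 _ γ h4)
  have h5 := h3 (d + Fintype.card X.J + 1) 0 (by omega)
  rw [cls_shift_zero] at h5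
  have h6 := cls_shift_sub_mem hX.free h5 γ
  have h7 : X.van (Dim.zer X p) = p := Dim.van_zer_prime (Dim.not_b_le hz)
  have hS : X.Stab (Dim.zer X p) := Dim.stab_zer hp
  rw [kact_line] at h6
  rw [← sub_sub_cancel (cls ((one X).quo p hp)) (cls (((one X).quo p hp).shift γ))]
  refine sub_mem (AddSubgroup.mem_sup_right (AddSubgroup.subset_closure
    ⟨_, hS, Dim.clo_zer, ?_, ?_⟩)) (AddSubgroup.mem_sup_left h6)
  · haveI : (X.van (Dim.zer X p)).IsPrime := h7.symm ▸ h1
    haveI : IsDomain (X.sub _ hS).R := Ideal.Quotient.isDomain _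
    refine ⟨hX.sub _ hS, inferInstance, Spc.nonempty_pt _, ?_⟩
    rw [Dim.cdim_sub, Dim.cdim_zer_prime (Dim.not_b_le hz)]
    exact congrArg _ (show _ = d + Fintype.card X.J by omega)
  · rw [fstar_incl hX]
    exact cls_quo h7.symm _ _

theorem push_bc {f : Mor X Y} (P : Prj f) (V : Spc) (P' : Prj (f.map (Mor.id V))) (x : G X) :
    push P' (pullG (Mor.fst X V) x) = pullG (Mor.fst Y V) (push P x) := by
  rw [push_indep P' (P.mapId V)]
  exact P297Z.push_bc (cart_map f V) (flat_fst _ _) (flat_fst _ _) P _ (AddEquiv.refl _)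
    (fun _ => rfl) (fun l => ⟨l, fun _ h => h⟩) x

end Ap

theorem api2 : Api2 := ⟨fun P a x => push_proj P a x, fun P Q R x => push_comp P Q R x⟩

theorem api_of (h1 : ∀ {X : Spc} (a : K0 X) (d : ℕ), ∀ x ∈ Fl X d, kact X a x ∈ Fl X d)
    (h2 : ∀ {X W : Spc} {e : ℕ}, W.IsVar e → ∀ d, ∀ x ∈ Fd X d,
      pullG (Mor.fst X W) x ∈ Fd (X.prod W) (d + e))
    (h3 : ∀ {X Y : Spc} (f : Mor X Y), X.IsProj → Y.IsProj → ∀ d, ∀ x ∈ Fd X d,
      fstar f x ∈ Fd Y d) : Api where
  fstar_push := fun hX hY P => fstar_push hX hY P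
  fstar_comp := fun f g hX hY hZ x => fstar_comp hX hY hZ g f x
  fstar_proj := fun f hX hY a x => fstar_proj hX hY f a x
  fstar_Fd := h3
  fstar_bc := fun f _ hX hY hW x => fstar_map_fst hX hY hW f x
  push_bc := Ap.push_bc
  prj_map := fun P V => ⟨P.mapId V⟩
  prj_snd := fun W hX => ⟨Prj.snd hX W⟩
  proj_sub := fun S hS hX => hX.sub S hS
  free := Spc.IsProj.free
  var_prod := Spc.IsVar.prod
  kact_Fl := h1
  pullG_Fd := h2
  oG_Fd := Ap.oG_Fd
  Fd_zero := fun hX => le_bot_iff.1 (Rk.Fd_zero hX.free)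
  Fd_gen := Ap.Fd_gen
  rank := Ap.rank
  prod_line := fun s y d hs => prod_one_sub_line s hs y d
  lam_cls := lam_cls
  lam_pull := lam_pull
  lam_line := lam_line_mul
  lam_zero := lam_zero
  lam_one := lam_one
  cT_add := cT_add
  cc_FF := cc_mem_FF
  cc_above := fun B _ hi => cc_gt ⟨B, rfl, rfl⟩ hi
  deg := Hb.deg_of fun _ _ f hX hY P => fstar_oG hX hY P ▸ push_spec P _
  clim := Hb.clim

end Lc

end Vale.Agent.P297Z
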