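import Vale.Agent.P297Z.Top.Loc
import Vale.Agent.P297Z.K.Cat
import Vale.Agent.P297Z.Hb.DegDefs

/-!
# P297: the pieces of the proof of the localisation theorem: definitions and statements
-/

set_option linter.all false

noncomputable section

namespace Vale.Agent.P297Z

open PowerSeries

namespace Lc

/-- What the localisation theorem uses about push-forward, filtrations and Chern classes. -/
structure Api : Prop where
  fstar_push : ∀ {X Y : Spc} {f : Mor X Y}, X.IsProj → Y.IsProj → ∀ P : Prj f, fstar f = push P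
  fstar_comp : ∀ {X Y Z : Spc} (f : Mor X Y) (g : Mor Y Z), X.IsProj → Y.IsProj → Z.IsProj →
    ∀ x, fstar (g.comp f) x = fstar g (fstar f x)
  fstar_proj : ∀ {X Y : Spc} (f : Mor X Y), X.IsProj → Y.IsProj → ∀ a x,
    fstar f (kact X (pullK f a) x) = kact Y a (fstar f x)
  fstar_Fd : ∀ {X Y : Spc} (f : Mor X Y), X.IsProj → Y.IsProj → ∀ d, ∀ x ∈ Fd X d,
    fstar f x ∈ Fd Y d
  fstar_bc : ∀ {X Y : Spc} (f : Mor X Y) (W : Spc), X.IsProj → Y.IsProj → W.IsProj → ∀ x,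
    fstar (f.map (Mor.id W)) (pullG (Mor.fst X W) x) = pullG (Mor.fst Y W) (fstar f x)
  push_bc : ∀ {X Y : Spc} {f : Mor X Y} (P : Prj f) (V : Spc) (P' : Prj (f.map (Mor.id V))) (x),
    push P' (pullG (Mor.fst X V) x) = pullG (Mor.fst Y V) (push P x)
  prj_map : ∀ {X Y : Spc} {f : Mor X Y} (P : Prj f) (V : Spc), Nonempty (Prj (f.map (Mor.id V)))
  prj_snd : ∀ {X : Spc} (W : Spc), X.IsProj → Nonempty (Prj (Mor.snd X W))
  proj_sub : ∀ {X : Spc} (S : Set X.Pt) (hS : X.Stab S), X.IsProj → (X.sub S hS).IsProj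
  free : ∀ {X : Spc}, X.IsProj → X.Free
  var_prod : ∀ {X Y : Spc} {m n : ℕ}, X.IsVar m → Y.IsVar n → (X.prod Y).IsVar (m + n)
  kact_Fl : ∀ {X : Spc} (a : K0 X) (d : ℕ), ∀ x ∈ Fl X d, kact X a x ∈ Fl X d
  pullG_Fd : ∀ {X W : Spc} {e : ℕ}, W.IsVar e → ∀ d, ∀ x ∈ Fd X d,
    pullG (Mor.fst X W) x ∈ Fd (X.prod W) (d + e)
  oG_Fd : ∀ {X : Spc} {e : ℕ}, X.IsVar e → oG X ∈ Fd X (e + 1)
  Fd_zero : ∀ {X : Spc}, X.IsProj → Fd X 0 = ⊥
  Fd_gen : ∀ {X : Spc}, X.IsProj → ∀ d, Fd X (d + 1) ≤ Fd X d ⊔ AddSubgroup.closure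
    {x | ∃ (S : Set X.Pt) (hS : X.Stab S), X.Clo S ∧ (X.sub S hS).IsVar d ∧
      x = fstar (Mor.incl X S hS) (oG _)}
  rank : ∀ {X : Spc} {e : ℕ}, X.IsVar e → ∀ (M : GMod X) (r : ℕ) (z : X.Pt), FreeAt z.1 M.M r →
    cls M - r • oG X ∈ Fd X e
  prod_line : ∀ {X : Spc} {ι : Type} (s : Finset ι) (y : ι → X.R) (d : ι → X.J → ℤ),
    s.Nonempty → (∀ i ∈ s, y i ∈ X.wt (d i)) → (∀ z : X.Pt, ∃ i ∈ s, z.1 (y i) ≠ 0) →
    ∏ i ∈ s, (1 - line X (-d i)) = 0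
  lam_cls : ∀ {X : Spc} (B : Bun X) (i : ℕ), lam i B.cls = kc (B.M.ext i) (B.rk.choose i)
  lam_pull : ∀ {W X : Spc} (f : Mor W X) (i : ℕ) (a : K0 X), pullK f (lam i a) = lam i (pullK f a)
  lam_line : ∀ {X : Spc} (γ : X.J → ℤ) (i : ℕ) (a : K0 X),
    lam i (line X γ * a) = line X γ ^ i * lam i a
  lam_zero : ∀ {X : Spc} (a : K0 X), lam 0 a = 1
  lam_one : ∀ {X : Spc} (a : K0 X), lam 1 a = a
  cT_add : ∀ {X : Spc} (a b : K0 X), cT (a + b) = cT a * cT b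
  cc_FF : ∀ {X : Spc} (i : ℕ) (a : K0 X), cc i a ∈ FF X i
  cc_above : ∀ {X : Spc} (B : Bun X) (i : ℕ), B.rk < i → cc i B.cls = 0
  deg : Hb.DEG
  clim : Hb.CLIM

/-- a map that is bijective on orbits preserves the dimension -/
def DIMJ : Prop := ∀ (X Y : Spc) (f : Mor X Y), X.IsProj → Y.IsProj → f.Inj → f.Surj →
  (∀ n, X.HasDim n ↔ Y.HasDim n) ∧ (X.Irr → Y.Irr)

/-- the push-forward along a bijective map is onto on the dimension filtration -/
def SURJF : Prop := ∀ (X Y : Spc) (f : Mor X Y), X.IsProj → Y.IsProj → f.Inj → f.Surj →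
  ∀ d, ∀ y ∈ Fd Y d, ∃ x ∈ Fd X d, fstar f x = y

/-! ### the ambient space -/

section Amb

variable {ι : Type} [Fintype ι] [Nonempty ι] (d : ι → ℤ)

/-- the class of the free module with a generator of the degree of `x a` -/
def chi (a : ι) : K0 (Amb ι d) := line _ fun o => -o.elim 1 fun _ => d a

/-- the character `t ^ k` on the ambient space -/
def tY (k : ℤ) : K0 (Amb ι d) := line _ fun o => o.elim 0 fun _ => k

/-- the Koszul class of the linear subspace of weight `w` -/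
def kap (w : ℤ) : K0 (Amb ι d) := ∏ a ∈ Finset.univ.filter (fun a => d a ≠ w), (1 - chi d a)

/-- the ideal of the linear subspace of weight `w` -/
def Jw (w : ℤ) : Ideal (Amb ι d).R := Ideal.span (Amb.x d '' {a | d a ≠ w})

theorem Jw_stab (w : ℤ) : (GMod.one (Amb ι d)).Stab (Jw d w) :=
  GMod.stab_span_wt (M := GMod.one (Amb ι d)) (by
    rintro _ ⟨a, -, rfl⟩
    exact ⟨_, Spc.X_mem ptT ι (fun a _ => d a) a⟩)

/-- the structure module of the linear subspace of weight `w` -/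
def Ow (w : ℤ) : GMod (Amb ι d) := (GMod.one (Amb ι d)).quo (Jw d w) (Jw_stab d w)

end Amb

/-- the Koszul resolution of a linear subspace -/
def PF1 : Prop := ∀ (ι : Type) [Fintype ι] [Nonempty ι] (d : ι → ℤ) (w : ℤ),
  kact _ (kap d w) (oG _) = cls (Ow d w)

/-- decomposition in simple fractions -/
def PF2 : Prop := ∀ (ι : Type) [Fintype ι] [Nonempty ι] (d : ι → ℤ),
  ∃ (l : List ℤ) (aw : ℤ → K0 (Amb ι d)), (∀ k ∈ l, k ≠ 0) ∧
    (∀ w, aw w ∈ Subring.closure (Set.range (line (Amb ι d)))) ∧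
    (l.map fun k => 1 - tY d k).prod = ∑ w ∈ Finset.univ.image d, aw w * kap d w

/-- the map `Q × W ⟶ W × ptT` that remembers the character `t` -/
def piW {ι : Type} [Fintype ι] [Nonempty ι] {d : ι → ℤ} (O : Obs ι d) (W : Spc) :
    Mor (O.Q.prod W) (W.prod ptT) :=
  Mor.lift (Mor.snd _ _) ((Mor.toPt O.Q Unit
    { toFun := fun γ o => o.elim 0 fun _ => γ ()
      map_zero' := funext fun o => by cases o <;> rfl
      map_add' := fun _ _ => funext fun o => by cases o <;> rfl }).comp (Mor.fst _ _))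

/-- The image of a fixed component. -/
structure Img {ι : Type} [Fintype ι] [Nonempty ι] {d : ι → ℤ} {O : Obs ι d} (c : O.Comp) where
  F : Spc
  var : F.IsVar c.e
  card : Fintype.card F.J = 1
  j0 : Mor c.X F
  inj : j0.Inj
  surj : j0.Surj
  i : Mor (F.prod ptT) O.Q
  fac : c.j = i.comp (j0.map (Mor.id ptT))
  it : i.ρ (Pi.single (some ()) 1) = Pi.single (.inr ()) 1
  ρbij : Function.Bijective i.ρ
  onto : Function.Surjective i.φ
  fix : ∀ a, d a ≠ c.w → (O.inc.comp i).φ (Amb.x d a) = 0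
  P : Prj i
  emp : IsEmpty P.E
  pts : ∀ z : O.Q.Pt, (∀ r, i.φ r = 0 → z.1 r = 0) ↔ ∃ x, O.Q.Orb (c.j.onPt x) z
  mem : c.w ∈ Finset.univ.image d

/-- the image exists -/
def GEO : Prop := ∀ (ι : Type) [Fintype ι] [Nonempty ι] (d : ι → ℤ) (O : Obs ι d) (c : O.Comp),
  Nonempty (Img c)

/-- the projection to `W × ptT` is projective -/
def PRW : Prop := ∀ (ι : Type) [Fintype ι] [Nonempty ι] (d : ι → ℤ) (O : Obs ι d) (W : Spc),
  Nonempty (Prj (piW O W)) ∧ ∀ k, pullK (piW O W) (tK W k) =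
    pullK (Mor.fst O.Q W) (pullK O.inc (tY d k))

/-- base change for the closed embedding of a fixed component -/
def BCI : Prop := ∀ (ι : Type) [Fintype ι] [Nonempty ι] (d : ι → ℤ) (O : Obs ι d) (c : O.Comp)
  (g : Img c) (W : Spc),
  ((Mor.fst g.F W).map (Mor.id ptT)).Flat ∧
  (piW O W).comp (g.i.mid W) = (Mor.snd g.F W).map (Mor.id ptT) ∧
  ∃ P' : Prj (g.i.mid W), ∀ x, pullG (Mor.fst O.Q W) (push g.P x) =
    push P' (pullG ((Mor.fst g.F W).map (Mor.id ptT)) x)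

/-! ### the conormal bundle of a fixed component -/

namespace Img

variable {ι : Type} [Fintype ι] [Nonempty ι] {d : ι → ℤ} {O : Obs ι d} {c : O.Comp} (g : Img c)

/-- the embedding in the ambient space -/
abbrev e : Mor (g.F.prod ptT) (Amb ι d) := O.inc.comp g.i

/-- the ideal of the component -/
def p : Ideal (Amb ι d).R := RingHom.ker g.e.φ

theorem p_stab : (GMod.one (Amb ι d)).Stab g.p := fun h r hr => by
  obtain ⟨σ, hσ⟩ : ∃ k, tor g.e.ρ k = h := by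
    have hb : Function.Bijective g.e.ρ := g.ρbij
    let u := AddEquiv.ofBijective g.e.ρ hb
    refine ⟨tor u.symm.toAddMonoidHom h, ?_⟩
    rw [← tor_comp]
    have : u.symm.toAddMonoidHom.comp g.e.ρ = AddMonoidHom.id _ :=
      AddMonoidHom.ext fun γ => u.symm_apply_apply γ
    rw [this, tor_id]
  subst hσ
  exact (g.e.act_map σ r).trans ((congrArg _ hr).trans (map_zero _))

theorem pow_stab (k : ℕ) : (Ow d c.w).Stab (g.p ^ k • ⊤) := by
  induction k with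
  | zero => rw [pow_zero, Ideal.one_eq_top, Submodule.top_smul]; exact GMod.stab_top _
  | succ k ih => rw [pow_succ', mul_smul]; exact GMod.Stab.smul g.p_stab ih

/-- the graded piece `p ^ k / p ^ (k + 1)` of the linear subspace along the component -/
def gr (k : ℕ) : GMod (g.F.prod ptT) := g.e.pull ((Ow d c.w).sub (g.p ^ k • ⊤) (g.pow_stab k))

/-- the local structure along the component -/
structure Reg : Prop where
  gen : ∀ z : (g.F.prod ptT).Pt, ∃ r, z.1 (g.e.φ r) ≠ 0 ∧ ∀ a ∈ g.p, r * a ∈ O.I ⊔ Jw d c.w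
  free : ∃ n, n + (c.e + 1) = (Finset.univ.filter fun a => d a = c.w).card ∧
    ∀ k, (g.gr k).IsBun (n.multichoose k)
  wt0 : ∀ k γ, ∀ m ∈ (g.gr k).wt γ, γ (.inr ()) ≠ 0 → m = 0
  dinj : ∀ (z : (g.F.prod ptT).Pt), ∀ a ∈ g.p,
    (∀ b, d b = c.w → z.1 (g.e.φ (Amb.pd d b a)) = 0) →
    ∃ r, z.1 (g.e.φ r) ≠ 0 ∧ r * a ∈ (RingHom.ker z.1).comap g.e.φ * g.p ⊔ Jw d c.w

/-- the kernel of the map from the obstruction bundle to the conormal bundle -/
structure Ker where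
  n : ℕ
  hn : n + (c.e + 1) = (Finset.univ.filter fun a => d a = c.w).card
  hN : (g.gr 1).IsBun n
  C' : Bun (g.F.prod ptT)
  cls : pullK g.i O.C.cls = C'.cls + kc (g.gr 1) n
  ob : pullK (g.j0.map (Mor.id ptT)) C'.cls = pullK (Mor.fst _ _) c.Ob.cls +
    ∑ a ∈ Finset.univ.filter (fun a => d a ≠ c.w), pullK (O.inc.comp c.j) (chi d a) +
    tK c.X 1 * pullK (Mor.fst _ _) c.bp + tK c.X (-1) * pullK (Mor.fst _ _) c.bm

end Img

/-- regularity along a fixed component -/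
def REG : Prop := ∀ (ι : Type) [Fintype ι] [Nonempty ι] (d : ι → ℤ) (O : Obs ι d) (c : O.Comp)
  (g : Img c), g.Reg

/-- the class of the kernel bundle -/
def OB : Prop := ∀ (ι : Type) [Fintype ι] [Nonempty ι] (d : ι → ℤ) (O : Obs ι d) (c : O.Comp)
  (g : Img c), g.Reg → Nonempty g.Ker

/-- the coefficients of `lam (-z) a` times a sequence -/
def Del {X : Spc} (a : K0 X) (h : ℕ → G X) (l : ℕ) : G X :=
  ∑ i ∈ Finset.range (l + 1), ((-1 : ℤ) ^ i) • kact X (lam i a) (h (l - i))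

/-- the multiplicity map and its value on the linear subspaces -/
def FIX2 : Prop := ∀ (ι : Type) [Fintype ι] [Nonempty ι] (d : ι → ℤ) (O : Obs ι d) (κ : Type)
  [Fintype κ] (F : κ → O.Comp) (g : ∀ i, Img (F i)), (∀ i, (g i).Reg) →
  (∀ z : O.Q.Pt, (∃ w, ∀ a, d a ≠ w → z.1 (O.inc.φ (Amb.x d a)) = 0) →
    ∃ i x, O.Q.Orb ((F i).j.onPt x) z) →
  (∀ i i' x x', O.Q.Orb ((F i).j.onPt x) ((F i').j.onPt x') → i = i') →
  ∃ s : G (Amb ι d) →+ G O.Q,
    (∀ γ x, s (kact _ (line _ γ) x) = kact _ (pullK O.inc (line _ γ)) (s x)) ∧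
    ∀ w, ∃ L₀, ∀ L, L₀ ≤ L → s (cls (Ow d w)) =
      ∑ i ∈ Finset.univ.filter (fun i => (F i).w = w), push (g i).P
        (∑ l ∈ Finset.range L, Del (pullK (g i).i O.C.cls) (fun k => cls ((g i).gr k)) l)

/-- the multiplicity of a regular embedding is one -/
def FIX3 : Prop := ∀ (ι : Type) [Fintype ι] [Nonempty ι] (d : ι → ℤ) (O : Obs ι d) (c : O.Comp)
  (g : Img c), g.Reg → ∀ K : g.Ker, ∃ (y : G g.F) (L₀ : ℕ), y - oG _ ∈ Fd g.F c.e ∧
    ∀ L, L₀ ≤ L → ∑ l ∈ Finset.range L, Del (pullK g.i O.C.cls) (fun k => cls (g.gr k)) l =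
      kact _ (cc K.C'.rk K.C'.cls) (pullG (Mor.fst _ _) y)

/-! ### Laurent polynomials in `t` -/

/-- every class is a Laurent polynomial in `t` -/
def KDEC : Prop := ∀ (V : Spc) (n : ℕ), V.IsVar n → ∀ a : K0 (V.prod ptT),
  a ∈ AddSubgroup.closure {x | ∃ k y, x = tK V k * pullK (Mor.fst V ptT) y}

/-- transfer along a map of varieties -/
def TR : Prop := ∀ (X F W : Spc) (e nW : ℕ), X.IsVar e → F.IsVar e → W.IsVar nW →
  ∀ (j0 : Mor X F) (PX : Prj ((Mor.snd X W).map (Mor.id ptT)))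
    (PF : Prj ((Mor.snd F W).map (Mor.id ptT))) (x : G X),
  (∀ a, push PF (kact _ a (pullG (Mor.fst _ ptT) (pullG (Mor.fst F W) (fstar j0 x)))) =
    push PX (kact _ (pullK ((j0.map (Mor.id W)).map (Mor.id ptT)) a)
      (pullG (Mor.fst _ ptT) (pullG (Mor.fst X W) x)))) ∧
  ∀ (k : ℤ) (a : K0 ((X.prod W).prod ptT)) (u : G ((X.prod W).prod ptT)) (v : G (X.prod W)),
    push PX (kact _ (tK _ k * a) u) = kact _ (tK W k) (push PX (kact _ a u)) ∧
    push PX (pullG (Mor.fst _ ptT) v) = pullG (Mor.fst W ptT) (fstar (Mor.snd X W) v)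

/-- cancellation and evaluation at `t = 1` -/
def TF : Prop := ∀ (W : Spc) (A : Type 1) [AddCommGroup A] (ψ : G W →+ A),
  ∃ (N : AddSubgroup (G (W.prod ptT))) (ε : G (W.prod ptT) →+ A),
    (∀ k, ∀ u ∈ N, kact _ (tK W k) u ∈ N) ∧
    (∀ k u, k ≠ 0 → kact _ (1 - tK W k) u ∈ N → u ∈ N) ∧
    (∀ u ∈ N, ε u = 0) ∧ (∀ k u, ε (kact _ (tK W k) u) = ε u) ∧
    (∀ v, ε (pullG (Mor.fst W ptT) v) = ψ v) ∧ ∀ v, ψ v = 0 → pullG (Mor.fst W ptT) v ∈ N

/-- the classes with coefficients of degree larger than `D` -/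
def Nul (V : Spc) (D : ℕ) : AddSubgroup (K0 (V.prod ptT)) :=
  AddSubgroup.closure {x | ∃ k, ∃ y ∈ FF V (D + 1), x = tK V k * pullK (Mor.fst V ptT) y}

/-- leading parts are multiplicative -/
def LMUL : Prop := ∀ (V : Spc),
  (∀ m m' x x' s s', Lead V m x s → Lead V m' x' s' → Lead V (m + m') (x * x') (s * s')) ∧
  (∀ a, Lead V a ((1 - tK V 1) ^ a) 1) ∧ (∀ k, Lead V 0 (tK V k) 1) ∧
  (∀ b, ∀ y ∈ FF V b, Lead V b (pullK (Mor.fst V ptT) y) (C y * X ^ b)) ∧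
  (∀ m x s, Lead V m x s → Lead V m (-x) (-s)) ∧
  ∀ n D, V.IsVar n → ∀ a, ∀ x ∈ Nul V D, a * x ∈ Nul V D

/-- the Euler class of the kernel bundle -/
def KEY : Prop := ∀ (V : Spc) (n : ℕ), V.IsVar n → ∀ (C' : K0 (V.prod ptT)) (r : ℕ), IsCls C' r →
  ∀ (Ob : K0 V) (o : ℕ), IsCls Ob o → ∀ (bp bm : K0 V) (ι : Type) (S : Finset ι)
    (γ : ι → (V.prod ptT).J → ℤ),
  C' = pullK (Mor.fst _ _) Ob + ∑ a ∈ S, line _ (γ a) + tK V 1 * pullK (Mor.fst _ _) bp +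
    tK V (-1) * pullK (Mor.fst _ _) bm →
  ∀ D : ℕ, ∃ (A E : ℕ) (R : K0 (V.prod ptT)) (s : (K0 V)⟦X⟧),
    (1 - tK V 1) ^ A * cc r C' - (∏ a ∈ S, (1 - line _ (γ a))) * R ∈ Nul V D ∧ Lead V E R s ∧
    (E : ℤ) - A = o + rk V bp + rk V bm ∧
    ∀ b ≤ D, coeff b s = ((-1 : ℤ) ^ (rk V bm).natAbs) •
      coeff b (C (cc o Ob) * X ^ o * cT bp * rescale (-1) (cT bm))

/-- the leading term of the push-forward -/
def RES : Prop := ∀ (V W : Spc) (n : ℕ), V.IsVar n → ∀ (x : G V), x - oG V ∈ Fd V n →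
  ∀ (φ : G V →+ G W) (Ξ : G (V.prod ptT) →+ G (W.prod ptT)),
  (∀ k a u, Ξ (kact _ (tK V k * a) u) = kact _ (tK W k) (Ξ (kact _ a u))) →
  (∀ v, Ξ (pullG (Mor.fst V ptT) v) = pullG (Mor.fst W ptT) (φ v)) →
  ∀ (N : AddSubgroup (G (W.prod ptT))) (D δ : ℕ), D + δ = n →
  (∀ k, ∀ u ∈ N, kact _ (tK W k) u ∈ N) → (∀ v ∈ Fd V δ, pullG (Mor.fst W ptT) (φ v) ∈ N) →
  (∀ a ∈ Nul V D, Ξ (kact _ a (pullG (Mor.fst V ptT) x)) ∈ N) ∧
  ∀ (E : ℕ) (R : K0 (V.prod ptT)) (s : (K0 V)⟦X⟧), Lead V E R s → D ≤ E →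
    ∃ u, Ξ (kact _ R (pullG (Mor.fst V ptT) x)) - kact _ ((1 - tK W 1) ^ (E - D))
      (pullG (Mor.fst W ptT) (φ (kact V (coeff D s) (oG V))) + kact _ (1 - tK W 1) u) ∈ N

end Lc

end Vale.Agent.P297Z
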