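import Mathlib

/-!
# P297: graded submodules of finitely generated graded modules
-/

set_option linter.all false

noncomputable section

namespace Vale.Agent.P297Z.Sg

open DirectSum Submodule

variable {A C : Type} [CommRing A] [AddCommGroup C] [Module A C] {P : ℤ → Type}
  [∀ l, AddCommGroup (P l)] [∀ l, Module A (P l)] {ω : ℤ}
  (ν : ∀ l, C →ₗ[A] P l →ₗ[A] P (l + ω))

/-- the action on the direct sum -/
def tau : C →ₗ[A] Module.End A (⨁ l, P l) where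
  toFun c := toModule A ℤ _ fun l => lof A ℤ P (l + ω) ∘ₗ ν l c
  map_add' c c' := by ext l x; simp
  map_smul' r c := by ext l x; simp

theorem tau_lof (c : C) (l : ℤ) (x : P l) :
    tau ν c (lof A ℤ P l x) = lof A ℤ P (l + ω) (ν l c x) := by
  simp [tau]

theorem tau_apply (c : C) (y : ⨁ l, P l) (l : ℤ) : tau ν c y (l + ω) = ν l c (y l) := by
  induction y using DirectSum.induction_on with
  | zero => simp
  | add y y' h h' => rw [map_add, DirectSum.add_apply, h, h', DirectSum.add_apply, map_add]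
  | of l' x =>
    rw [← lof_eq_of A, tau_lof, lof_eq_of, lof_eq_of]
    by_cases h : l' = l
    · subst h
      rw [of_eq_same, of_eq_same]
    · rw [of_eq_of_ne _ _ _ (fun e => h (by omega)), of_eq_of_ne _ _ _ (Ne.symm h), map_zero]

section

variable {S : Type} [Ring S] [Algebra A S] [Module S (⨁ l, P l)]
  [IsScalarTower A S (⨁ l, P l)]

theorem big (hω : 0 < ω) (hS : ∀ c, ∃ t : S, ∀ y, t • y = tau ν c y) {l₀ : ℤ}
    {P' : Submodule S (⨁ l, P l)}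
    (h0 : ∀ l, l₀ ≤ l → l < l₀ + ω → ∀ x : P l, lof A ℤ P l x ∈ P') {T : Submonoid A}
    (hT : ∀ l ≥ l₀, ∀ x : P (l + ω), ∃ r ∈ T, r • x ∈ map₂ (ν l) ⊤ ⊤) (n : ℕ) :
    ∀ l, l₀ ≤ l → l < l₀ + n → ∀ x : P l, ∃ r ∈ T, r • lof A ℤ P l x ∈ P' := by
  induction n with
  | zero => intro l h1 h2; omega
  | succ n ih =>
    intro l h1 h2 x
    by_cases h : l < l₀ + ω
    · exact ⟨1, T.one_mem, by rw [one_smul]; exact h0 l h1 h x⟩
    obtain ⟨l, rfl⟩ : ∃ l', l = l' + ω := ⟨l - ω, by ring⟩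
    obtain ⟨r, hr, hx⟩ := hT l (by omega) x
    have k : ∀ y ∈ map₂ (ν l) ⊤ ⊤, ∃ r ∈ T, r • lof A ℤ P (l + ω) y ∈ P' := by
      intro y hy
      rw [map₂_eq_span_image2] at hy
      induction hy using span_induction with
      | mem y hy =>
        obtain ⟨c, -, y, -, rfl⟩ := hy
        obtain ⟨r, hr, h⟩ := ih l (by omega) (by omega) y
        obtain ⟨t, ht⟩ := hS c
        refine ⟨r, hr, ?_⟩
        rw [← tau_lof, ← map_smul, ← ht]
        exact P'.smul_mem t h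
      | zero => exact ⟨1, T.one_mem, by simp⟩
      | add y y' _ _ h h' =>
        obtain ⟨r, hr, h⟩ := h
        obtain ⟨r', hr', h'⟩ := h'
        refine ⟨r * r', T.mul_mem hr hr', ?_⟩
        rw [map_add, smul_add]
        exact P'.add_mem (by rw [mul_comm, mul_smul]; exact P'.smul_of_tower_mem _ h)
          (by rw [mul_smul]; exact P'.smul_of_tower_mem _ h')
      | smul a y _ h =>
        obtain ⟨r, hr, h⟩ := h
        exact ⟨r, hr, by rw [map_smul, smul_comm]; exact P'.smul_of_tower_mem _ h⟩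
    obtain ⟨r', hr', h'⟩ := k _ hx
    exact ⟨r' * r, T.mul_mem hr' hr, by rwa [mul_smul, ← map_smul]⟩

theorem small (hω : 0 < ω) (stab : ∀ V : Submodule A (⨁ l, P l), (∀ c, ∀ y ∈ V, tau ν c y ∈ V) →
      ∀ a : S, ∀ y ∈ V, a • y ∈ V)
    (Z : ∀ l, Submodule A (P l)) (hZ : ∀ l c, ∀ x ∈ Z l, ν l c x ∈ Z (l + ω)) {m : ℤ}
    {y : ⨁ l, P l} (hy : y ∈ span S {y | ∃ l ≤ m, ∃ x ∈ Z l, y = lof A ℤ P l x}) :
    ∀ l ≥ m, y (l + ω) ∈ map₂ (ν l) ⊤ (Z l) := by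
  let V : Submodule A (⨁ l, P l) := (⨅ l, (Z l).comap (component A ℤ P l)) ⊓
    ⨅ l ≥ m, (map₂ (ν l) ⊤ (Z l)).comap (component A ℤ P (l + ω))
  have hV : ∀ y, y ∈ V ↔ (∀ l, y l ∈ Z l) ∧ ∀ l ≥ m, y (l + ω) ∈ map₂ (ν l) ⊤ (Z l) :=
    fun y => by simp only [V, mem_inf, mem_iInf, mem_comap]; rfl
  refine ((hV y).1 ?_).2
  induction hy using span_induction with
  | zero => exact V.zero_mem
  | add y y' _ _ h h' => exact V.add_mem h h'
  | smul a y _ h =>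
    refine stab V (fun c y hy => ?_) a y h
    rw [hV] at hy ⊢
    refine ⟨fun l => ?_, fun l _ => ?_⟩
    · obtain ⟨l, rfl⟩ : ∃ l', l = l' + ω := ⟨l - ω, by ring⟩
      rw [tau_apply]
      exact hZ _ _ _ (hy.1 l)
    · rw [tau_apply]
      exact apply_mem_map₂ _ mem_top (hy.1 l)
  | mem y hy =>
    obtain ⟨l, h1, x, hx, rfl⟩ := hy
    refine (hV _).2 ⟨fun l' => ?_, fun l' h2 => ?_⟩
    · by_cases h : l = l'
      · subst h
        rwa [lof_eq_of, of_eq_same]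
      · rw [lof_eq_of, of_eq_of_ne _ _ _ (Ne.symm h)]
        exact zero_mem _
    · rw [lof_eq_of, of_eq_of_ne _ _ _ (by omega)]
      exact zero_mem _

theorem fg_aux [IsNoetherianRing S] [∀ l, Module.Finite A (P l)] (hω : 0 < ω)
    (hS : ∀ c, ∃ t : S, ∀ y, t • y = tau ν c y)
    (stab : ∀ V : Submodule A (⨁ l, P l), (∀ c, ∀ y ∈ V, tau ν c y ∈ V) →
      ∀ a : S, ∀ y ∈ V, a • y ∈ V)
    (Z : ∀ l, Submodule A (P l)) (hZ : ∀ l c, ∀ x ∈ Z l, ν l c x ∈ Z (l + ω)) (l₀ : ℤ) :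
    ∃ l₁, ∀ T : Submonoid A, (∀ l ≥ l₀, ∀ x : P (l + ω), ∃ r ∈ T, r • x ∈ map₂ (ν l) ⊤ ⊤) →
      ∀ l ≥ l₁, ∀ x ∈ Z (l + ω), ∃ r ∈ T, r • x ∈ map₂ (ν l) ⊤ (Z l) := by
  let P' : Submodule S (⨁ l, P l) :=
    ⨆ l ∈ Finset.Ico l₀ (l₀ + ω), span S (LinearMap.range (lof A ℤ P l) : Set (⨁ l, P l))
  have hP' : P'.FG := fg_biSup _ _ fun l _ => FG.span (fg_range _)
  let X : ℕ → Set (⨁ l, P l) := fun m =>
    {y | y ∈ P' ∧ ∃ l ≤ (m : ℤ), ∃ x ∈ Z l, y = lof A ℤ P l x}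
  let U : ℕ →o Submodule S (⨁ l, P l) := ⟨fun m => span S (X m), fun m m' h => span_mono
    fun y ⟨h1, l, h2, h3⟩ => ⟨h1, l, by omega, h3⟩⟩
  obtain ⟨m, hm⟩ := (hP'.of_le (iSup_le fun m => span_le.2 fun y hy => hy.1 :
    iSup U ≤ P')).stabilizes_of_iSup_eq U rfl
  refine ⟨max l₀ m, fun T hT l hl x hx => ?_⟩
  obtain ⟨r, hr, h⟩ := big ν hω hS (P' := P') (fun l h1 h2 x =>
    mem_iSup_of_mem l (mem_iSup_of_mem (Finset.mem_Ico.2 ⟨h1, h2⟩) (subset_span ⟨x, rfl⟩))) hT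
    (l + ω - l₀ + 1).toNat (l + ω) (by omega) (by omega) x
  refine ⟨r, hr, ?_⟩
  have hy : lof A ℤ P (l + ω) (r • x) ∈ U m := by
    rw [← hm]
    exact mem_iSup_of_mem (l + ω).toNat (subset_span
      ⟨by rwa [map_smul], l + ω, by omega, r • x, (Z _).smul_mem r hx, rfl⟩)
  have := small ν hω stab Z hZ (m := m) (span_mono (fun _ h => h.2) hy) l (by omega)
  rwa [lof_eq_of, of_eq_same] at this

end

theorem noeth [IsNoetherianRing A] {E : Type} [Ring E] [Algebra A E] {s : Set E} (hs : s.Finite)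
    (h : ∀ x ∈ s, ∀ y ∈ s, x * y = y * x) : IsNoetherianRing (Algebra.adjoin A s) := by
  have hc := Algebra.isMulCommutative_adjoin A h
  let : CommRing (Algebra.adjoin A s) :=
    { (inferInstance : Ring (Algebra.adjoin A s)) with mul_comm := hc.is_comm.comm }
  have : Algebra.FiniteType A (Algebra.adjoin A s) :=
    (Subalgebra.fg_iff_finiteType _).1 (Subalgebra.fg_def.2 ⟨s, hs, rfl⟩)
  exact Algebra.FiniteType.isNoetherianRing A _

theorem exists_ring [IsNoetherianRing A] [Module.Finite A C] {D : Type} [AddCommGroup D]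
    [Module A D] (τ : C →ₗ[A] Module.End A D) (comm : ∀ c c', τ c * τ c' = τ c' * τ c) :
    ∃ (S : Type) (_ : Ring S) (_ : Algebra A S) (_ : Module S D) (_ : IsScalarTower A S D),
      IsNoetherianRing S ∧ (∀ c, ∃ t : S, ∀ y, t • y = τ c y) ∧
      ∀ V : Submodule A D, (∀ c, ∀ y ∈ V, τ c y ∈ V) → ∀ a : S, ∀ y ∈ V, a • y ∈ V := by
  obtain ⟨s, hs⟩ := Module.Finite.fg_top (R := A) (M := C)
  let S := Algebra.adjoin A (τ '' s)
  have hS : ∀ c, τ c ∈ S := fun c => by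
    have h : τ c ∈ span A (τ '' s) := by
      rw [← map_span, hs]; exact mem_map_of_mem mem_top
    exact Algebra.span_le_adjoin A _ h
  refine ⟨S, inferInstance, inferInstance, inferInstance, inferInstance,
    noeth ((s.finite_toSet).image _) ?_, fun c => ⟨⟨_, hS c⟩, fun _ => rfl⟩, ?_⟩
  · rintro _ ⟨c, -, rfl⟩ _ ⟨c', -, rfl⟩
    exact comm c c'
  rintro V hV ⟨a, ha⟩ y h
  change a y ∈ V
  induction ha using Algebra.adjoin_induction generalizing y with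
  | mem a ha => obtain ⟨c, -, rfl⟩ := ha; exact hV c y h
  | algebraMap r => exact V.smul_mem r h
  | add a b _ _ h1 h2 => exact V.add_mem (h1 y h) (h2 y h)
  | mul a b _ _ h1 h2 => exact h1 _ (h2 y h)

/-- a graded submodule of a finitely generated graded module is finitely generated -/
theorem fg [IsNoetherianRing A] [Module.Finite A C] [∀ l, Module.Finite A (P l)] (hω : 0 < ω)
    (comm : ∀ l c c' x, ν (l + ω) c (ν l c' x) = ν (l + ω) c' (ν l c x))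
    (Z : ∀ l, Submodule A (P l)) (hZ : ∀ l c, ∀ x ∈ Z l, ν l c x ∈ Z (l + ω)) (l₀ : ℤ) :
    ∃ l₁, ∀ T : Submonoid A, (∀ l ≥ l₀, ∀ x : P (l + ω), ∃ r ∈ T, r • x ∈ map₂ (ν l) ⊤ ⊤) →
      ∀ l ≥ l₁, ∀ x ∈ Z (l + ω), ∃ r ∈ T, r • x ∈ map₂ (ν l) ⊤ (Z l) := by
  obtain ⟨S, _, _, _, _, _, h1, h2⟩ := exists_ring (tau ν) fun c c' =>
    linearMap_ext A fun l => LinearMap.ext fun x => by
      simp only [LinearMap.comp_apply, Module.End.mul_apply, tau_lof, comm]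
  exact fg_aux ν hω h1 h2 Z hZ l₀

end Vale.Agent.P297Z.Sg
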