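import Vale.Agent.P297Z.Loc.Defs
import Vale.Agent.P297Z.Loc.Td

/-!
# P297: assembly of the localisation theorem, the contribution of one component
-/

set_option linter.all false

noncomputable section

namespace Vale.Agent.P297Z

open PowerSeries

namespace Lc

/-- the projection formula and the composition of push-forwards -/
structure Api2 : Prop where
  push_proj : ∀ {X Y : Spc} {f : Mor X Y} (P : Prj f) (a : K0 Y) (x : G X),
    push P (kact X (pullK f a) x) = kact Y a (push P x)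
  push_comp : ∀ {X Y Z : Spc} {f : Mor X Y} {g : Mor Y Z} (P : Prj f) (Q : Prj g)
    (R : Prj (g.comp f)) (x : G X), push R x = push Q (push P x)

theorem cc_pull (h : Api) {W X : Spc} (f : Mor W X) (i : ℕ) (a : K0 X) :
    pullK f (cc i a) = cc i (pullK f a) := by
  simp only [cc, map_sum, map_zsmul, h.lam_pull, rk_pullK]

theorem cT_pull (h : Api) {W X : Spc} (f : Mor W X) (a : K0 X) :
    map (pullK f) (cT a) = cT (pullK f a) := by
  ext i
  simp only [cT, coeff_map, coeff_mk, cc_pull h]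

theorem IsCls_pull {W X : Spc} (f : Mor W X) {a : K0 X} {r : ℕ} (ha : IsCls a r) :
    IsCls (pullK f a) r := by
  obtain ⟨B, rfl, rfl⟩ := ha
  exact ⟨⟨f.pull B.M, B.rk, B.free.pull f⟩, rfl, by rw [pullK_cls, kc_eq (B.free.pull f)]⟩

variable {ι : Type} [Fintype ι] [Nonempty ι] {d : ι → ℤ} {O : Obs ι d}

/-- the polynomial `∏ (1 - t ^ k)` -/
def pT (V : Spc) (l : List ℤ) : K0 (V.prod ptT) := (l.map fun k => 1 - tK V k).prod

theorem pull_tY (c : O.Comp) (k : ℤ) : pullK (O.inc.comp c.j) (tY d k) = tK c.X k := by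
  rw [tY, pullK_line, tK_eq]
  congr 1
  have h1 : (fun o : O.Q.J => o.elim 0 fun _ => k) =
      k • (Pi.single (some ()) 1 : O.Q.J → ℤ) := by
    funext o
    cases o with
    | none => exact (mul_zero k).symm
    | some o => exact (mul_one k).symm
  refine (congrArg c.j.ρ h1).trans ((map_zsmul c.j.ρ k _).trans ?_)
  rw [c.jt]
  funext j
  cases j with
  | inl j => exact mul_zero k
  | inr j => exact mul_one k

/-- on a component only one fraction survives -/
theorem pull_pf (h : Api) (c : O.Comp) (hw : c.w ∈ Finset.univ.image d) {l : List ℤ}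
    {aw : ℤ → K0 (Amb ι d)}
    (hp : (l.map fun k => 1 - tY d k).prod = ∑ w ∈ Finset.univ.image d, aw w * kap d w) :
    pullK (O.inc.comp c.j) (aw c.w) * pullK (O.inc.comp c.j) (kap d c.w) = pT c.X l := by
  classical
  have h1 := congrArg (pullK (O.inc.comp c.j)) hp
  rw [map_list_prod, List.map_map, map_sum] at h1
  have h2 : pT c.X l = (List.map (⇑(pullK (O.inc.comp c.j)) ∘ fun k => 1 - tY d k) l).prod := by
    rw [pT]
    congr 2
    funext k
    simp only [Function.comp, map_sub, map_one, pull_tY]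
  rw [h2, h1, Finset.sum_eq_single_of_mem c.w hw, map_mul]
  intro w _ hne
  have h3 := h.prod_line (X := c.X.prod ptT) (Finset.univ.filter fun a => d a = c.w)
    (fun a => (O.inc.comp c.j).φ (Amb.x d a))
    (fun a => (O.inc.comp c.j).ρ fun o => o.elim 1 fun _ => d a)
    ((Finset.mem_image.1 hw).imp fun a ha => Finset.mem_filter.2 ha)
    (fun a _ => (O.inc.comp c.j).wt_map _ _ (Spc.X_mem ptT ι (fun a _ => d a) a)) (fun z => by
      obtain ⟨a, ha⟩ := ((Spc.adj_pt ptT ι (fun a _ => d a) _).1 ((O.inc.comp c.j).onPt z).2).2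
      refine ⟨a, Finset.mem_filter.2 ⟨Finset.mem_univ _, ?_⟩, ha⟩
      by_contra hn
      exact ha ((congrArg z.1 (c.fix a hn)).trans (map_zero _)))
  have h4 : (Finset.univ.filter fun a => d a = c.w) ⊆ Finset.univ.filter fun a => d a ≠ w := by
    intro a ha
    rw [Finset.mem_filter] at ha ⊢
    exact ⟨ha.1, fun h => hne (h.symm.trans ha.2)⟩
  rw [map_mul, kap, map_prod, ← Finset.prod_sdiff h4]
  have h5 : ∏ a ∈ Finset.univ.filter fun a => d a = c.w, pullK (O.inc.comp c.j) (1 - chi d a) = 0 := by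
    rw [← h3]
    refine Finset.prod_congr rfl fun a _ => ?_
    rw [map_sub, map_one, chi, pullK_line, ← map_neg]
    rfl
  rw [h5, mul_zero, mul_zero]

/-- the algebra of one component -/
theorem comp_key (h : Api) (hm : LMUL) (hk : KEY) (c : O.Comp) (g : Img c) (K : g.Ker)
    {l : List ℤ} {aw : ℤ → K0 (Amb ι d)}
    (hp : (l.map fun k => 1 - tY d k).prod = ∑ w ∈ Finset.univ.image d, aw w * kap d w)
    {W : Spc} {nW : ℕ} (hW : W.IsVar nW) (x : K0 ((c.X.prod W).prod ptT)) {m : ℕ}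
    {s : (K0 (c.X.prod W))⟦X⟧} (hs : Lead _ m x s) (D : ℕ) :
    ∃ A₀ : ℕ, ∀ A, A₀ ≤ A → ∃ (E : ℕ) (R : K0 ((c.X.prod W).prod ptT))
      (s' : (K0 (c.X.prod W))⟦X⟧),
      (1 - tK _ 1) ^ A * (x * pullK ((Mor.fst c.X W).map (Mor.id ptT))
        (pullK (O.inc.comp c.j) (aw c.w) *
          pullK (g.j0.map (Mor.id ptT)) (cc K.C'.rk K.C'.cls))) - pT _ l * R ∈ Nul _ D ∧
      Lead _ E R s' ∧ (E : ℤ) = A + m + c.Ob.rk + rk _ c.bp + rk _ c.bm ∧
      coeff D s' = ((-1 : ℤ) ^ (rk _ c.bm).natAbs) • coeff D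
        (map (pullK (Mor.fst c.X W))
          (C (cc c.Ob.rk c.Ob.cls) * X ^ c.Ob.rk * cT c.bp * rescale (-1) (cT c.bm)) * s) := by
  classical
  set u := (Mor.fst c.X W).map (Mor.id ptT) with hu
  have hV := h.var_prod c.var hW
  have e1 : ∀ y : K0 c.X, pullK u (pullK (Mor.fst c.X ptT) y) =
      pullK (Mor.fst _ ptT) (pullK (Mor.fst c.X W) y) := fun y => by
    rw [← pullK_comp, ← pullK_comp, hu, Mor.fst_map]
  have e2 : ∀ a, pullK u (pullK (O.inc.comp c.j) (chi d a)) =
      line _ (u.ρ ((O.inc.comp c.j).ρ fun o => -o.elim 1 fun _ => d a)) := fun a => by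
    rw [chi, pullK_line, pullK_line]
  have e3 : ∀ k, pullK u (tK c.X k) = tK _ k := fun k => pullK_tK _ k
  obtain ⟨A₀, E, R, s₀, k1, k2, k3, k4⟩ := hk _ _ hV
    (pullK u (pullK (g.j0.map (Mor.id ptT)) K.C'.cls)) K.C'.rk
    (IsCls_pull _ (IsCls_pull _ ⟨K.C', rfl, rfl⟩)) (pullK (Mor.fst c.X W) c.Ob.cls) c.Ob.rk
    (IsCls_pull _ ⟨c.Ob, rfl, rfl⟩) (pullK (Mor.fst c.X W) c.bp) (pullK (Mor.fst c.X W) c.bm) ι
    (Finset.univ.filter fun a => d a ≠ c.w)
    (fun a => u.ρ ((O.inc.comp c.j).ρ fun o => -o.elim 1 fun _ => d a)) (by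
      rw [K.ob]
      simp only [map_add, map_mul, map_sum, e1, e2, e3]) D
  obtain ⟨m1, m2, m3, m4, m5, m6⟩ := hm (c.X.prod W)
  refine ⟨A₀, fun A hA => ⟨m + (A - A₀) + E, x * (1 - tK _ 1) ^ (A - A₀) * R, s * 1 * s₀, ?_,
    m1 _ _ _ _ _ _ (m1 _ _ _ _ _ _ hs (m2 _)) k2, ?_, ?_⟩⟩
  · have h1 := congrArg (pullK u) (pull_pf h c g.mem hp)
    have h2 : pullK u (pT c.X l) = pT _ l := by
      rw [pT, pT, map_list_prod, List.map_map]
      congr 2
      funext k
      simp only [Function.comp, map_sub, map_one, hu, pullK_tK]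
    have h3 : pullK u (pullK (O.inc.comp c.j) (kap d c.w)) =
        ∏ a ∈ Finset.univ.filter fun a => d a ≠ c.w,
          (1 - line _ (u.ρ ((O.inc.comp c.j).ρ fun o => -o.elim 1 fun _ => d a))) := by
      rw [kap, map_prod, map_prod]
      refine Finset.prod_congr rfl fun a _ => ?_
      rw [map_sub, map_sub, map_one, map_one, e2]
    rw [map_mul, h2, h3] at h1
    have h4 := m6 _ D hV (x * (1 - tK _ 1) ^ (A - A₀) * pullK u (pullK (O.inc.comp c.j) (aw c.w)))
      _ k1
    convert h4 using 1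
    rw [← h1, map_mul, cc_pull h, cc_pull h]
    obtain ⟨n, rfl⟩ := Nat.exists_eq_add_of_le hA
    rw [Nat.add_sub_cancel_left]
    ring
  · rw [rk_pullK, rk_pullK] at k3
    push_cast [Nat.cast_sub hA]
    linarith
  · rw [mul_one, mul_comm s, coeff_mul, coeff_mul, Finset.smul_sum]
    refine Finset.sum_congr rfl fun p hp => ?_
    rw [k4 _ (Finset.HasAntidiagonal.antidiagonal.fst_le hp), rk_pullK, smul_mul_assoc]
    congr 3
    rw [map_mul, map_mul, map_mul, map_C, map_pow, map_X, cc_pull h, cT_pull h, ← cT_pull h _ c.bm]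
    congr 1
    ext i
    simp only [coeff_rescale, coeff_map, map_mul, map_pow, map_neg, map_one]

end Lc

end Vale.Agent.P297Z
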