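import Vale.Agent.P297Z.Loc.Defs
import Vale.Agent.P297Z.K.AK3
import Vale.Agent.P297Z.K.AG

/-!
# P297: the kernel of the map from the obstruction bundle to the conormal bundle
-/

set_option linter.all false

open scoped TensorProduct

noncomputable section

namespace Vale.Agent.P297Z

open GMod AK

namespace Lc

namespace ObA

section gen

variable {W X : Spc} {A B C : GMod X} {a b c : ℕ}

/-- the elements without support -/
def tors (M : GMod X) : Submodule X.R M.M where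
  carrier := {m | ∀ z : X.Pt, ∃ r, z.1 r ≠ 0 ∧ r • m = 0}
  zero_mem' := fun z => ⟨1, one_ne, smul_zero _⟩
  add_mem' := fun {x y} hx hy z => by
    obtain ⟨r, h1, h2⟩ := hx z
    obtain ⟨s, h3, h4⟩ := hy z
    exact ⟨r * s, mul_ne h1 h3, by rw [smul_add, mul_smul r s y, h4, mul_comm, mul_smul, h2]; simp⟩
  smul_mem' := fun s x hx z => (hx z).imp fun r h => ⟨h.1, by rw [smul_comm, h.2, smul_zero]⟩

theorem tors_stab (M : GMod X) : M.Stab (tors M) := fun g m hm z => by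
  obtain ⟨r, h1, h2⟩ := hm (Spc.mv z g)
  exact ⟨X.act g r, h1, by rw [← M.act_smul, h2, map_zero]⟩

theorem exists_ker [h : Nonempty X.Pt] {f : B.M →ₗ[X.R] C.M} (hf : B.IsHom C f) (hB : B.IsBun b)
    (hC : C.IsBun c) (hs : ∀ z : X.Pt, SurjAt z.1 f) : ∃ a, b = a + c ∧ hf.kerM.IsBun a := by
  obtain ⟨z⟩ := h
  have h1 := fdim_le_of_surj (hs z).fib
  rw [hB.fdim, hC.fdim] at h1
  obtain ⟨a, rfl⟩ := Nat.exists_eq_add_of_le' h1
  exact ⟨a, rfl, (hf.ses_ker hs).isBun_left hB hC⟩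

theorem exists_coker [h : Nonempty X.Pt] {f : A.M →ₗ[X.R] B.M} (hf : A.IsHom B f) (hA : A.IsBun a)
    (hB : B.IsBun b) (hi : ∀ z : X.Pt, Function.Injective (fibMap z.1 f)) :
    ∃ D : Bun X, kc B b = kc A a + D.cls := by
  have hs := hf.ses_coker fun z => injAt_of_fib (hB z) (hi z)
  obtain ⟨z⟩ := h
  have h1 := frk_add_coker (z := z.1) f
  rw [frk_of_inj (hi z), hA.fdim, hB.fdim] at h1
  subst h1
  have h2 := hs.isBun_right hA hB hi
  exact ⟨⟨_, _, h2⟩, by rw [kc_ses hs hA h2, kc_eq h2]⟩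

theorem fib_pu (φ : Mor W X) (z : W.R →ₐ[ℂ] ℂ) (x : Fib z (φ.pull A).M) :
    ∃ m, Submodule.Quotient.mk (pu φ A m) = x := by
  obtain ⟨x, rfl⟩ := fib_surj x
  induction x using pu_ind with
  | h0 => exact ⟨0, by rw [map_zero]⟩
  | h1 x => exact ⟨x, rfl⟩
  | hs s m hm =>
    obtain ⟨m', h⟩ := hm
    exact ⟨z s • m', by
      rw [pu_cmul, Submodule.Quotient.mk_smul, h, Submodule.Quotient.mk_smul, fib_smul]⟩
  | ha x y hx hy =>
    obtain ⟨x', h⟩ := hx
    obtain ⟨y', h'⟩ := hy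
    exact ⟨x' + y', by rw [map_add, Submodule.Quotient.mk_add, h, h', Submodule.Quotient.mk_add]⟩

theorem pu_mem (φ : Mor W X) (z : W.R →ₐ[ℂ] ℂ) {m : A.M}
    (h : m ∈ (RingHom.ker z).comap φ.φ • (⊤ : Submodule X.R A.M)) :
    (Submodule.Quotient.mk (pu φ A m) : Fib z (φ.pull A).M) = 0 :=
  (Submodule.Quotient.mk_eq_zero _).2 (Submodule.smul_induction_on h (fun r hr n _ => by
    rw [pu_smul]
    exact Submodule.smul_mem_smul hr Submodule.mem_top) fun x y hx hy => by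
    rw [map_add]
    exact add_mem hx hy)

theorem map_mem_smul {R V : Type} [CommRing R] [AddCommGroup V] [Module R V] {p m J : Ideal R}
    (E : p →ₗ[R] V) (hE : ∀ x y : p, x.1 - y.1 ∈ J → E x = E y) {f : p} (h : f.1 ∈ m * p ⊔ J) :
    E f ∈ m • (⊤ : Submodule R V) := by
  obtain ⟨x, hx, y, hy, e⟩ := Submodule.mem_sup.1 h
  have hx' : x ∈ p := (Ideal.mul_le_inf hx).2
  rw [hE f ⟨x, hx'⟩ (by rwa [← e, add_sub_cancel_left])]
  have h0 : (⟨x, hx'⟩ : p) ∈ m • (⊤ : Submodule R p) :=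
    (Submodule.mem_smul_top_iff m p ⟨x, hx'⟩).2 hx
  have h1 := Submodule.mem_map_of_mem (f := E) h0
  rw [Submodule.map_smul''] at h1
  exact Submodule.smul_mono le_rfl le_top h1

theorem delta_pull (k : Mor W X) {κ : Type} [Fintype κ] (δ : A.M →ₗ[X.R] (κ → X.R))
    (h : ∀ z : X.Pt, Function.Injective (fibMap z.1 δ)) :
    ∃ δ' : (k.pull A).M →ₗ[W.R] (κ → W.R), (∀ x a, δ' (pu k A x) a = k.φ (δ x a)) ∧
      ∀ z : W.Pt, InjAt z.1 δ' := by
  obtain ⟨δ', h8⟩ := exists_plift k A (V := κ → W.R)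
    (AddMonoidHom.mk' (fun x a => k.φ (δ x a)) fun x y => funext fun a => by
      rw [map_add, Pi.add_apply, map_add]
      rfl) fun s x => funext fun a => by
      show k.φ (δ (s • x) a) = k.φ s * k.φ (δ x a)
      rw [map_smul, ← map_mul]
      rfl
  refine ⟨δ', fun x a => congrFun (h8 x) a, fun z => injAt_of_fib (freeAt_fun _)
    ((injective_iff_map_eq_zero _).2 fun x hx => ?_)⟩
  obtain ⟨x, rfl⟩ := fib_pu k z.1 x
  rw [fibMap_mk, h8, mk_pi_eq_zero] at hx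
  exact pu_mem k z.1 ((Submodule.Quotient.mk_eq_zero _).1
    ((injective_iff_map_eq_zero _).1 (h (k.onPt z)) _
      ((mk_pi_eq_zero (z := (k.onPt z).1) (v := δ x)).2 hx)))

theorem cls_split [Nonempty X.Pt] {u : A.M →ₗ[X.R] B.M} {ν : B.M →ₗ[X.R] C.M} (hu : A.IsHom B u)
    (hν : B.IsHom C ν) (hA : A.IsBun a) (hB : B.IsBun b) (hC : C.IsBun c)
    (h1 : ∀ z : X.Pt, Function.Injective (fibMap z.1 u)) (h2 : ∀ z : X.Pt, SurjAt z.1 ν)
    (h3 : ∀ x, ν (u x) ∈ tors C) : ∃ D : Bun X, kc B b = kc A a + D.cls + kc C c := by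
  obtain ⟨m, rfl, hK⟩ := exists_ker hν hB hC h2
  have hS := hν.stab_comap (tors_stab C)
  have hq : Qis hν.kerM (B.sub _ hS) (Submodule.inclusion fun x hx =>
      Submodule.mem_comap.2 ((congrArg (· ∈ _) hx).mpr (zero_mem _))) :=
    qis_of_bij (isHom_inclusion _ _ _) fun z => ⟨.of_inj (Submodule.inclusion_injective _),
      fun x => (x.2 z).imp fun r h => ⟨⟨r • x.1, (map_smul _ r x.1).trans h.2⟩, h.1, rfl⟩⟩
  obtain ⟨D, hD⟩ := exists_coker (hu.codRestrict hS h3) hA (hq.isBun_iff.1 hK) fun z x y h =>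
    h1 z ((fibMap_comp (Submodule.subtype _) (u.codRestrict _ h3) x).trans
      ((congrArg _ h).trans (fibMap_comp (Submodule.subtype _) (u.codRestrict _ h3) y).symm))
  exact ⟨D, by rw [kc_ses (hν.ses_ker h2) hK hC, kc_qis hq, hD]⟩

end gen

variable {ι : Type} [Fintype ι] [Nonempty ι] {d : ι → ℤ} {O : Obs ι d} {c : O.Comp} (g : Img c)

theorem pd_mul (a : ι) (r f : (Amb ι d).R) :
    Amb.pd d a (r * f) = r * Amb.pd d a f + f * Amb.pd d a r :=
  (MvPolynomial.pderiv (R := ℂ) a).leibniz r f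

theorem pd_add (a : ι) (r f : (Amb ι d).R) :
    Amb.pd d a (r + f) = Amb.pd d a r + Amb.pd d a f := map_add (MvPolynomial.pderiv (R := ℂ) a) r f

theorem inc_zero {f : (Amb ι d).R} (hf : f ∈ O.I) : O.inc.φ f = 0 :=
  Ideal.Quotient.eq_zero_iff_mem.2 fun z hz => (O.mem z).1 hz f hf

theorem I_le : O.I ≤ g.p := fun f hf =>
  (congrArg g.i.φ (inc_zero hf)).trans (map_zero _)

theorem Jw_le : Jw d c.w ≤ g.p := Ideal.span_le.2 (by
  rintro _ ⟨a, ha, rfl⟩
  exact g.fix a ha)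

theorem pd_Jw {a : ι} (ha : d a = c.w) {f : (Amb ι d).R} (hf : f ∈ Jw d c.w) :
    g.e.φ (Amb.pd d a f) = 0 := by
  induction hf using Submodule.span_induction with
  | mem x hx =>
    obtain ⟨b, hb, rfl⟩ := hx
    exact (congrArg g.e.φ (MvPolynomial.pderiv_X_of_ne (R := ℂ) fun e => hb ((congrArg d e).trans ha))).trans
      (map_zero _)
  | zero => exact (congrArg g.e.φ (map_zero (MvPolynomial.pderiv (R := ℂ) a))).trans (map_zero _)
  | add x y _ _ hx hy => rw [pd_add, map_add, hx, hy, add_zero]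
  | smul r x h hx =>
    rw [smul_eq_mul, pd_mul, map_add, map_mul, map_mul, hx, show g.e.φ x = 0 from Jw_le g h,
      mul_zero, zero_mul, add_zero]

/-- the ideal of the component in the linear subspace -/
abbrev N0 : GMod (Amb ι d) := (Ow d c.w).sub (g.p ^ 1 • ⊤) (g.pow_stab 1)

variable (O) in
/-- the ideal of the zero set -/
abbrev IM : GMod (Amb ι d) := (one _).sub O.I O.stab

variable (d) in
/-- the projection to the linear subspace -/
def mkO (w : ℤ) : (Amb ι d).R →ₗ[(Amb ι d).R] (Ow d w).M := (Jw d w).mkQ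

theorem mkO_eq {w : ℤ} {x y : (Amb ι d).R} : mkO d w x = mkO d w y ↔ x - y ∈ Jw d w :=
  Submodule.Quotient.eq (Jw d w)

/-- the class of an element of the ideal -/
def el : g.p →ₗ[(Amb ι d).R] (N0 g).M :=
  LinearMap.codRestrict (g.p ^ 1 • ⊤) (mkO d c.w ∘ₗ g.p.subtype) fun f => by
    have e : (mkO d c.w ∘ₗ g.p.subtype) f = f.1 • mkO d c.w 1 := by
      rw [← map_smul, smul_eq_mul, mul_one]
      rfl
    rw [e, pow_one]
    exact Submodule.smul_mem_smul f.2 Submodule.mem_top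

theorem el_surj (n : (N0 g).M) : ∃ f, el g f = n := by
  obtain ⟨n, hn⟩ := n
  suffices h : ∃ f ∈ g.p, mkO d c.w f = n from h.elim fun f h => ⟨⟨f, h.1⟩, Subtype.ext h.2⟩
  rw [pow_one] at hn
  refine Submodule.smul_induction_on hn (fun r hr m _ => ?_) fun x y hx hy => ?_
  · obtain ⟨m, rfl⟩ : ∃ m', mkO d c.w m' = m := (Jw d c.w).mkQ_surjective m
    exact ⟨r * m, g.p.mul_mem_right m hr, map_smul (mkO d c.w) r m⟩
  · obtain ⟨x, h1, rfl⟩ := hx
    obtain ⟨y, h2, rfl⟩ := hy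
    exact ⟨x + y, add_mem h1 h2, map_add _ _ _⟩

theorem el_eq {x y : g.p} (h : x.1 - y.1 ∈ Jw d c.w) : el g x = el g y :=
  Subtype.ext (mkO_eq.2 h)

/-- the inclusion of the ideals -/
def inI : (IM O).M →ₗ[(Amb ι d).R] g.p where
  toFun := fun x => ⟨x.1, I_le g x.2⟩
  map_add' := fun _ _ => rfl
  map_smul' := fun _ _ => rfl

/-- the map to the conormal module -/
theorem exists_nu (hg : g.Reg) : ∃ (l : (O.inc.pull (IM O)).M →+ (g.e.pull (N0 g)).M)
    (ν : (g.i.pull O.C.M).M →ₗ[(g.F.prod ptT).R] (g.e.pull (N0 g)).M),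
    (∀ s x, l (s • x) = g.i.φ s • l x) ∧
    (∀ f, l (pu O.inc (IM O) f) = pu g.e (N0 g) (el g (inI g f))) ∧
    (∀ x, ν (pu g.i O.C.M x) = l (O.θ x)) ∧ IsHom _ _ ν ∧ ∀ z : (g.F.prod ptT).Pt, SurjAt z.1 ν := by
  obtain ⟨l0, h0⟩ := exists_plift O.inc (IM O) (V := g.i.Res (g.e.pull (N0 g)))
    ((pu g.e (N0 g)).comp (el g ∘ₗ inI g).toAddMonoidHom)
    fun s x => (congrArg (pu g.e (N0 g)) (map_smul (el g ∘ₗ inI g) s x)).trans (pu_smul g.e s _)
  let l : (O.inc.pull (IM O)).M →+ (g.e.pull (N0 g)).M := l0.toAddMonoidHom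
  have h1 : ∀ s x, l (s • x) = g.i.φ s • l x := l0.map_smul
  have h2 : ∀ f, l (pu O.inc (IM O) f) = pu g.e (N0 g) (el g (inI g f)) := h0
  obtain ⟨ν, h3⟩ := exists_plift g.i O.C.M (l.comp O.θ.toAddMonoidHom) fun s x =>
    (congrArg l (O.θ.map_smul s x)).trans (h1 _ _)
  replace h3 : ∀ x, ν (pu g.i O.C.M x) = l (O.θ x) := h3
  have h4 : ∀ t x, l (GMod.act _ (tor g.i.ρ t) x) = GMod.act _ t (l x) := fun t x => by
    induction x using pu_ind with
    | h0 => rw [map_zero, map_zero, map_zero]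
    | h1 x =>
      rw [pu_act, h2, h2, pu_act, ← tor_comp]
      rfl
    | hs s m hm => rw [act_smul, h1, h1, act_smul, hm, g.i.act_map]
    | ha x y hx hy => rw [map_add, map_add, map_add, map_add, hx, hy]
  refine ⟨l, ν, h1, h2, h3, isHom_pu fun t x => ?_, fun z => surjAt_iff_fib.2 fun x => ?_⟩
  · rw [h3, h3]
    exact (congrArg l (O.hom _ x)).trans (h4 _ _)
  · obtain ⟨n, rfl⟩ := fib_pu g.e z.1 x
    obtain ⟨f, rfl⟩ := el_surj g n
    obtain ⟨r, k1, k2⟩ := hg.gen z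
    obtain ⟨x, hx, y, hy, e⟩ := Submodule.mem_sup.1 (k2 f f.2)
    obtain ⟨x', rfl⟩ : ∃ x' : (IM O).M, (inI g x').1 = x := ⟨⟨x, hx⟩, rfl⟩
    obtain ⟨s, v, k3, k4⟩ := O.surj (g.i.onPt z) (pu O.inc (IM O) x')
    have e' : el g (inI g x') = el g (r • f) := el_eq g (by
      rw [Submodule.coe_smul, smul_eq_mul, ← e, sub_add_cancel_left]
      exact neg_mem hy)
    refine fib_mem (S := LinearMap.range (fibMap z.1 ν)) (mul_ne (r := g.i.φ s) k3 k1)
      ⟨Submodule.Quotient.mk (pu g.i O.C.M v), ?_⟩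
    rw [fibMap_mk, h3, ← Submodule.Quotient.mk_smul, mul_smul]
    refine congrArg _ ((congrArg l k4).trans ?_)
    rw [h1, h2, e', map_smul, pu_smul]

/-- the differential -/
theorem exists_delta (hg : g.Reg) :
    ∃ δ : (g.e.pull (N0 g)).M →ₗ[(g.F.prod ptT).R] ({a // d a = c.w} → (g.F.prod ptT).R),
      (∀ f a, δ (pu g.e (N0 g) (el g f)) a = g.e.φ (Amb.pd d a f)) ∧
      ∀ z : (g.F.prod ptT).Pt, Function.Injective (fibMap z.1 δ) := by
  let D : (Amb ι d).R →+ ({a // d a = c.w} → (g.F.prod ptT).R) :=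
    AddMonoidHom.mk' (fun f a => g.e.φ (Amb.pd d a f)) fun x y => funext fun a => by
      rw [pd_add, map_add]
      rfl
  let D' : (N0 g).M →+ ({a // d a = c.w} → (g.F.prod ptT).R) :=
    (QuotientAddGroup.lift (Jw d c.w).toAddSubgroup D fun f hf =>
      funext fun a => pd_Jw g a.2 hf).comp (Submodule.subtype _).toAddMonoidHom
  have hD : ∀ f a, D' (el g f) a = g.e.φ (Amb.pd d a f) := fun _ _ => rfl
  obtain ⟨δ, h1⟩ := exists_plift g.e (N0 g) D' fun s x => by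
    obtain ⟨f, rfl⟩ := el_surj g x
    refine funext fun a => ?_
    rw [← map_smul, hD, Pi.smul_apply, hD, Submodule.coe_smul, smul_eq_mul, pd_mul, map_add,
      map_mul, map_mul, show g.e.φ f = 0 from f.2, zero_mul, add_zero, smul_eq_mul]
  refine ⟨δ, fun f a => congrFun (h1 _) a, fun z => (injective_iff_map_eq_zero _).2 fun x hx => ?_⟩
  obtain ⟨n, rfl⟩ := fib_pu g.e z.1 x
  obtain ⟨f, rfl⟩ := el_surj g n
  rw [fibMap_mk, h1, mk_pi_eq_zero] at hx
  obtain ⟨r, k1, k2⟩ := hg.dinj z f f.2 fun b hb => hx ⟨b, hb⟩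
  refine fib_eq_zero k1 ?_
  rw [← Submodule.Quotient.mk_smul, ← pu_smul, ← map_smul]
  exact pu_mem g.e z.1 (map_mem_smul (el g) (fun _ _ => el_eq g) k2)

instance : Nonempty (c.X.prod ptT).Pt :=
  c.var.ne.map (Mor.lift (Mor.id _) (Mor.toPt _ Unit 0)).onPt

theorem exists_psi (a : ι) : ∃ ψ : (O.inc.pull (IM O)).M →ₗ[O.Q.R] O.Q.R,
    ∀ f, ψ (pu O.inc (IM O) f) = O.inc.φ (Amb.pd d a (inI g f)) :=
  exists_plift O.inc (IM O) (V := O.Q.R)
    (AddMonoidHom.mk' (fun f => O.inc.φ (Amb.pd d a (inI g f))) fun x y => by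
      rw [map_add, Submodule.coe_add, pd_add, map_add]) fun s x => by
    show O.inc.φ (Amb.pd d a (inI g (s • x))) = O.inc.φ s * O.inc.φ (Amb.pd d a (inI g x))
    rw [map_smul, Submodule.coe_smul, smul_eq_mul, pd_mul, map_add, map_mul, map_mul,
      inc_zero (O := O) (f := inI g x) x.2, zero_mul, add_zero]

theorem exists_split (hg : g.Reg) {n : ℕ} (hN : (g.e.pull (N0 g)).IsBun n) :
    (∃ C' : Bun (g.F.prod ptT), pullK g.i O.C.cls = C'.cls + kc (g.e.pull (N0 g)) n) ∧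
      ∃ D : Bun (c.X.prod ptT), pullK c.j O.C.cls = pullK (Mor.fst _ _) c.Ob.cls + D.cls +
        pullK (g.j0.map (Mor.id ptT)) (kc (g.e.pull (N0 g)) n) := by
  obtain ⟨l, ν, h1, h2, h3, hν, h4⟩ := exists_nu g hg
  obtain ⟨δ, h5, h6⟩ := exists_delta g hg
  have fac := g.fac
  generalize g.j0.map (Mor.id ptT) = k at fac ⊢
  haveI : Nonempty (g.F.prod ptT).Pt := Nonempty.map k.onPt inferInstance
  obtain ⟨m, hm, hK⟩ := exists_ker hν (O.C.free.pull g.i) hN h4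
  have hs := hν.ses_ker h4
  refine ⟨⟨⟨_, m, hK⟩, by rw [pullK_cls, hm, kc_ses hs hK hN, kc_eq hK]⟩, ?_⟩
  have h7 := pull_comp g.i k O.C.M
  rw [← fac] at h7
  obtain ⟨v, hv, h7⟩ := h7
  obtain ⟨δ', h8, h9⟩ := delta_pull k δ h6
  rw [pullK_cls, pullK_cls, pullK_kc k hN]
  refine cls_split (ν := pm k ν ∘ₗ v) c.uhom ((hν.pull k).comp hv.1) (c.Ob.free.pull _)
    (O.C.free.pull _) (hN.pull k) c.uinj
    (fun z => ((hs.pull hN k).2.2.2 z).2.2.comp (hv.2 z).surjAt)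
    fun o z => h9 z _ (funext fun a => ?_)
  obtain ⟨ψ, k1⟩ := exists_psi g a.1
  have k2 : ∀ x, δ (l x) a = g.i.φ (ψ x) := fun x => by
    induction x using pu_ind with
    | h0 => rw [map_zero, map_zero, map_zero, map_zero]; rfl
    | h1 x => rw [h2, h5, k1]; rfl
    | hs s m hm => rw [h1, map_smul, map_smul, Pi.smul_apply, hm, smul_eq_mul, smul_eq_mul, map_mul]
    | ha x y hx hy => rw [map_add, map_add, map_add, map_add, Pi.add_apply, hx, hy]
  refine c.uzero a ψ k1 (LinearMap.proj a ∘ₗ δ' ∘ₗ pm k ν ∘ₗ v) (fun x => ?_) o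
  show δ' (pm k ν (v (pu c.j O.C.M x))) a = _
  rw [h7, pm_pu, h8, h3, k2, fac]
  rfl

end ObA

end Lc

end Vale.Agent.P297Z
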