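import Vale.Agent.P297Z.Loc.ObA

/-!
# P297: the kernel of the map from the obstruction bundle to the cotangent bundle
-/

set_option linter.all false

open scoped TensorProduct

noncomputable section

namespace Vale.Agent.P297Z

open GMod AK

namespace Obk

section gen

variable {Y : Spc} {A B T Θ : GMod Y} {a b c t n : ℕ}

theorem coker_bun [h : Nonempty Y.Pt] {f : A.M →ₗ[Y.R] B.M} (hf : A.IsHom B f) (hA : A.IsBun a)
    (hB : B.IsBun b) (hi : ∀ z : Y.Pt, Function.Injective (fibMap z.1 f)) :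
    ∃ c, b = a + c ∧ hf.cokerM.IsBun c ∧ SES A B hf.cokerM f (LinearMap.range f).mkQ := by
  have hs := hf.ses_coker fun z => injAt_of_fib (hB z) (hi z)
  obtain ⟨z⟩ := h
  have h1 := frk_add_coker (z := z.1) f
  rw [frk_of_inj (hi z), hA.fdim, hB.fdim] at h1
  subst h1
  exact ⟨_, rfl, hs.isBun_right hA hB hi, hs⟩

theorem ev_dual {R V : Type} [CommRing R] [Algebra ℂ R] [AddCommGroup V] [Module R V]
    {z : R →ₐ[ℂ] ℂ} {φ : V →ₗ[R] R} (h : (Submodule.Quotient.mk φ : Fib z (V →ₗ[R] R)) = 0)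
    (m : V) : z (φ m) = 0 := by
  refine Submodule.smul_induction_on (p := fun φ : V →ₗ[R] R => z (φ m) = 0)
    ((Submodule.Quotient.mk_eq_zero _).1 h) (fun r hr ψ _ => ?_) fun x y hx hy => ?_
  · rw [LinearMap.smul_apply, smul_eq_mul, map_mul, show z r = 0 from hr, zero_mul]
  · rw [LinearMap.add_apply, map_add, hx, hy, add_zero]

theorem exists_ker [Nonempty Y.Pt] (hA : A.IsBun c) (hT : T.IsBun t) (hΘ : Θ.IsBun n)
    {τ : T.M →ₗ[Y.R] Θ.M} {σ : Θ.M →ₗ[Y.R] A.dual.M} (hτ : T.IsHom Θ τ)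
    (hσ : Θ.IsHom A.dual σ) (h0 : ∀ x, σ (τ x) = 0)
    (h1 : ∀ z : Y.Pt, Function.Injective (fibMap z.1 τ))
    (h2 : ∀ (z : Y.Pt) (v : Θ.M), (∀ m, z.1 ((show A.M →ₗ[Y.R] Y.R from σ v) m) = 0) →
      ∃ x, fibMap z.1 τ x = Submodule.Quotient.mk v) :
    ∃ (K : Submodule Y.R A.M) (hK : A.Stab K) (k : ℕ), (A.sub K hK).IsBun k ∧
      (∀ z : Y.Pt, Function.Injective (fibMap z.1 K.subtype)) ∧
      (∀ m ∈ K, ∀ v, (show A.M →ₗ[Y.R] Y.R from σ v) m = 0) ∧
      kc (A.sub K hK) k = kc A c - dualK Y (kc Θ n) + dualK Y (kc T t) := by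
  obtain ⟨r, rfl, hD, hs⟩ := coker_bun hτ hT hΘ h1
  have hle : LinearMap.range τ ≤ LinearMap.ker σ := by
    rintro _ ⟨x, rfl⟩
    exact h0 x
  have hσ' := hσ.liftQ hτ.stab_range hle
  obtain ⟨s, -, hE, hs'⟩ := coker_bun hσ' hD hA.dual fun z =>
    (injective_iff_map_eq_zero _).2 fun x hx => by
      obtain ⟨x, rfl⟩ := hs.fib_surj z x
      obtain ⟨v, rfl⟩ := fib_surj x
      obtain ⟨y, hy⟩ := h2 z v (ev_dual (V := A.M) (φ := σ v) hx)
      rw [← hy]
      exact fibMap_comp_zero hs.2.2.1 y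
  have hd := hs'.dual hE
  have he := qis_eval hA
  have hν := hd.2.1.comp he.1
  have h3 := fun z : Y.Pt => (hd.2.2.2 z).2.2.comp (he.2 z).surjAt
  obtain ⟨k, rfl, hK⟩ := Lc.ObA.exists_ker hν hA hD.dual h3
  have h4 := hν.ses_ker h3
  refine ⟨_, hν.stab_ker, k, hK, h4.fib_inj hD.dual, fun m hm v => congrArg
    (fun φ : hτ.cokerM.M →ₗ[Y.R] Y.R => φ (Submodule.Quotient.mk v)) hm, ?_⟩
  rw [kc_ses h4 hK hD.dual, kc_ses hs hT hD, map_add, dualK_kc hD]
  ring

theorem fibPi_symm {R : Type} [CommRing R] [Algebra ℂ R] (z : R →ₐ[ℂ] ℂ) {κ : Type} [Fintype κ]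
    (v : κ → R) : (fibPi z κ).symm (Submodule.Quotient.mk v) = fun a => z (v a) := by
  rw [LinearEquiv.symm_apply_eq, fibPi_apply, ← sub_eq_zero, ← Submodule.Quotient.mk_sub,
    mk_pi_eq_zero]
  simp

theorem core [Nonempty Y.Pt] {κ : Type} [Fintype κ] (γ : κ → Y.J → ℤ) (hA : A.IsBun c)
    (hT : T.IsBun t) (τ : κ → T.M →ₗ[Y.R] Y.R) (χ : κ → A.M →ₗ[Y.R] Y.R)
    (hτ : ∀ a, T.IsHom ((one Y).shift (γ a)) (τ a))
    (hχ : ∀ a, A.IsHom ((one Y).shift (-γ a)) (χ a)) (h0 : ∀ x m, ∑ a, τ a x * χ a m = 0)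
    (h1 : ∀ (z : Y.Pt) x, (∀ a, z.1 (τ a x) = 0) → (Submodule.Quotient.mk x : Fib z.1 _) = 0)
    (h2 : ∀ (z : Y.Pt) (V : Submodule ℂ (κ → ℂ)),
      (∀ y ∈ V, ∀ m, ∑ a, y a * z.1 (χ a m) = 0) → Module.finrank ℂ V ≤ t) :
    ∃ (K : Submodule Y.R A.M) (hK : A.Stab K) (k : ℕ), (A.sub K hK).IsBun k ∧
      (∀ z : Y.Pt, Function.Injective (fibMap z.1 K.subtype)) ∧ (∀ m ∈ K, ∀ a, χ a m = 0) ∧
      kc (A.sub K hK) k = kc A c - ∑ a, line Y (-γ a) + dualK Y (kc T t) := by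
  classical
  have hΘ := isBun_pi (M := fun a => (one Y).shift (γ a)) fun a => (isBun_one Y).shift (γ a)
  have k0 : ∀ v m, Fintype.linearCombination Y.R χ v m = ∑ a, v a * χ a m := fun v m => by
    rw [Fintype.linearCombination_apply, LinearMap.sum_apply]
    rfl
  have k1 : ∀ z : Y.Pt, Function.Injective (fibMap z.1 (LinearMap.pi τ)) := fun z =>
    (injective_iff_map_eq_zero _).2 fun x hx => by
      obtain ⟨x, rfl⟩ := fib_surj x
      exact h1 z x (mk_pi_eq_zero.1 hx)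
  obtain ⟨K, hK, k, h3, h4, h5, h6⟩ := exists_ker hA hT hΘ (τ := LinearMap.pi τ)
    (σ := Fintype.linearCombination Y.R χ) (fun g x => funext fun a => hτ a g x)
    (fun g v => LinearMap.ext fun m => by
      refine (k0 _ m).trans (Eq.trans ?_ (congrArg (Y.act g) (k0 v (A.act g⁻¹ m))).symm)
      rw [map_sum]
      refine Finset.sum_congr rfl fun a _ => ?_
      have e : χ a (A.act g⁻¹ m) = chr (- -γ a) g⁻¹ • Y.act g⁻¹ (χ a m) := hχ a g⁻¹ m
      revert v
      intro (v : κ → Y.R)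
      show chr (-γ a) g • Y.act g (v a) * _ = _
      rw [map_mul, e, map_smul, Y.act_act_inv, neg_neg, chr_inv, ← chr_neg, mul_smul_comm,
        ← smul_mul_assoc]) (fun x => LinearMap.ext fun m => (k0 _ m).trans (h0 x m)) k1 fun z (v : κ → Y.R) hv => by
      let τz : Fib z.1 T.M →ₗ[ℂ] κ → ℂ :=
        (fibPi z.1 κ).symm.toLinearMap ∘ₗ fibC z.1 (LinearMap.pi τ)
      let V : Submodule ℂ (κ → ℂ) :=
        { carrier := {y | ∀ m, ∑ a, y a * z.1 (χ a m) = 0}
          add_mem' := fun {x y} hx hy m => by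
            simp only [Pi.add_apply, add_mul, Finset.sum_add_distrib, hx m, hy m, add_zero]
          zero_mem' := fun m => by simp
          smul_mem' := fun s x hx m => by
            simp only [Pi.smul_apply, smul_eq_mul, mul_assoc, ← Finset.mul_sum, hx m, mul_zero] }
      have k2 : LinearMap.range τz ≤ V := by
        rintro _ ⟨x, rfl⟩ m
        obtain ⟨x, rfl⟩ := fib_surj x
        have e : τz (Submodule.Quotient.mk x) = fun a => z.1 (τ a x) := fibPi_symm z.1 _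
        have e' := congrArg z.1 (h0 x m)
        rw [map_sum, map_zero] at e'
        simpa only [e, map_mul] using e'
      have k3 : LinearMap.range τz = V := Submodule.eq_of_le_of_finrank_le k2 (by
        rw [LinearMap.finrank_range_of_inj (f := τz)
          fun x y h => k1 z ((fibPi z.1 κ).symm.injective h)]
        exact (h2 z V fun y hy => hy).trans (hT.fdim z).ge)
      have k4 : (fun a => z.1 (v a)) ∈ V := fun m => by
        have e' := (congrArg z.1 (k0 v m)).symm.trans (hv m)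
        rw [map_sum] at e'
        simpa only [map_mul] using e'
      obtain ⟨x, hx⟩ := k3.ge k4
      exact ⟨x, (fibPi z.1 κ).symm.injective (hx.trans (fibPi_symm z.1 v).symm)⟩
  refine ⟨K, hK, k, h3, h4, fun m hm a => ?_, ?_⟩
  · have e := (k0 (Pi.single a 1) m).symm.trans (h5 m hm (Pi.single a 1 : κ → Y.R))
    simpa [Pi.single_apply] using e
  · rw [h6, kc_pi fun a => (isBun_one Y).shift (γ a), map_sum]
    congr 2
    exact Finset.sum_congr rfl fun a _ => dualK_line (γ a)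

end gen

end Obk

end Vale.Agent.P297Z
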