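import Vale.Agent.P297Z.Loc.Defs
import Vale.Agent.P297Z.K.AK2
import Vale.Agent.P297Z.K.AG

/-!
# P297: the Koszul class of a linear subspace, and the decomposition in simple fractions
-/

set_option linter.all false

noncomputable section

namespace Vale.Agent.P297Z

namespace Lc

/-- multiplication by a homogeneous element is a map of degree zero from the twist -/
theorem isHom_lsmul {X : Spc} (M : GMod X) {γ : X.J → ℤ} {r : X.R} (hr : r ∈ X.wt γ) :
    (M.shift (-γ)).IsHom M (LinearMap.lsmul X.R M.M r) :=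
  GMod.isHom_of_wt fun δ m hm => by
    have h := GMod.smul_mem_wt hr (GMod.mem_shift_wt.1 hm)
    rwa [show γ + (δ + -γ) = δ by abel] at h

/-- the class of the quotient by a homogeneous element that is not a zero divisor -/
theorem kact_quo {X : Spc} {I K : Ideal X.R} (hI : (GMod.one X).Stab I) (hK : (GMod.one X).Stab K)
    {γ : X.J → ℤ} {r : X.R} (hr : r ∈ X.wt γ) (h : ∀ p, r * p ∈ I → p ∈ I)
    (e : K = Ideal.span {r} ⊔ I) :
    kact X (1 - line X (-γ)) (cls ((GMod.one X).quo I hI)) = cls ((GMod.one X).quo K hK) := by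
  have hle : I ≤ Submodule.comap (LinearMap.id : X.R →ₗ[X.R] X.R) K := fun x hx =>
    show x ∈ K from e ▸ Ideal.mem_sup_right hx
  have s : GMod.SES (((GMod.one X).quo I hI).shift (-γ)) ((GMod.one X).quo I hI)
      ((GMod.one X).quo K hK) (LinearMap.lsmul X.R _ r) (Submodule.mapQ I K LinearMap.id hle) := by
    refine GMod.ses_of_exact (isHom_lsmul _ hr) ((GMod.IsHom.id _).mapQ hI hK hle) ?_ ?_ ?_
    · refine (injective_iff_map_eq_zero _).2 fun x hx => ?_
      obtain ⟨p, rfl⟩ := Submodule.Quotient.mk_surjective I x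
      exact (Submodule.Quotient.mk_eq_zero I).2 (h p ((Submodule.Quotient.mk_eq_zero I).1 hx))
    · intro x
      obtain ⟨p, rfl⟩ := Submodule.Quotient.mk_surjective I x
      refine ((Submodule.Quotient.mk_eq_zero K).trans ?_ :
        (Submodule.Quotient.mk p : X.R ⧸ K) = 0 ↔ _)
      rw [e, Ideal.mem_span_singleton_sup]
      constructor
      · rintro ⟨a, b, hb, rfl⟩
        refine ⟨Submodule.Quotient.mk a, (Submodule.Quotient.eq I).2 ?_⟩
        show r * a - (a * r + b) ∈ I
        rw [show r * a - (a * r + b) = -b by ring]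
        exact neg_mem hb
      · rintro ⟨y, hy⟩
        obtain ⟨a, rfl⟩ := Submodule.Quotient.mk_surjective I y
        exact ⟨a, -(r * a - p), neg_mem ((Submodule.Quotient.eq I).1 hy), by ring⟩
    · intro y
      obtain ⟨p, rfl⟩ := Submodule.Quotient.mk_surjective K y
      exact ⟨Submodule.Quotient.mk p, rfl⟩
  rw [map_sub, AddMonoidHom.sub_apply, kact_one, kact_line]
  exact sub_eq_iff_eq_add'.2 (cls_ses s)

/-- a variable is not a zero divisor modulo other variables -/
theorem mem_of_X_mul {ι R : Type} [CommRing R] {s : Set ι} {a : ι} (ha : a ∉ s)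
    {p : MvPolynomial ι R} (h : MvPolynomial.X a * p ∈ Ideal.span (MvPolynomial.X '' s)) :
    p ∈ Ideal.span (MvPolynomial.X '' s) := by
  rw [MvPolynomial.mem_ideal_span_X_image] at h ⊢
  intro m hm
  obtain ⟨i, hi, h1⟩ := h (Finsupp.single a 1 + m) (by
    rw [MvPolynomial.support_X_mul]
    exact Finset.mem_map_of_mem _ hm)
  have : i ≠ a := fun e => ha (e ▸ hi)
  exact ⟨i, hi, by simpa [Finsupp.single_apply, this.symm] using h1⟩

/-- the Koszul class of a regular family of homogeneous elements -/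
theorem koszul {X : Spc} {ι : Type} (y : ι → X.R) (γ : ι → X.J → ℤ) (hy : ∀ a, y a ∈ X.wt (γ a))
    (h : ∀ (s : Set ι), ∀ a ∉ s, ∀ p, y a * p ∈ Ideal.span (y '' s) → p ∈ Ideal.span (y '' s))
    (s : Finset ι) : ∀ (I : Ideal X.R) (hI : (GMod.one X).Stab I),
      I = Ideal.span (y '' (s : Set ι)) →
      kact X (∏ a ∈ s, (1 - line X (-γ a))) (oG X) = cls ((GMod.one X).quo I hI) := by
  classical
  induction s using Finset.induction_on with
  | empty =>
    intro I hI e
    rw [Finset.prod_empty, kact_one]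
    rw [Finset.coe_empty, Set.image_empty, Ideal.span_empty] at e
    exact cls_bij (GMod.isHom_mkQ (GMod.one X) I hI)
      ⟨LinearMap.ker_eq_bot.1 ((Submodule.ker_mkQ I).trans e), Submodule.mkQ_surjective I⟩
  | insert a s ha ih =>
    intro I hI e
    have hs : (GMod.one X).Stab (Ideal.span (y '' (s : Set ι))) :=
      GMod.stab_span_wt (M := GMod.one X) (by
        rintro _ ⟨b, -, rfl⟩
        exact ⟨_, hy b⟩)
    rw [Finset.prod_insert ha, kact_mul, ih _ hs rfl]
    refine kact_quo hs hI (hy a) (h _ a ha) ?_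
    rw [e, Finset.coe_insert, Set.image_insert_eq, Ideal.span_insert]

theorem pf1 : PF1 := fun ι _ _ d w =>
  koszul (X := Amb ι d) (Amb.x d) (fun a o => o.elim 1 fun _ => d a)
    (Spc.X_mem ptT ι fun a _ => d a) (fun _ _ ha _ hp => mem_of_X_mul (R := ℂ) ha hp) _
    (Jw d w) (Jw_stab d w) (by rw [Finset.coe_filter_univ]; rfl)

/-- simple fractions in a commutative ring, up to a multiplicative set -/
theorem frac {R ι : Type*} [CommRing R] [Fintype ι] [Nonempty ι] (d : ι → ℤ) (u : ι → R)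
    (M : Submonoid R) (h : ∀ a b, d a ≠ d b → ∃ x y, x * u a + y * u b ∈ M) :
    ∃ m ∈ M, ∃ c : ℤ → R,
      ∑ w ∈ Finset.univ.image d, c w * ∏ a ∈ Finset.univ.filter (fun a => d a ≠ w), u a = m := by
  by_contra hn
  let v : ℤ → R := fun w => ∏ a ∈ Finset.univ.filter (fun a => d a ≠ w), u a
  obtain ⟨p, hp, h1, h2⟩ := Ideal.exists_le_prime_disjoint
    (Ideal.span (v '' (Finset.univ.image d : Finset ℤ))) M (Set.disjoint_left.2 fun m hm hM =>
      hn ⟨m, hM, (Submodule.mem_span_image_finset_iff_exists_fun' R).1 hm⟩)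
  have key : ∀ a, ∃ b, d b ≠ d a ∧ u b ∈ p := fun a => by
    obtain ⟨b, hb, h3⟩ := Ideal.IsPrime.prod_mem_iff.1 (h1 (Ideal.subset_span
      ⟨d a, Finset.mem_coe.2 (Finset.mem_image_of_mem d (Finset.mem_univ a)), rfl⟩))
    exact ⟨b, (Finset.mem_filter.1 hb).2, h3⟩
  obtain ⟨a⟩ := ‹Nonempty ι›
  obtain ⟨b, -, hb⟩ := key a
  obtain ⟨c, h3, hc⟩ := key b
  obtain ⟨x, y, h4⟩ := h c b h3
  exact Set.disjoint_left.1 h2 (p.add_mem (p.mul_mem_left x hc) (p.mul_mem_left y hb)) h4

theorem pf2 : PF2 := fun ι _ _ d => by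
  let S := Subring.closure (Set.range (line (Amb ι d)))
  have hS : ∀ γ, line (Amb ι d) γ ∈ S := fun γ => Subring.subset_closure ⟨γ, rfl⟩
  let M : Submonoid (K0 (Amb ι d)) :=
    { carrier := {x | ∃ l : List ℤ, (∀ k ∈ l, k ≠ 0) ∧ (l.map fun k => 1 - tY d k).prod = x}
      one_mem' := ⟨[], by simp, rfl⟩
      mul_mem' := by
        rintro _ _ ⟨l, hl, rfl⟩ ⟨l', hl', rfl⟩
        refine ⟨l ++ l', fun k hk => ?_, by rw [List.map_append, List.prod_append]⟩
        exact (List.mem_append.1 hk).elim (hl k) (hl' k) }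
  obtain ⟨m, ⟨l, hl, hm⟩, c, hc⟩ := frac (R := S) d
    (fun a => ⟨1 - chi d a, S.sub_mem S.one_mem (hS _)⟩) (M.comap S.subtype) fun a b hab => by
      let γ : (Amb ι d).J → ℤ := fun o => o.elim 1 fun _ => d b
      have h1 : chi d b * line _ γ = 1 := line_neg_mul γ
      have h2 : chi d a * line _ γ = tY d (d b - d a) := by
        refine (line_add _ γ).symm.trans (congrArg _ (funext fun o => ?_))
        cases o with
        | none => exact neg_add_cancel (1 : ℤ)
        | some o => exact neg_add_eq_sub (d a) (d b)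
      refine ⟨⟨_, hS γ⟩, -⟨_, hS γ⟩, [d b - d a], by simpa [sub_eq_zero] using hab.symm, ?_⟩
      show (1 - tY d (d b - d a)) * 1 = line _ γ * (1 - chi d a) + -line _ γ * (1 - chi d b)
      rw [← h2]
      linear_combination -h1
  refine ⟨l, fun w => (c w : K0 _), hl, fun w => (c w).2, hm.trans ?_⟩
  rw [← hc, map_sum]
  exact Finset.sum_congr rfl fun w _ => by rw [map_mul, map_prod]; rfl

end Lc

end Vale.Agent.P297Z
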