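import Vale.Agent.P297Z.Loc.SigD
import Vale.Agent.P297Z.K.AG
import Vale.Agent.P297Z.K.AK2

/-!
# P297: saturation, classes of subquotients
-/

set_option linter.all false

noncomputable section

namespace Vale.Agent.P297Z

open GMod

variable {Y : Spc}

/-! ### saturation -/
section sat
variable {A : Type} [AddCommGroup A] [Module Y.R A] {U V : Submodule Y.R A}
theorem mem_sat {m : A} : m ∈ sat Y V ↔ ∀ z : Y.Pt, ∃ r, z.1 r ≠ 0 ∧ r • m ∈ V := Iff.rfl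
theorem le_sat (V : Submodule Y.R A) : V ≤ sat Y V := fun m hm z =>
  ⟨1, ev_one, by rwa [one_smul]⟩
theorem sat_mono (h : U ≤ V) : sat Y U ≤ sat Y V := fun m hm z =>
  (hm z).imp fun _ k => ⟨k.1, h k.2⟩
theorem sat_le (h : U ≤ sat Y V) : sat Y U ≤ sat Y V := fun m hm z => by
  obtain ⟨r, h1, h2⟩ := hm z
  obtain ⟨s, h3, h4⟩ := h h2 z
  exact ⟨s * r, ev_mul h3 h1, by rwa [mul_smul]⟩
theorem smul_sat (I : Ideal Y.R) : I • sat Y V ≤ sat Y (I • V) :=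
  Submodule.smul_le.2 fun a ha m hm z => (hm z).imp fun r k =>
    ⟨k.1, by rw [smul_comm]; exact Submodule.smul_mem_smul ha k.2⟩
theorem sat_smul (I : Ideal Y.R) : sat Y I • V ≤ sat Y (I • V) :=
  Submodule.smul_le.2 fun a ha m hm z => (ha z).imp fun r k =>
    ⟨k.1, by rw [← smul_assoc]; exact Submodule.smul_mem_smul k.2 hm⟩
end sat

namespace Sg

variable {Z : Set Y.Pt} (hZ : Y.Stab Z)

/-- a map between modules on the closed subspace -/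
def dmap {N N' : GMod Y} (h : Module.IsTorsionBySet Y.R N.M (Y.van Z))
    (h' : Module.IsTorsionBySet Y.R N'.M (Y.van Z)) (f : N.M →ₗ[Y.R] N'.M) :
    (N.down Z hZ h).M →ₗ[(Y.sub Z hZ).R] (N'.down Z hZ h').M where
  toFun := f
  map_add' := f.map_add
  map_smul' := fun r m => by
    obtain ⟨r, rfl⟩ := Ideal.Quotient.mk_surjective r
    exact f.map_smul r m

theorem down_ses {A B C : GMod Y} {f : A.M →ₗ[Y.R] B.M} {g : B.M →ₗ[Y.R] C.M}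
    (h : SES A B C f g) (hA hB hC) :
    cls (B.down Z hZ hB) = cls (A.down Z hZ hA) + cls (C.down Z hZ hC) := by
  refine cls_ses (f := dmap hZ hA hB f) (g := dmap hZ hB hC g) ⟨h.1, h.2.1, h.2.2.1, fun z => ?_⟩
  obtain ⟨h1, h2, h3⟩ := h.2.2.2 ((Mor.incl Y Z hZ).onPt z)
  refine ⟨fun a ha => ?_, fun a ha => ?_, fun a => ?_⟩
  · obtain ⟨r, k⟩ := h1 a ha
    exact ⟨(Mor.incl Y Z hZ).φ r, k⟩
  · obtain ⟨r, k⟩ := h2 a ha
    exact ⟨(Mor.incl Y Z hZ).φ r, k⟩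
  · obtain ⟨r, k⟩ := h3 a
    exact ⟨(Mor.incl Y Z hZ).φ r, k⟩

section
variable {M M' : GMod Y} {U V : Submodule Y.R M.M} {U' V' : Submodule Y.R M'.M}

/-- the class of an element -/
def mk (h : M.IsSq Z U V) (u : M.M) (hu : u ∈ U) : (M.sqY U V h.hU h.hV).M :=
  Submodule.Quotient.mk ⟨u, hu⟩

theorem mk_surj (h : M.IsSq Z U V) (x : (M.sqY U V h.hU h.hV).M) : ∃ u hu, x = mk h u hu := by
  obtain ⟨u, rfl⟩ := Submodule.Quotient.mk_surjective _ x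
  exact ⟨u.1, u.2, rfl⟩

theorem mk_zero (h : M.IsSq Z U V) {u : M.M} {hu : u ∈ U} : mk h u hu = 0 ↔ u ∈ V :=
  Submodule.Quotient.mk_eq_zero _

theorem mk_eq (h : M.IsSq Z U V) {u u' : M.M} {hu : u ∈ U} {hu' : u' ∈ U} :
    mk h u hu = mk h u' hu' ↔ u - u' ∈ V := Submodule.Quotient.eq _

theorem smul_mk (h : M.IsSq Z U V) (r : Y.R) {u : M.M} (hu : u ∈ U) :
    r • mk h u hu = mk h (r • u) (U.smul_mem r hu) := rfl

/-- the map of subquotients -/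
def sqm (h : M.IsSq Z U V) (h' : M'.IsSq Z U' V') (f : M.M →ₗ[Y.R] M'.M)
    (hU : ∀ u ∈ U, f u ∈ U') (hV : ∀ u ∈ U, u ∈ V → f u ∈ V') :
    (M.sqY U V h.hU h.hV).M →ₗ[Y.R] (M'.sqY U' V' h'.hU h'.hV).M :=
  (V.submoduleOf U).mapQ (V'.submoduleOf U') (f.restrict hU) fun u hu => hV u.1 u.2 hu

theorem sqm_mk (h : M.IsSq Z U V) (h' : M'.IsSq Z U' V') (f : M.M →ₗ[Y.R] M'.M) (hU hV)
    {u : M.M} (hu : u ∈ U) : sqm h h' f hU hV (mk h u hu) = mk h' (f u) (hU u hu) := rfl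

theorem sqm_hom (h : M.IsSq Z U V) (h' : M'.IsSq Z U' V') {f : M.M →ₗ[Y.R] M'.M}
    (hf : M.IsHom M' f) (hU hV) : IsHom _ _ (sqm h h' f hU hV) := fun g x => by
  obtain ⟨u, hu, rfl⟩ := mk_surj h x
  exact congrArg Submodule.Quotient.mk (Subtype.ext (hf g u))

end

theorem three {A B C : GMod Y} {f : A.M →ₗ[Y.R] B.M} {g : B.M →ₗ[Y.R] C.M} (hf : A.IsHom B f)
    (hg : B.IsHom C g) {U₁ V₁ U₂ V₂ U₃ V₃} (h₁ : A.IsSq Z U₁ V₁) (h₂ : B.IsSq Z U₂ V₂)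
    (h₃ : C.IsSq Z U₃ V₃) (fU : ∀ u ∈ U₁, f u ∈ U₂) (fV : ∀ u ∈ U₁, u ∈ V₁ → f u ∈ V₂)
    (gU : ∀ u ∈ U₂, g u ∈ U₃) (gV : ∀ u ∈ U₂, u ∈ V₂ → g u ∈ V₃) (h0 : ∀ u ∈ U₁, g (f u) ∈ V₃)
    (inj : ∀ u ∈ U₁, f u ∈ V₂ → u ∈ sat Y V₁)
    (ex : ∀ u ∈ U₂, g u ∈ V₃ → u ∈ sat Y (U₁.map f ⊔ V₂))
    (surj : U₃ ≤ sat Y (U₂.map g ⊔ V₃)) :
    B.sqc Z hZ U₂ V₂ = A.sqc Z hZ U₁ V₁ + C.sqc Z hZ U₃ V₃ := by
  rw [sqc_eq hZ h₁, sqc_eq hZ h₂, sqc_eq hZ h₃]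
  refine down_ses hZ (f := sqm h₁ h₂ f fU fV) (g := sqm h₂ h₃ g gU gV)
    ⟨sqm_hom _ _ hf _ _, sqm_hom _ _ hg _ _, fun x => ?_, fun z => ⟨fun x hx => ?_,
      fun x hx => ?_, fun x => ?_⟩⟩ _ _ _
  · obtain ⟨u, hu, rfl⟩ := mk_surj h₁ x
    exact (mk_zero h₃).2 (h0 u hu)
  · obtain ⟨u, hu, rfl⟩ := mk_surj h₁ x
    exact (inj u hu ((mk_zero h₂).1 hx) z).imp fun r k => ⟨k.1, (mk_zero h₁).2 k.2⟩
  · obtain ⟨u, hu, rfl⟩ := mk_surj h₂ x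
    obtain ⟨r, k, k'⟩ := ex u hu ((mk_zero h₃).1 hx) z
    obtain ⟨_, ⟨a, ha, rfl⟩, v, hv, e⟩ := Submodule.mem_sup.1 k'
    refine ⟨r, mk h₁ a ha, k, (mk_eq h₂).2 ?_⟩
    change f a - r • u ∈ V₂
    rw [← e, sub_add_cancel_left]
    exact V₂.neg_mem hv
  · obtain ⟨u, hu, rfl⟩ := mk_surj h₃ x
    obtain ⟨r, k, k'⟩ := surj hu z
    obtain ⟨_, ⟨a, ha, rfl⟩, v, hv, e⟩ := Submodule.mem_sup.1 k'
    refine ⟨r, mk h₂ a ha, k, (mk_eq h₃).2 ?_⟩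
    change g a - r • u ∈ V₃
    rw [← e, sub_add_cancel_left]
    exact V₃.neg_mem hv

theorem stab_shift {M : GMod Y} (γ : Y.J → ℤ) {U : Submodule Y.R M.M} :
    (M.shift γ).Stab U ↔ M.Stab U :=
  forall_congr' fun g => forall₂_congr fun m _ =>
    (U.restrictScalars ℂ).smul_mem_iff (chr_ne (-γ) g)

end Sg

open Sg

/-! ### classes of subquotients -/
section sqc
variable {M N : GMod Y} {Z : Set Y.Pt} (hZ : Y.Stab Z) {U V W U' V' : Submodule Y.R M.M}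
theorem sqc_zero (h : U ≤ sat Y V) : M.sqc Z hZ U V = 0 := by
  by_cases k : M.IsSq Z U V
  · rw [sqc_eq hZ k]
    refine cls_zero fun z x => ?_
    obtain ⟨u, hu, rfl⟩ := mk_surj k x
    obtain ⟨r, k1, k2⟩ := h hu ((Mor.incl Y Z hZ).onPt z)
    exact ⟨(Mor.incl Y Z hZ).φ r, k1, (mk_zero k).2 k2⟩
  · exact dif_neg k
theorem sqc_add (h : M.IsSq Z U W) (hV : M.Stab V) (h1 : W ≤ V) (h2 : V ≤ U) :
    M.sqc Z hZ U W = M.sqc Z hZ U V + M.sqc Z hZ V W :=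
  (three hZ (.id M) (.id M) ⟨hV, h.hV, (Submodule.smul_mono le_rfl h2).trans h.nil⟩ h
    ⟨h.hU, hV, h.nil.trans h1⟩ (fun _ k => h2 k) (fun _ _ k => k) (fun _ k => k)
    (fun _ _ k => h1 k) (fun _ k => k) (fun _ _ k => le_sat _ k)
    (fun u _ k => le_sat _ (Submodule.mem_sup_left ⟨u, k, rfl⟩))
    fun u k => le_sat _ (Submodule.mem_sup_left ⟨u, k, rfl⟩)).trans (add_comm _ _)
theorem Sg.two (h : M.IsSq Z U V) (h' : M.IsSq Z U' V') (h1 : U ≤ U') (h2 : U' ≤ sat Y U)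
    (h3 : V ≤ V') (h4 : V' ≤ sat Y V) : M.sqc Z hZ U' V' = M.sqc Z hZ U V := by
  rw [three hZ (.id M) (.zero M M) h h' ⟨stab_top M, stab_top M, le_top⟩ (fun _ k => h1 k)
    (fun _ _ k => h3 k) (fun _ _ => trivial) (fun _ _ _ => trivial) (fun _ _ => trivial)
    (fun _ _ k => h4 k) (fun u k _ => sat_mono (by rw [Submodule.map_id]; exact le_sup_left) (h2 k))
    (le_sup_right.trans (le_sat _)), sqc_zero hZ (le_sat ⊤), add_zero]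
theorem Sg.inf_sat (h : U ≤ sat Y U') : U ≤ sat Y (U ⊓ U') := fun u hu z =>
  (h hu z).imp fun r k => ⟨k.1, U.smul_mem r hu, k.2⟩
theorem sqc_congr (h : M.IsSq Z U V) (h' : M.IsSq Z U' V') (h1 : U ≤ sat Y U') (h2 : U' ≤ sat Y U)
    (h3 : V ≤ sat Y V') (h4 : V' ≤ sat Y V) : M.sqc Z hZ U V = M.sqc Z hZ U' V' := by
  have k : M.IsSq Z (U ⊓ U') (V ⊓ V') := ⟨h.hU.inf h'.hU, h.hV.inf h'.hV, le_inf
    ((Submodule.smul_mono le_rfl inf_le_left).trans h.nil)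
    ((Submodule.smul_mono le_rfl inf_le_right).trans h'.nil)⟩
  rw [two hZ k h inf_le_left (inf_sat h1) inf_le_left (inf_sat h3),
    two hZ k h' inf_le_right (inf_comm U U' ▸ inf_sat h2) inf_le_right (inf_comm V V' ▸ inf_sat h4)]
theorem sqc_shift (γ : Y.J → ℤ) :
    (M.shift γ).sqc Z hZ U V = kact _ (line (Y.sub Z hZ) γ) (M.sqc Z hZ U V) := by
  by_cases k : M.IsSq Z U V
  · have k' : (M.shift γ).IsSq Z U V := ⟨(stab_shift γ).2 k.hU, (stab_shift γ).2 k.hV, k.nil⟩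
    rw [sqc_eq hZ k]
    refine (sqc_eq hZ k').trans (.trans (cls_equiv (B := (M.sq Z hZ U V k).shift γ)
      (LinearEquiv.refl _ _) fun g x => ?_) (kact_line (X := Y.sub Z hZ) γ _).symm)
    obtain ⟨u, hu, rfl⟩ := mk_surj k x
    rfl
  · rw [show (M.shift γ).sqc Z hZ U V = 0 from dif_neg fun k' =>
      k ⟨(stab_shift γ).1 k'.hU, (stab_shift γ).1 k'.hV, k'.nil⟩,
      show M.sqc Z hZ U V = 0 from dif_neg k, map_zero]
end sqc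

end Vale.Agent.P297Z
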