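import Vale.Agent.P297Z.Loc.Sig1
import Vale.Agent.P297Z.Loc.Kos

/-!
# P297: the Koszul complex in the Grothendieck group
-/

set_option linter.all false

open scoped TensorProduct

noncomputable section

namespace Vale.Agent.P297Z

open GMod

namespace Sg

variable {X : Spc}

/-- the elements that do not vanish at a point -/
def nz (z : X.Pt) : Submonoid X.R where
  carrier := {r | z.1 r ≠ 0}
  mul_mem' := ev_mul
  one_mem' := ev_one

/-- the coefficients of the product with step `ω` -/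
def Dz (C : Bun X) (ω : ℤ) (h : ℤ → G X) (l : ℤ) : G X :=
  ∑ i ∈ Finset.range (C.rk + 1), (-1 : ℤ) ^ i • kact X (C.lx i) (h (l - i * ω))

theorem tele {E : Type*} [AddCommGroup E] {ω : ℤ} (hω : 0 < ω) (a β : ℕ → ℤ → E)
    (h0 : ∃ L, ∀ l ≥ L, a 0 (l + ω) = β 0 l)
    (h1 : ∀ i, ∃ L, ∀ l ≥ L, a (i + 1) (l + ω) = β (i + 1) l + β i (l + ω)) (n : ℕ) :
    ∃ L, ∀ l ≥ L, ∑ i ∈ Finset.range (n + 1), (-1 : ℤ) ^ i • a i (l - i * ω) =
      (-1 : ℤ) ^ n • β n (l - (n + 1) * ω) := by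
  induction n with
  | zero =>
    obtain ⟨L, h⟩ := h0
    refine ⟨L + ω, fun l hl => ?_⟩
    have := h (l - ω) (by omega)
    simp only [sub_add_cancel] at this
    simp [this]
  | succ n ih =>
    obtain ⟨L, h⟩ := ih
    obtain ⟨L', h'⟩ := h1 n
    refine ⟨max L (L' + (n + 2) * ω), fun l hl => ?_⟩
    have := h' (l - (n + 2) * ω) (by omega)
    rw [show l - (n + 2) * ω + ω = l - (n + 1) * ω by ring] at this
    rw [Finset.sum_range_succ, h l (by omega)]
    push_cast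
    rw [this, pow_succ, show ((n : ℤ) + 1 + 1) = n + 2 by ring]
    simp only [mul_neg, mul_one, neg_smul, smul_add]
    abel

theorem ext_zero (C : Bun X) {i : ℕ} (h : C.rk < i) (z : X.Pt) : ZeroAt z.1 (C.M.ext i).M :=
  freeAt_zero_iff.1 (Nat.choose_eq_zero_of_lt h ▸ C.free.ext i z)

theorem lx_zero (C : Bun X) {i : ℕ} (h : C.rk < i) : C.lx i = 0 := by
  rw [Bun.lx, Nat.choose_eq_zero_of_lt h]
  exact kc_zero (ext_zero C h)

theorem ten_zero {M : GMod X} (N : GMod X) {z : X.Pt} (h : ZeroAt z.1 M.M) :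
    ZeroAt z.1 (M.ten N).M := fun x => by
  obtain ⟨r, h1, h2⟩ := h.unif
  refine ⟨r, h1, ?_⟩
  change r • (show M.M ⊗[X.R] N.M from x) = 0
  induction (show M.M ⊗[X.R] N.M from x) with
  | zero => exact smul_zero r
  | add x y hx hy => rw [smul_add, hx, hy, add_zero]
  | tmul m n => rw [TensorProduct.smul_tmul', h2, TensorProduct.zero_tmul]

/-- the differential -/
def kdm {C N N' : GMod X} (i : ℕ) (μ : C.M →ₗ[X.R] N.M →ₗ[X.R] N'.M) :
    ((C.ext (i + 1)).ten N).M →ₗ[X.R] ((C.ext i).ten N').M := kd i μ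

theorem act_im {C N : GMod X} (i : ℕ) (g : X.J → ℂˣ) (v : Fin i → C.M) (n : N.M) :
    ((C.ext i).ten N).act g (im X.R i v ⊗ₜ[X.R] n) =
      im X.R i (fun j => C.act g (v j)) ⊗ₜ[X.R] N.act g n :=
  congrArg (fun e : Ex X.R i C.M => e ⊗ₜ[X.R] N.act g n) ((C.ext_act i g).choose_spec.2 v)

theorem kdm_hom {C N N' : GMod X} (i : ℕ) {μ : C.M →ₗ[X.R] N.M →ₗ[X.R] N'.M}
    (h : ∀ g c n, μ (C.act g c) (N.act g n) = N'.act g (μ c n)) : IsHom _ _ (kdm i μ) :=
  fun g x => by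
  refine ind_ten (P := fun x => kdm i μ (((C.ext (i + 1)).ten N).act g x) =
    ((C.ext i).ten N').act g (kdm i μ x)) ?_ (fun x y hx hy => ?_) (fun v n => ?_) x
  · exact ((congrArg _ (map_zero _)).trans (map_zero _)).trans
      ((congrArg _ (map_zero _)).trans (map_zero _)).symm
  · exact ((congrArg _ (map_add _ _ _)).trans (map_add _ _ _)).trans ((congrArg₂ _ hx hy).trans
      ((congrArg _ (map_add _ _ _)).trans (map_add _ _ _)).symm)
  · refine ((congrArg _ (act_im _ g v n)).trans (kd_tmul i μ _ _)).trans (.symm ?_)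
    refine (congrArg _ (kd_tmul i μ v n)).trans ((map_sum (((C.ext i).ten N').act g) _ _).trans
      (Finset.sum_congr rfl fun j _ => (map_zsmul (((C.ext i).ten N').act g) _ _).trans ?_))
    rw [h]
    exact congrArg _ (act_im i g _ _)

theorem kosZ (C : Bun X) (N : ℤ → GMod X) {ω : ℤ} (hω : 0 < ω)
    (μ : ∀ l, C.M.M →ₗ[X.R] (N l).M →ₗ[X.R] (N (l + ω)).M)
    (hom : ∀ l g c n, μ l (C.M.act g c) ((N l).act g n) = (N (l + ω)).act g (μ l c n))
    (comm : ∀ l c c' n, μ (l + ω) c (μ l c' n) = μ (l + ω) c' (μ l c n))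
    (surj : ∃ l₀, ∀ l ≥ l₀, ⊤ ≤ sat X (Submodule.map₂ (μ l) ⊤ ⊤)) :
    ∃ L, ∀ l ≥ L, Dz C ω (fun l => cls (N l)) l = 0 := by
  obtain ⟨l₀, hs⟩ := surj
  have hT : ∀ z : X.Pt, ∀ l ≥ l₀, ∀ x : (N (l + ω)).M, ∃ r ∈ nz z,
      r • x ∈ Submodule.map₂ (μ l) ⊤ ⊤ := fun z l hl x => hs l hl trivial z
  obtain ⟨L, h⟩ := tele hω (fun i l => cls ((C.M.ext i).ten (N l)))
    (fun i l => cls (kdm_hom i (hom l)).rangeM) ⟨l₀, fun l hl => (cls_of_bij
      (isHom_subtype _ _ _) fun z => ⟨.of_inj (Submodule.injective_subtype _), fun x => by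
        obtain ⟨r, k, k'⟩ := kd_surj (hT z l hl) x
        exact ⟨r, ⟨_, k'⟩, k, rfl⟩⟩).symm⟩ (fun i => by
      obtain ⟨l₁, h⟩ := kd_exact hω μ comm l₀ i
      refine ⟨l₁, fun l hl => (cls_ker_range (kdm_hom i (hom (l + ω)))).trans ?_⟩
      congr 1
      refine (cls_of_bij (isHom_inclusion _ _ ?_) fun z =>
        ⟨.of_inj (Submodule.inclusion_injective _), fun x => ?_⟩).symm
      · rintro _ ⟨x, rfl⟩
        exact kd_kd (comm l) i x
      · obtain ⟨r, k, k'⟩ := h (nz z) (hT z) l hl x.1 x.2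
        exact ⟨r, ⟨_, k'⟩, k, rfl⟩) C.rk
  refine ⟨L, fun l hl => (Finset.sum_congr rfl fun i _ => congrArg _
    (kact_kc (C.free.ext i) _)).trans ((h l hl).trans ?_)⟩
  rw [cls_zero fun z => ZeroAt.of_surjAt (.of_surj (LinearMap.surjective_rangeRestrict _))
    (ten_zero _ (ext_zero C (Nat.lt_succ_self _) z)), smul_zero]

theorem del_eq (C : Bun X) (h : ℕ → G X) (h' : ℤ → G X) {ω : ℤ} (k : ℕ)
    (e : ∀ i : ℕ, h' ((k - i) * ω) = if i ≤ k then h (k - i) else 0) :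
    Dz C ω h' (k * ω) = Del C.lx h k := by
  unfold Dz Del
  simp only [← sub_mul, e]
  rw [Finset.sum_subset (s₂ := Finset.range (k + C.rk + 1)) (by grind) fun i _ hi => by
    rw [lx_zero C (by grind), map_zero, AddMonoidHom.zero_apply, smul_zero]]
  refine (Finset.sum_subset (by grind) fun i _ hi => by
    rw [if_neg (by grind), map_zero, smul_zero]).symm.trans
    (Finset.sum_congr rfl fun i hi => by rw [if_pos (by grind)])

/-- the extension to negative degrees -/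
def Nz (N : ℕ → GMod X) : ℤ → GMod X
  | .ofNat k => N k
  | .negSucc _ => (N 0).sub ⊥ (stab_bot _)

/-- the multiplication on the extension -/
def muz {C : GMod X} {N : ℕ → GMod X} (μ : ∀ k, C.M →ₗ[X.R] (N k).M →ₗ[X.R] (N (k + 1)).M) :
    ∀ l, C.M →ₗ[X.R] (Nz N l).M →ₗ[X.R] (Nz N (l + 1)).M
  | .ofNat k => μ k
  | .negSucc _ => 0

end Sg

open Sg

/-- the Koszul complex of a finitely generated graded module is exact in large degrees -/
theorem kos {X : Spc} (C : Bun X) (N : ℕ → GMod X)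
    (μ : ∀ k, C.M.M →ₗ[X.R] (N k).M →ₗ[X.R] (N (k + 1)).M)
    (hom : ∀ k g c n, μ k (C.M.act g c) ((N k).act g n) = (N (k + 1)).act g (μ k c n))
    (comm : ∀ k c c' n, μ (k + 1) c (μ k c' n) = μ (k + 1) c' (μ k c n))
    (surj : ∃ k₀, ∀ k ≥ k₀, ⊤ ≤ sat X (Submodule.map₂ (μ k) ⊤ ⊤)) :
    ∃ L, ∀ l ≥ L, Del C.lx (fun k => cls (N k)) l = 0 := by
  obtain ⟨k₀, hs⟩ := surj
  obtain ⟨L, h⟩ := kosZ C (Nz N) one_pos (muz μ) (fun l => by
    cases l with
    | ofNat k => exact hom k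
    | negSucc k => exact fun g c n => (map_zero _).symm) (fun l => by
    cases l with
    | ofNat k => exact comm k
    | negSucc k => exact fun c c' n => (map_zero _).trans (map_zero _).symm)
    ⟨k₀, fun l hl => by
      obtain ⟨k, rfl⟩ := Int.eq_ofNat_of_zero_le (show 0 ≤ l by omega)
      exact hs k (by omega)⟩
  refine ⟨L.toNat, fun l hl => (del_eq C _ (fun l => cls (Nz N l)) (ω := 1) l fun i => ?_).symm.trans
    (h _ (by omega))⟩
  split_ifs with hi
  · rw [mul_one, ← Nat.cast_sub hi]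
    rfl
  · obtain ⟨m, hm⟩ := Int.eq_negSucc_of_lt_zero (show ((l : ℤ) - i) * 1 < 0 by omega)
    rw [hm]
    exact cls_zero fun z x => ⟨1, ev_one, Subtype.ext ((one_smul _ _).trans x.2)⟩

end Vale.Agent.P297Z
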