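import Vale.Agent.P297Z.Loc.Sig2

/-!
# P297: the Koszul complex of a family of subquotients
-/

set_option linter.all false

open scoped TensorProduct

noncomputable section

namespace Vale.Agent.P297Z.Sg

open GMod Submodule

theorem lift_ten {R A I T : Type} [CommRing R] [CommRing A] [Algebra R A] [AddCommGroup I]
    [Module R I] [AddCommGroup T] [Module A T] (m : I →+ T)
    (hm : ∀ r c, m (r • c) = algebraMap R A r • m c) :
    ∃ μ : A ⊗[R] I →ₗ[A] T, ∀ c, μ (1 ⊗ₜ c) = m c := by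
  letI : Module R T := Module.compHom T (algebraMap R A)
  haveI : IsScalarTower R A T := ⟨fun r a t => by rw [Algebra.smul_def, mul_smul]; rfl⟩
  exact ⟨LinearMap.liftBaseChange A { m with map_smul' := hm }, fun c =>
    (LinearMap.liftBaseChange_tmul _ _ _ _).trans (one_smul _ _)⟩

variable {Y : Spc} {I : Ideal Y.R} (stab : (one Y).Stab I) {Z : Set Y.Pt} (hZ : Y.Stab Z)

/-- the restriction of the ideal -/
def PI : GMod (Y.sub Z hZ) := (Mor.incl Y Z hZ).pull ((one Y).sub I stab)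

/-- the class of an element of the ideal -/
def ic (c : I) : (PI stab hZ).M :=
  (1 : (Mor.incl Y Z hZ).Src) ⊗ₜ[Y.R] (show ((one Y).sub I stab).M from c)

theorem ic_surj (p : (PI stab hZ).M) : ∃ c, ic stab hZ c = p :=
  TensorProduct.mk_surjective Y.R ((one Y).sub I stab).M (Mor.incl Y Z hZ).Src
    Ideal.Quotient.mk_surjective p

theorem act_ic (g : (Y.sub Z hZ).J → ℂˣ) (c : I) : (PI stab hZ).act g
    (ic stab hZ c) = ic stab hZ ⟨Y.act g c, stab g _ c.2⟩ := by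
  have e : tor (Mor.incl Y Z hZ).ρ g = g := tor_id g
  refine congrArg₂ (fun (a : (Mor.incl Y Z hZ).Src) (c : ((one Y).sub I stab).M) => a ⊗ₜ[Y.R] c)
    (map_one ((Y.sub Z hZ).act g)) (Subtype.ext ?_)
  exact congrArg (fun g => Y.act g c) e

section
variable {M : GMod Y} {U V U' V' : Submodule Y.R M.M}

/-- the class of an element -/
def mq (h : M.IsSq Z U V) (u : M.M) (hu : u ∈ U) : (M.sq Z hZ U V h).M := mk h u hu

theorem mq_surj (h : M.IsSq Z U V) (x : (M.sq Z hZ U V h).M) : ∃ u hu, x = mq hZ h u hu :=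
  mk_surj h x

theorem mq_congr (h : M.IsSq Z U V) {u u' : M.M} {hu hu'} (e : u = u') :
    mq hZ h u hu = mq hZ h u' hu' := by subst e; rfl

theorem exists_mu (h : M.IsSq Z U V) (h' : M.IsSq Z U' V') (hU : I • U ≤ U') (hV : I • V ≤ V') :
    ∃ μ : (PI stab hZ).M →ₗ[(Y.sub Z hZ).R]
      (M.sq Z hZ U V h).M →ₗ[(Y.sub Z hZ).R] (M.sq Z hZ U' V' h').M,
      ∀ (c : I) u hu, μ (ic stab hZ c) (mq hZ h u hu) =
        mq hZ h' (c.1 • u) (hU (smul_mem_smul c.2 hu)) := by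
  let m : I → (M.sq Z hZ U V h).M →ₗ[(Y.sub Z hZ).R] (M.sq Z hZ U' V' h').M := fun c =>
    dmap hZ h.tors h'.tors (sqm h h' (LinearMap.lsmul Y.R M.M c)
      (fun u hu => hU (smul_mem_smul c.2 hu)) fun u _ hu => hV (smul_mem_smul c.2 hu))
  letI : Module (Mor.incl Y Z hZ).Src
      ((M.sq Z hZ U V h).M →ₗ[(Y.sub Z hZ).R] (M.sq Z hZ U' V' h').M) :=
    (inferInstance : Module (Y.sub Z hZ).R _)
  obtain ⟨μ, hμ⟩ := lift_ten (R := Y.R) (A := (Mor.incl Y Z hZ).Src) (I := I)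
    (T := (M.sq Z hZ U V h).M →ₗ[(Y.sub Z hZ).R] (M.sq Z hZ U' V' h').M)
    (AddMonoidHom.mk' m fun c c' => LinearMap.ext fun x => by
      obtain ⟨u, hu, rfl⟩ := mq_surj hZ h x
      exact mq_congr hZ h' (add_smul c.1 c'.1 u))
    fun r c => LinearMap.ext fun x => by
      obtain ⟨u, hu, rfl⟩ := mq_surj hZ h x
      exact mq_congr hZ h' (mul_smul r c.1 u)
  exact ⟨μ, fun c u hu => LinearMap.congr_fun (hμ c) _⟩

end

/-- a family of subquotients that is a finitely generated graded module -/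
structure KP (M : GMod Y) (Z : Set Y.Pt) (I : Ideal Y.R) (ω : ℤ) (U V : ℤ → Submodule Y.R M.M) :
    Prop where
  sq : ∀ l, M.IsSq Z (U l) (V l)
  mU : ∀ l, I • U l ≤ U (l + ω)
  mV : ∀ l, I • V l ≤ V (l + ω)
  st : ∃ l₀, ∀ l ≥ l₀, U (l + ω) ≤ sat Y (I • U l)
  bd : ∃ l₁, ∀ l ≤ l₁, U l ≤ sat Y (V l)

/-- the Koszul sums of such families are finite -/
def Fin (I : Ideal Y.R) (C : Bun (Y.sub Z hZ)) (ω : ℤ) : Prop :=
  ∀ (M : GMod Y) (U V : ℤ → Submodule Y.R M.M), KP M Z I ω U V →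
    (Dz C ω fun l => M.sqc Z hZ (U l) (V l)).HasFiniteSupport

theorem fin (C : Bun (Y.sub Z hZ)) (θ : C.M.M →ₗ[(Y.sub Z hZ).R] (PI stab hZ).M)
    (hom : C.M.IsHom _ θ) (surj : ∀ z : (Y.sub Z hZ).Pt, SurjAt z.1 θ) {ω : ℤ} (hω : 0 < ω) :
    Fin hZ I C ω := fun M U V h => by
  choose μ hμ using fun l => exists_mu stab hZ (h.sq l) (h.sq (l + ω)) (h.mU l) (h.mV l)
  obtain ⟨l₀, h0⟩ := h.st
  obtain ⟨l₁, h1⟩ := h.bd
  obtain ⟨L, hL⟩ := kosZ C (fun l => M.sq Z hZ (U l) (V l) (h.sq l)) hω (fun l => μ l ∘ₗ θ)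
    (fun l g c x => by
      obtain ⟨u, hu, rfl⟩ := mq_surj hZ (h.sq l) x
      obtain ⟨a, ha⟩ := ic_surj stab hZ (θ c)
      rw [LinearMap.comp_apply, LinearMap.comp_apply, hom, ← ha, hμ, act_ic]
      exact (hμ l _ (M.act g u) ((h.sq l).hU g u hu)).trans
        (mq_congr hZ _ (M.act_smul g a u).symm))
    (fun l c c' x => by
      obtain ⟨u, hu, rfl⟩ := mq_surj hZ (h.sq l) x
      obtain ⟨a, ha⟩ := ic_surj stab hZ (θ c)
      obtain ⟨a', ha'⟩ := ic_surj stab hZ (θ c')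
      simp only [LinearMap.comp_apply, ← ha, ← ha', hμ]
      exact mq_congr hZ _ (smul_comm a.1 a'.1 u))
    ⟨l₀, fun l hl x _ z => by
      obtain ⟨u, hu, rfl⟩ := mq_surj hZ (h.sq (l + ω)) x
      obtain ⟨r, k1, k2⟩ := h0 l hl hu ((Mor.incl Y Z hZ).onPt z)
      obtain ⟨s, k3, k4⟩ := (surj z).unif
      refine ⟨s * (Mor.incl Y Z hZ).φ r, ev_mul k3 k1, ?_⟩
      have key : ∀ v ∈ I • U l, ∀ hv, s • mq hZ (h.sq (l + ω)) v hv ∈ map₂ (μ l ∘ₗ θ) ⊤ ⊤ := by
        intro v hv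
        refine smul_induction_on' (p := fun v _ => ∀ hv, s • mq hZ (h.sq (l + ω)) v hv ∈
          map₂ (μ l ∘ₗ θ) ⊤ ⊤) hv (fun a ha u hu _ => ?_) fun v hv v' hv' k k' _ => ?_
        · obtain ⟨c, hc⟩ := k4 (ic stab hZ ⟨a, ha⟩)
          have := apply_mem_map₂ (μ l ∘ₗ θ) (m := c) (n := mq hZ (h.sq l) u hu) mem_top mem_top
          rwa [LinearMap.comp_apply, hc, map_smul, LinearMap.smul_apply, hμ] at this
        · have := add_mem (k (h.mU l hv)) (k' (h.mU l hv'))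
          rwa [← smul_add] at this
      rw [mul_smul]
      exact key _ k2 ((U (l + ω)).smul_mem r hu)⟩
  refine (Set.finite_Ioo l₁ L).subset fun l hl => ⟨not_le.1 fun k => hl ?_, not_le.1 fun k => hl ?_⟩
  · refine Finset.sum_eq_zero fun i _ => ?_
    beta_reduce
    rw [sqc_zero hZ (h1 _ (by nlinarith)), map_zero, smul_zero]
  · rw [funext fun l => sqc_eq hZ (h.sq l)]
    exact hL l k

end Vale.Agent.P297Z.Sg
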