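import Vale.Agent.P297Z.Loc.Sig3

/-!
# P297: the value of a filtration does not depend on the filtration
-/

set_option linter.all false

noncomputable section

namespace Vale.Agent.P297Z.Sg

open GMod Submodule

section val

variable {X : Spc} (C : Bun X) (ω : ℤ)

/-- the sum of the coefficients -/
def val (h : ℤ → G X) : G X := ∑ᶠ l, Dz C ω h l

variable {C ω} {h h' : ℤ → G X}

theorem val_add (k : (Dz C ω h).HasFiniteSupport) (k' : (Dz C ω h').HasFiniteSupport) :
    val C ω (fun l => h l + h' l) = val C ω h + val C ω h' := by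
  rw [val, val, val, ← finsum_add_distrib k k']
  simp only [Dz, map_add, smul_add, Finset.sum_add_distrib]

theorem val_shift (h : ℤ → G X) (j : ℤ) : val C ω (fun l => h (l + j)) = val C ω h := by
  rw [val, val, ← finsum_comp_equiv (Equiv.addRight j) (f := Dz C ω h)]
  simp only [Dz, Equiv.coe_addRight, sub_add_eq_add_sub]

theorem val_kact (k : (Dz C ω h).HasFiniteSupport) (s : K0 X) :
    val C ω (fun l => kact X s (h l)) = kact X s (val C ω h) := by
  rw [val, val, AddMonoidHom.map_finsum _ k]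
  simp only [Dz, map_sum, map_zsmul, kact_comm s]

theorem val_zero : val C ω (fun _ => 0) = 0 := by simp [val, Dz]

end val

variable {Y : Spc} {I : Ideal Y.R} {Z : Set Y.Pt} {hZ : Y.Stab Z} {C : Bun (Y.sub Z hZ)} {ω : ℤ}
  {M : GMod Y} {F F' : ℤ → Submodule Y.R M.M}

/-- an admissible filtration of step `ω` -/
structure Az (M : GMod Y) (Z : Set Y.Pt) (I : Ideal Y.R) (ω : ℤ) (F : ℤ → Submodule Y.R M.M) :
    Prop where
  stab : ∀ l, M.Stab (F l)
  anti : ∀ l, F (l + 1) ≤ F l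
  nil : ∀ l, Y.van Z • F l ≤ F (l + 1)
  mul : ∀ l, I • F l ≤ F (l + ω)
  st : ∃ l₀, ∀ l ≥ l₀, F (l + ω) ≤ sat Y (I • F l)
  top : ∃ l₁, ∀ l ≤ l₁, ⊤ ≤ sat Y (F l)

/-- the value of a filtration -/
def fv (C : Bun (Y.sub Z hZ)) (ω : ℤ) (M : GMod Y) (F : ℤ → Submodule Y.R M.M) :
    G (Y.sub Z hZ) := val C ω fun l => M.sqc Z hZ (F l) (F (l + 1))

theorem Az.isSq (h : Az M Z I ω F) (l : ℤ) : M.IsSq Z (F l) (F (l + 1)) :=
  ⟨h.stab _, h.stab _, h.nil l⟩

theorem Az.shift (h : Az M Z I ω F) (j : ℤ) : Az M Z I ω fun l => F (l + j) where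
  stab := fun _ => h.stab _
  anti := fun l => by rw [add_right_comm]; exact h.anti _
  nil := fun l => by rw [add_right_comm]; exact h.nil _
  mul := fun l => by rw [add_right_comm]; exact h.mul _
  st := h.st.elim fun l₀ k => ⟨l₀ - j, fun l hl => by rw [add_right_comm]; exact k _ (by omega)⟩
  top := h.top.elim fun l₀ k => ⟨l₀ - j, fun l hl => k _ (by omega)⟩

theorem Az.sup (h : Az M Z I ω F) (h' : Az M Z I ω F') : Az M Z I ω fun l => F l ⊔ F' l where
  stab := fun _ => (h.stab _).sup (h'.stab _)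
  anti := fun l => sup_le_sup (h.anti l) (h'.anti l)
  nil := fun l => by rw [smul_sup]; exact sup_le_sup (h.nil l) (h'.nil l)
  mul := fun l => by rw [smul_sup]; exact sup_le_sup (h.mul l) (h'.mul l)
  st := h.st.elim fun l₀ k => h'.st.elim fun l₁ k' => ⟨max l₀ l₁, fun l hl => sup_le
    ((k l (by omega)).trans (sat_mono (smul_mono le_rfl le_sup_left)))
    ((k' l (by omega)).trans (sat_mono (smul_mono le_rfl le_sup_right)))⟩
  top := h.top.elim fun l₀ k => ⟨l₀, fun l hl => (k l hl).trans (sat_mono le_sup_left)⟩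

theorem Az.kp (h : Az M Z I ω F) (h' : Az M Z I ω F') (k : ∀ l, F (l + 1) ≤ F' l) :
    KP M Z I ω F F' :=
  ⟨fun l => ⟨h.stab l, h'.stab l, (h.nil l).trans (k l)⟩, h.mul, h'.mul, h.st,
    h'.top.imp fun _ k l hl => le_top.trans (k l hl)⟩

theorem Az.fin (hK : Fin hZ I C ω) (h : Az M Z I ω F) :
    (Dz C ω fun l => M.sqc Z hZ (F l) (F (l + 1))).HasFiniteSupport :=
  hK _ _ _ (h.kp (h.shift 1) fun _ => le_rfl)

theorem fv_shift (F : ℤ → Submodule Y.R M.M) (j : ℤ) :
    fv C ω M (fun l => F (l + j)) = fv C ω M F := by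
  refine .trans ?_ (val_shift _ j)
  simp only [fv, add_right_comm _ 1 j]

theorem step (hK : Fin hZ I C ω) (h : Az M Z I ω F) (h' : Az M Z I ω F')
    (k : ∀ l, F (l + 1) ≤ F' l) (k' : ∀ l, F' l ≤ F l) : fv C ω M F = fv C ω M F' := by
  have p1 := hK _ _ _ (h.kp h' k)
  have p2 := hK _ _ _ (h'.kp (h.shift 1) fun l => k' _)
  have p3 := hK _ _ _ ((h.shift 1).kp (h'.shift 1) fun l => k _)
  rw [fv, fv, funext fun l => sqc_add hZ (h.isSq l) (h'.stab l) (k l) (k' l),
    funext fun l => sqc_add hZ (h'.isSq l) (h.stab (l + 1)) (k' _) (k l), val_add p1 p2,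
    val_add p2 p3, val_shift (fun l => M.sqc Z hZ (F l) (F' l)) 1, add_comm]

theorem fv_congr (h : Az M Z I ω F) (h' : Az M Z I ω F') (k : ∀ l, F l ≤ sat Y (F' l))
    (k' : ∀ l, F' l ≤ sat Y (F l)) : fv C ω M F = fv C ω M F' :=
  congrArg (val C ω) (funext fun l => sqc_congr hZ (h.isSq l) (h'.isSq l) (k _) (k' _) (k _) (k' _))

theorem comm (hω : 0 < ω) (h : Az M Z I ω F) (h' : Az M Z I ω F') :
    ∃ j : ℕ, ∀ l, F (l + j) ≤ sat Y (F' l) := by
  obtain ⟨l₀, h0⟩ := h.st
  obtain ⟨l₁, h1⟩ := h'.top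
  refine ⟨(l₀ - l₁ + ω).toNat, fun l => ?_⟩
  suffices H : ∀ n : ℕ, ∀ l ≤ l₁ + n, F (l + (l₀ - l₁ + ω).toNat) ≤ sat Y (F' l) from
    H (l - l₁).toNat l (by omega)
  intro n
  induction n with
  | zero => exact fun l hl => le_top.trans (h1 l (by omega))
  | succ n ih =>
    intro l hl
    by_cases e : l ≤ l₁
    · exact le_top.trans (h1 l e)
    obtain ⟨l, rfl⟩ : ∃ l', l = l' + ω := ⟨l - ω, by ring⟩
    rw [add_right_comm]
    exact (h0 _ (by omega)).trans (sat_le ((smul_mono le_rfl (ih l (by omega))).trans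
      ((smul_sat I).trans (sat_mono (h'.mul l)))))

theorem fv_sup (hK : Fin hZ I C ω) (hω : 0 < ω) (h : Az M Z I ω F) (h' : Az M Z I ω F') :
    fv C ω M (fun l => F l ⊔ F' l) = fv C ω M F' := by
  obtain ⟨j, hj⟩ := comm hω h h'
  rw [← fv_congr ((h.shift j).sup h') h' (fun l => sup_le (hj l) (le_sat _))
    fun l => le_sup_right.trans (le_sat _)]
  clear hj
  induction j with
  | zero => simp
  | succ j ih =>
    refine ih.trans (step hK ((h.shift j).sup h') ((h.shift _).sup h') (fun l => ?_) fun l => ?_)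
    · exact sup_le_sup (le_of_eq (congrArg F (by omega))) (h'.anti l)
    · exact sup_le_sup_right ((le_of_eq (congrArg F (by omega))).trans (h.anti _)) _

theorem fv_eq (hK : Fin hZ I C ω) (hω : 0 < ω) (h : Az M Z I ω F) (h' : Az M Z I ω F') :
    fv C ω M F = fv C ω M F' := by
  rw [← fv_sup hK hω h h', ← fv_sup hK hω h' h]
  simp only [sup_comm]

section ses

variable {A B D : GMod Y} {f : A.M →ₗ[Y.R] B.M} {g : B.M →ₗ[Y.R] D.M}
  {F : ℤ → Submodule Y.R B.M}

theorem map_sat (g : B.M →ₗ[Y.R] D.M) (V : Submodule Y.R B.M) :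
    (sat Y V).map g ≤ sat Y (V.map g) := by
  rintro _ ⟨m, hm, rfl⟩ z
  exact (hm z).imp fun r k => ⟨k.1, _, k.2, map_smul g r m⟩

theorem Az.map (h : Az B Z I ω F) (hg : B.IsHom D g) (hs : Function.Surjective g) :
    Az D Z I ω fun l => (F l).map g where
  stab := fun l => hg.stab_map (h.stab l)
  anti := fun l => map_mono (h.anti l)
  nil := fun l => by rw [← map_smul'']; exact map_mono (h.nil l)
  mul := fun l => by rw [← map_smul'']; exact map_mono (h.mul l)
  st := h.st.imp fun _ k l hl => by rw [← map_smul'']; exact (map_mono (k l hl)).trans (map_sat _ _)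
  top := h.top.imp fun _ k l hl x _ => by
    obtain ⟨x, rfl⟩ := hs x
    exact map_sat g _ ⟨x, k l hl trivial, rfl⟩

theorem Az.comap (hω : 0 < ω) (h : Az B Z I ω F) (hf : A.IsHom B f) (hi : Function.Injective f) :
    Az A Z I ω fun l => (F l).comap f where
  stab := fun l => hf.stab_comap (h.stab l)
  anti := fun l => comap_mono (h.anti l)
  nil := fun l => (smul_comap_le_comap_smul _ _ _).trans (comap_mono (h.nil l))
  mul := fun l => (smul_comap_le_comap_smul _ _ _).trans (comap_mono (h.mul l))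
  top := h.top.imp fun _ k l hl x _ z => (k l hl (x := f x) trivial z).imp fun r k =>
    ⟨k.1, by rw [mem_comap, map_smul]; exact k.2⟩
  st := by
    obtain ⟨l₀, h0⟩ := h.st
    let ν : ∀ l, I →ₗ[Y.R] F l →ₗ[Y.R] F (l + ω) := fun l => LinearMap.mk₂ Y.R
      (fun c x => ⟨c.1 • x.1, h.mul l (smul_mem_smul c.2 x.2)⟩)
      (fun _ _ _ => Subtype.ext (add_smul _ _ _)) (fun _ _ _ => Subtype.ext (mul_smul _ _ _))
      (fun _ _ _ => Subtype.ext (smul_add _ _ _)) fun _ _ _ => Subtype.ext (smul_comm _ _ _)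
    obtain ⟨l₁, h1⟩ := fg (P := fun l => F l) ν hω (fun _ _ _ _ => Subtype.ext (smul_comm _ _ _))
      (fun l => (LinearMap.range f).comap (F l).subtype)
      (fun l c x hx => (LinearMap.range f).smul_mem c.1 hx) l₀
    refine ⟨l₁, fun l hl a ha z => ?_⟩
    obtain ⟨r, k1, k2⟩ := h1 (nz z) (fun l hl x => by
      obtain ⟨r, k1, k2⟩ := h0 l hl x.2 z
      have k : I • F l ≤ (map₂ (ν l) ⊤ ⊤).map (F (l + ω)).subtype := smul_le.2 fun c hc y hy =>
        ⟨_, apply_mem_map₂ (ν l) (m := ⟨c, hc⟩) (n := ⟨y, hy⟩) mem_top mem_top, rfl⟩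
      obtain ⟨y, hy, e⟩ := k k2
      exact ⟨r, k1, (Subtype.ext e : y = r • x) ▸ hy⟩) l hl ⟨f a, ha⟩ ⟨a, rfl⟩
    have k : map₂ (ν l) ⊤ ((LinearMap.range f).comap (F l).subtype) ≤
        ((I • (F l).comap f).map f).comap (F (l + ω)).subtype := map₂_le.2 fun c _ y ⟨b, hb⟩ =>
      ⟨c.1 • b, smul_mem_smul c.2 (by rw [mem_comap, hb]; exact y.2), by
        rw [map_smul, hb]; rfl⟩
    obtain ⟨b, hb, e⟩ := k k2
    exact ⟨r, k1, hi (e.trans (map_smul f r a).symm) ▸ hb⟩

theorem fv_ses (hK : Fin hZ I C ω) (hω : 0 < ω) (h : Az B Z I ω F) (hf : A.IsHom B f)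
    (hg : B.IsHom D g) (hi : Function.Injective f) (he : Function.Exact f g)
    (hs : Function.Surjective g) :
    fv C ω B F = fv C ω A (fun l => (F l).comap f) + fv C ω D fun l => (F l).map g := by
  have hA := h.comap hω hf hi
  have hD := h.map hg hs
  rw [fv, fv, fv, ← val_add (hA.fin hK) (hD.fin hK)]
  refine congrArg _ (funext fun l => three hZ hf hg (hA.isSq l) (h.isSq l) (hD.isSq l)
    (fun _ k => k) (fun _ _ k => k) (fun _ k => mem_map_of_mem k) (fun _ _ k => mem_map_of_mem k)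
    (fun u _ => by rw [he.apply_apply_eq_zero]; exact zero_mem _) (fun _ _ k => le_sat _ k)
    (fun u hu ⟨v, hv, e⟩ => le_sat _ ?_) (le_sup_left.trans (le_sat _)))
  obtain ⟨a, ha⟩ := (he (u - v)).1 (by rw [map_sub, e, sub_self])
  exact mem_sup.2 ⟨_, ⟨a, by rw [SetLike.mem_coe, mem_comap, ha]; exact sub_mem hu (h.anti l hv),
    ha⟩, v, hv, sub_add_cancel _ _⟩

end ses

end Vale.Agent.P297Z.Sg
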