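import Vale.Agent.P297Z.K.KG
import Vale.Agent.P297Z.K.Loc

/-!
# P297: subquotients, admissible filtrations
-/

set_option linter.all false

noncomputable section

namespace Vale.Agent.P297Z

variable {Y : Spc}

/-- the elements that lie in `V` at all points -/
def sat (Y : Spc) {A : Type} [AddCommGroup A] [Module Y.R A] (V : Submodule Y.R A) :
    Submodule Y.R A where
  carrier := {m | ∀ z : Y.Pt, ∃ r, z.1 r ≠ 0 ∧ r • m ∈ V}
  add_mem' := fun {a b} ha hb z => by
    obtain ⟨r, hr, h⟩ := ha z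
    obtain ⟨s, hs, h'⟩ := hb z
    refine ⟨r * s, ev_mul hr hs, ?_⟩
    rw [smul_add]
    exact V.add_mem (by rw [mul_comm, mul_smul]; exact V.smul_mem _ h)
      (by rw [mul_smul]; exact V.smul_mem _ h')
  zero_mem' := fun z => ⟨1, ev_one, by rw [smul_zero]; exact V.zero_mem⟩
  smul_mem' := fun c a ha z => (ha z).imp fun r h =>
    ⟨h.1, by rw [smul_comm]; exact V.smul_mem c h.2⟩

namespace GMod

/-- a module killed by the ideal of `Z`, as a module on the closed subspace -/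
def down (N : GMod Y) (Z : Set Y.Pt) (hZ : Y.Stab Z)
    (h : Module.IsTorsionBySet Y.R N.M (Y.van Z)) : GMod (Y.sub Z hZ) where
  M := N.M
  mR := h.module
  tow :=
    letI : Module (Y.sub Z hZ).R N.M := h.module
    ⟨fun c r m => by
      obtain ⟨r, rfl⟩ := Ideal.Quotient.mk_surjective r
      exact smul_assoc c r m⟩
  fin :=
    letI : Module (Y.R ⧸ Y.van Z) N.M := h.module
    haveI : IsScalarTower Y.R (Y.R ⧸ Y.van Z) N.M := h.isScalarTower
    Module.Finite.of_restrictScalars_finite Y.R (Y.R ⧸ Y.van Z) N.M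
  act := N.act
  act_smul := fun g r m => by
    obtain ⟨r, rfl⟩ := Ideal.Quotient.mk_surjective r
    exact N.act_smul g r m
  span := N.span

theorem down_smul (N : GMod Y) (Z : Set Y.Pt) (hZ : Y.Stab Z)
    (h : Module.IsTorsionBySet Y.R N.M (Y.van Z)) (r : Y.R) (m : N.M) :
    @HSMul.hSMul (Y.sub Z hZ).R (N.down Z hZ h).M (N.down Z hZ h).M _
      ((Mor.incl Y Z hZ).φ r) m = r • m := rfl

/-- the subquotient `U / V` is defined and killed by the ideal of `Z` -/
structure IsSq (M : GMod Y) (Z : Set Y.Pt) (U V : Submodule Y.R M.M) : Prop where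
  hU : M.Stab U
  hV : M.Stab V
  nil : Y.van Z • U ≤ V

/-- the subquotient `U / (U ⊓ V)` -/
def sqY (M : GMod Y) (U V : Submodule Y.R M.M) (hU : M.Stab U) (hV : M.Stab V) : GMod Y :=
  (M.sub U hU).quo (V.submoduleOf U) fun g m hm => hV g _ hm

theorem IsSq.tors {M : GMod Y} {Z : Set Y.Pt} {U V : Submodule Y.R M.M} (h : M.IsSq Z U V) :
    Module.IsTorsionBySet Y.R (M.sqY U V h.hU h.hV).M (Y.van Z) := by
  rintro m ⟨r, hr⟩
  obtain ⟨m, rfl⟩ := Submodule.Quotient.mk_surjective _ m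
  exact (Submodule.Quotient.mk_eq_zero _).2 (h.nil (Submodule.smul_mem_smul hr m.2))

/-- the subquotient as a module on the closed subspace -/
def sq (M : GMod Y) (Z : Set Y.Pt) (hZ : Y.Stab Z) (U V : Submodule Y.R M.M)
    (h : M.IsSq Z U V) : GMod (Y.sub Z hZ) := (M.sqY U V h.hU h.hV).down Z hZ h.tors

open Classical in
/-- the class of the subquotient -/
def sqc (M : GMod Y) (Z : Set Y.Pt) (hZ : Y.Stab Z) (U V : Submodule Y.R M.M) :
    G (Y.sub Z hZ) := if h : M.IsSq Z U V then cls (M.sq Z hZ U V h) else 0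

theorem sqc_eq {M : GMod Y} {Z : Set Y.Pt} (hZ : Y.Stab Z) {U V : Submodule Y.R M.M}
    (h : M.IsSq Z U V) : M.sqc Z hZ U V = cls (M.sq Z hZ U V h) := dif_pos h

/-- an admissible filtration -/
structure Adm (M : GMod Y) (Z : Set Y.Pt) (I : Ideal Y.R) (F : ℕ → Submodule Y.R M.M) : Prop where
  stab : ∀ l, M.Stab (F l)
  anti : ∀ l, F (l + 1) ≤ F l
  top : ⊤ ≤ sat Y (F 0)
  nil : ∀ l, Y.van Z • F l ≤ F (l + 1)
  mul : ∀ l, I • F l ≤ F (l + 1)
  stable : ∃ l₀, ∀ l ≥ l₀, F (l + 1) ≤ sat Y (I • F l)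

end GMod

/-- the class of the exterior power of a bundle -/
def Bun.lx {X : Spc} (C : Bun X) (i : ℕ) : K0 X := kc (C.M.ext i) (C.rk.choose i)

/-- the coefficients of the product of `∑ (-z) ^ i t i` with `∑ z ^ k h k` -/
def Del {X : Spc} (t : ℕ → K0 X) (h : ℕ → G X) (l : ℕ) : G X :=
  ∑ i ∈ Finset.range (l + 1), (-1 : ℤ) ^ i • kact X (t i) (h (l - i))

end Vale.Agent.P297Z
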