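import Vale.Agent.P297Z.Loc.Tp

/-!
# P297: a module on `X × ptT` is the sum of its coefficients
-/

set_option linter.all false

open scoped TensorProduct

noncomputable section

namespace Vale.Agent.P297Z

variable {W X : Spc} {M A B C : GMod (X.prod ptT)} {k : ℤ}

/-- the element `1 ⊗ n` of the pull-back -/
def Mor.pin (f : Mor W X) (N : GMod X) (n : N.M) : (f.pull N).M := (1 : f.Src) ⊗ₜ n

theorem Mor.pin_add (f : Mor W X) (N : GMod X) (a b : N.M) :
    f.pin N (a + b) = f.pin N a + f.pin N b := TensorProduct.tmul_add (1 : f.Src) a b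

theorem Mor.pin_zero (f : Mor W X) (N : GMod X) : f.pin N 0 = 0 :=
  TensorProduct.tmul_zero N.M (1 : f.Src)

theorem Mor.pin_smul (f : Mor W X) (N : GMod X) (r : X.R) (n : N.M) :
    f.pin N (r • n) = f.φ r • f.pin N n :=
  (TensorProduct.tmul_smul r (1 : f.Src) n).trans
    (algebraMap_smul f.Src r ((1 : f.Src) ⊗ₜ[X.R] n)).symm

theorem Mor.act_pin (f : Mor W X) (N : GMod X) (g : W.J → ℂˣ) (n : N.M) :
    (f.pull N).act g (f.pin N n) = f.pin N (N.act (tor f.ρ g) n) := GMod.pull_act_one f N g n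

theorem Mor.pin_induction {f : Mor W X} {N : GMod X} {P : (f.pull N).M → Prop} (h0 : P 0)
    (h1 : ∀ x : N.M, P (f.pin N x)) (hs : ∀ (s : W.R) m, P m → P (s • m))
    (ha : ∀ x y, P x → P y → P (x + y)) (m : (f.pull N).M) : P m :=
  GMod.pull_induction h0 h1 hs ha m

theorem Mor.pull_ext {f : Mor W X} {N : GMod X} {P : Type} [AddCommGroup P] [Module W.R P]
    {u v : (f.pull N).M →ₗ[W.R] P} (h : ∀ n, u (f.pin N n) = v (f.pin N n)) : u = v :=
  LinearMap.ext fun y => Mor.pin_induction (P := fun y => u y = v y) (by rw [map_zero, map_zero]) h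
    (fun s m hm => by rw [map_smul, map_smul, hm])
    (fun a b ha hb => by rw [map_add, map_add, ha, hb]) y

/-- a map out of a pull-back -/
def Mor.pullLin (f : Mor W X) {N : GMod X} {P : GMod W} (l : N.M →ₗ[X.R] f.Res P) :
    (f.pull N).M →ₗ[W.R] P.M :=
  letI : Module f.Src (f.Res P) := P.mR
  haveI : IsScalarTower X.R f.Src (f.Res P) := IsScalarTower.of_algebraMap_smul fun _ _ => rfl
  l.liftBaseChange f.Src

theorem Mor.pullLin_pin (f : Mor W X) {N : GMod X} {P : GMod W} (l : N.M →ₗ[X.R] f.Res P)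
    (n : N.M) : f.pullLin l (f.pin N n) = (f.toRes P).symm (l n) :=
  one_smul W.R ((f.toRes P).symm (l n))

/-- the pull-back of a map -/
def Mor.pullMap (f : Mor W X) {N P : GMod X} (u : N.M →ₗ[X.R] P.M) :
    (f.pull N).M →ₗ[W.R] (f.pull P).M := u.baseChange f.Src

theorem Mor.pullMap_pin (f : Mor W X) {N P : GMod X} (u : N.M →ₗ[X.R] P.M) (n : N.M) :
    f.pullMap u (f.pin N n) = f.pin P (u n) := rfl

theorem exists_pin {N : GMod X} (y : ((Mor.fst X ptT).pull N).M) :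
    ∃ n : N.M, (Mor.fst X ptT).pin N n = y := by
  induction y using Mor.pin_induction with
  | h0 => exact ⟨0, Mor.pin_zero _ _⟩
  | h1 n => exact ⟨n, rfl⟩
  | ha a b ha hb =>
    obtain ⟨a, rfl⟩ := ha
    obtain ⟨b, rfl⟩ := hb
    exact ⟨a + b, Mor.pin_add _ _ _ _⟩
  | hs s a ha =>
    obtain ⟨a, rfl⟩ := ha
    obtain ⟨r, rfl⟩ := exists_fstT s
    exact ⟨r • a, Mor.pin_smul _ _ _ _⟩

/-- the inverse of `n ↦ 1 ⊗ n` -/
def unT (N : GMod X) : (Mor.fst X ptT).Src ⊗[X.R] N.M →ₗ[X.R] N.M :=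
  (TensorProduct.lid X.R N.M).toLinearMap ∘ₗ LinearMap.rTensor N.M
    { toFun := fun s : (Mor.fst X ptT).Src => ridT X s
      map_add' := map_add (ridT X)
      map_smul' := fun r s => (map_mul (ridT X) _ s).trans (congrArg (· * _) (ridT_fst r)) }

theorem unT_pin (N : GMod X) (n : N.M) : unT N ((Mor.fst X ptT).pin N n) = n :=
  (congrArg (· • n) (map_one (ridT X))).trans (one_smul _ n)

theorem pin_inj {N : GMod X} {n n' : N.M}
    (h : (Mor.fst X ptT).pin N n = (Mor.fst X ptT).pin N n') : n = n' :=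
  (unT_pin N n).symm.trans ((congrArg (unT N) h).trans (unT_pin N n'))

theorem tor_gL (g : X.J → ℂˣ) : tor (Mor.fst X ptT).ρ (gL g) = g := tor_fstT _

theorem tor_gR (h : Unit → ℂˣ) : tor (Mor.fst X ptT).ρ (gR X h) = 1 := tor_fstT _

theorem pull_mem_wtT (N : GMod X) (y : ((Mor.fst X ptT).pull N).M) :
    y ∈ wt (actT ((Mor.fst X ptT).pull N)) fun _ => -0 := fun h => by
  obtain ⟨n, rfl⟩ := exists_pin y
  refine (Mor.act_pin _ N _ n).trans ?_
  rw [tor_gR, N.act_one, neg_zero]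
  exact ((congrArg (· • _) (chr_zero h)).trans (one_smul _ _)).symm

/-- the coefficient of `t ^ 0` of a pull-back -/
def tpPull (N : GMod X) : N.M ≃ₗ[X.R] (tp 0 ((Mor.fst X ptT).pull N)).M :=
  LinearEquiv.ofBijective
    { toFun := fun n => tpMk ((Mor.fst X ptT).pin N n) (pull_mem_wtT N _)
      map_add' := fun a b => tpVal_inj (by
        rw [tpVal_add, tpVal_mk, tpVal_mk, tpVal_mk, Mor.pin_add])
      map_smul' := fun r a => tpVal_inj (by
        rw [tpVal_smul, tpVal_mk, tpVal_mk, Mor.pin_smul, RingHom.id_apply]) }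
    ⟨fun a b h => pin_inj (congrArg tpVal h), fun y =>
      (exists_pin (tpVal y)).imp fun _ h => tpVal_inj h⟩

theorem tpVal_pull (N : GMod X) (n : N.M) : tpVal (tpPull N n) = (Mor.fst X ptT).pin N n := rfl

theorem tpPull_isHom (N : GMod X) : N.IsHom _ (tpPull N).toLinearMap := fun g n =>
  tpVal_inj (by
    rw [tpVal_act, LinearEquiv.coe_coe, tpVal_pull, tpVal_pull, Mor.act_pin, tor_gL])

theorem tp_pull_subsingleton (N : GMod X) (hk : k ≠ 0) :
    Subsingleton (tp k ((Mor.fst X ptT).pull N)).M :=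
  tp_subsingleton fun m => cmpT_of_ne hk.symm (pull_mem_wtT N m)

theorem mem_wtT_shift {δ : (X.prod ptT).J → ℤ} {m : M.M} :
    m ∈ wt (actT (M.shift δ)) (fun _ => -k) ↔ m ∈ wt (actT M) fun _ => -(k - δ (.inr ())) := by
  have e : ∀ h : Unit → ℂˣ, chr (-δ) (gR X h) = (chr (fun _ => δ (.inr ())) h)⁻¹ := fun h =>
    (chr_gR _ h).trans (chr_neg (fun _ => δ (.inr ())) h)
  have e' : ∀ h : Unit → ℂˣ, chr (fun _ => -(k - δ (.inr ()))) h =
      chr (fun _ => δ (.inr ())) h * chr (fun _ => -k) h := fun h => by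
    rw [← chr_add]
    exact congrArg (chr · h) (funext fun _ => by rw [neg_sub, sub_eq_add_neg]; rfl)
  refine forall_congr' fun h => ?_
  show chr (-δ) (gR X h) • actT M h m = chr _ h • m ↔ _
  rw [e, e', inv_smul_eq_iff₀ (chr_ne _ _), smul_smul]

/-- the coefficients of a twist -/
def tpShift (k : ℤ) (M : GMod (X.prod ptT)) (δ : (X.prod ptT).J → ℤ) :
    (tp (k - δ (.inr ())) M).M ≃ₗ[X.R] (tp k (M.shift δ)).M where
  toFun := fun m => tpMk (M := M.shift δ) (tpVal (M := M) m) (mem_wtT_shift.2 (tpVal_mem m))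
  invFun := fun m => tpMk (M := M) (tpVal (M := M.shift δ) m)
    ((mem_wtT_shift (M := M) (δ := δ)).1 (tpVal_mem (M := M.shift δ) m))
  map_add' := fun _ _ => rfl
  map_smul' := fun _ _ => rfl
  left_inv := fun _ => rfl
  right_inv := fun _ => rfl

theorem tpShift_isHom (k : ℤ) (M : GMod (X.prod ptT)) (δ : (X.prod ptT).J → ℤ) :
    ((tp (k - δ (.inr ())) M).shift fun j => δ (.inl j)).IsHom _ (tpShift k M δ).toLinearMap :=
  fun g m => Subtype.ext
    (congrArg (· • M.act (gL g) (tpVal (M := M) m)) (chr_gL (-δ) g).symm)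

/-- the inclusion of the coefficient -/
def tpInc (k : ℤ) (M : GMod (X.prod ptT)) :
    ((Mor.fst X ptT).pull (tp k M)).M →ₗ[(X.prod ptT).R] M.M :=
  (Mor.fst X ptT).pullLin (N := tp k M) (tpS k M).subtype

theorem tpInc_pin (m : (tp k M).M) : tpInc k M ((Mor.fst X ptT).pin _ m) = tpVal m :=
  Mor.pullLin_pin _ _ _

theorem tpInc_tmul (k : ℤ) (M : GMod (X.prod ptT)) (m : (tp k M).M) :
    tpInc k M ((1 : (Mor.fst X ptT).Src) ⊗ₜ m) = tpVal m := tpInc_pin m

theorem chr_tdeg (k : ℤ) (g : X.J → ℂˣ) (h : Unit → ℂˣ) :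
    chr (-tdeg X k) (gL g * gR X h) = chr (fun _ => -k) h := by
  rw [chr_mul, chr_gL, chr_gR]
  exact (congrArg (· * _) (chr_zero g)).trans (one_mul _)

theorem exists_gL_mul (g : (X.prod ptT).J → ℂˣ) : ∃ a h, g = gL a * gR X h := ⟨_, _, eq_gL_mul g⟩

theorem tpInc_isHom (k : ℤ) (M : GMod (X.prod ptT)) :
    (((Mor.fst X ptT).pull (tp k M)).shift (tdeg X k)).IsHom M (tpInc k M) := fun g y => by
  obtain ⟨m, rfl⟩ := exists_pin (N := tp k M) y
  obtain ⟨a, h, rfl⟩ := exists_gL_mul g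
  show tpInc k M (chr (-tdeg X k) _ • ((Mor.fst X ptT).pull (tp k M)).act _
    ((Mor.fst X ptT).pin _ m)) = M.act _ (tpInc k M ((Mor.fst X ptT).pin _ m))
  have e : M.act (gR X h) (tpVal m) = chr (fun _ => -k) h • tpVal m := tpVal_mem m h
  rw [LinearMap.map_smul_of_tower, Mor.act_pin, tpInc_pin, tpInc_pin, tpVal_act, M.act_mul, e,
    map_smul, chr_tdeg, tor_mul, tor_gL, tor_gR, mul_one]

theorem tpInc_mem (y : ((Mor.fst X ptT).pull (tp k M)).M) :
    tpInc k M y ∈ wt (actT M) fun _ => -k := by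
  obtain ⟨m, rfl⟩ := exists_pin (N := tp k M) y
  rw [tpInc_pin]
  exact tpVal_mem m

/-- the left inverse of the inclusion -/
def tpOut (k : ℤ) (M : GMod (X.prod ptT)) :
    M.M →ₗ[(X.prod ptT).R] ((Mor.fst X ptT).pull (tp k M)).M where
  toFun := fun m => (Mor.fst X ptT).pin _ (tpPr k M m)
  map_add' := fun a b => by rw [tpPr_add, Mor.pin_add]
  map_smul' := fun s a => by rw [tpPr_smul, Mor.pin_smul, fst_ridT, RingHom.id_apply]

theorem tpOut_apply (m : M.M) : tpOut k M m = (Mor.fst X ptT).pin _ (tpPr k M m) := rfl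

theorem tpOut_inc (y : ((Mor.fst X ptT).pull (tp k M)).M) : tpOut k M (tpInc k M y) = y := by
  obtain ⟨m, rfl⟩ := exists_pin (N := tp k M) y
  rw [tpInc_pin, tpOut_apply, tpPr_val]

theorem tpInc_out (m : M.M) : tpInc k M (tpOut k M m) = cmpT k M m := tpInc_pin _

theorem tpOut_cmpT (m : M.M) : tpOut k M (cmpT k M m) = tpOut k M m := by
  rw [← tpInc_out, tpOut_inc]

theorem tpOut_inc_ne {l : ℤ} (h : l ≠ k) (y : ((Mor.fst X ptT).pull (tp l M)).M) :
    tpOut k M (tpInc l M y) = 0 := by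
  rw [← tpOut_cmpT, cmpT_of_ne h (tpInc_mem y), map_zero]

/-- a direct sum decomposition -/
theorem exists_pi_qis {ι : Type} [Fintype ι] {N : ι → GMod X} {P : GMod X}
    (u : ∀ i, (N i).M →ₗ[X.R] P.M) (v : ∀ i, P.M →ₗ[X.R] (N i).M) (hu : ∀ i, (N i).IsHom P (u i))
    (h1 : ∀ i y, v i (u i y) = y) (h2 : ∀ i j, j ≠ i → ∀ y, v i (u j y) = 0)
    (h3 : ∀ m, ∑ i, u i (v i m) = m) : ∃ f, GMod.Qis (GMod.pi N) P f := by
  let F : (∀ i, (N i).M) →ₗ[X.R] P.M := ∑ i, u i ∘ₗ LinearMap.proj i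
  have hF : ∀ y, F y = ∑ i, u i (y i) := fun y => LinearMap.sum_apply _ _ _
  have hb : Function.Bijective F := by
    refine ⟨(injective_iff_map_eq_zero F).2 fun y hy => funext fun i => ?_,
      fun m => ⟨fun i => v i m, (hF _).trans (h3 m)⟩⟩
    have h := congrArg (v i) ((hF y).symm.trans hy)
    rw [map_sum, Finset.sum_eq_single i (fun j _ hj => h2 i j hj _)
      fun hn => (hn (Finset.mem_univ _)).elim, h1, map_zero] at h
    exact h
  refine ⟨F, fun g y => ?_, fun z => IsoAt.of_bij hb⟩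
  refine (hF _).trans (Eq.symm ((congrArg _ (hF y)).trans ((map_sum _ _ _).trans ?_)))
  exact Finset.sum_congr rfl fun i _ => (hu i g (y i)).symm

theorem exists_pi_qis_shift {ι : Type} [Fintype ι] {N : ι → GMod X} {γ : ι → X.J → ℤ} {P : GMod X}
    (u : ∀ i, (N i).M →ₗ[X.R] P.M) (v : ∀ i, P.M →ₗ[X.R] (N i).M)
    (hu : ∀ i, ((N i).shift (γ i)).IsHom P (u i))
    (h1 : ∀ i y, v i (u i y) = y) (h2 : ∀ i j, j ≠ i → ∀ y, v i (u j y) = 0)
    (h3 : ∀ m, ∑ i, u i (v i m) = m) : ∃ f, GMod.Qis (GMod.pi fun i => (N i).shift (γ i)) P f :=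
  exists_pi_qis (N := fun i => (N i).shift (γ i)) u v hu h1 h2 h3

/-- a module on `X × ptT` is the sum of its coefficients -/
theorem exists_tp_qis (M : GMod (X.prod ptT)) {s : Finset ℤ}
    (hs : ∀ k ∉ s, Subsingleton (tp k M).M) :
    ∃ f, GMod.Qis (GMod.pi fun k : s => ((Mor.fst X ptT).pull (tp k M)).shift (tdeg X k)) M f := by
  refine exists_pi_qis_shift (N := fun k : s => (Mor.fst X ptT).pull (tp k M))
    (fun k => tpInc k M) (fun k => tpOut k M) (fun k => tpInc_isHom k M) (fun _ => tpOut_inc)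
    (fun _ _ h => tpOut_inc_ne fun e => h (Subtype.ext e)) fun m => ?_
  rw [Finset.sum_congr rfl fun (k : s) _ => tpInc_out (k := k) m,
    Finset.sum_coe_sort s fun k => cmpT k M m]
  exact sum_cmpT (fun k hk m => haveI := hs k hk; cmpT_eq_zero m) m

end Vale.Agent.P297Z
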